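import Vale.Agent.P098.Six.S5.Root

/-!
# P098, six dimensions: checked pieces of the tree
-/

namespace Vale.Agent.P098.Six.S5

/-- A piece of the tree. -/
noncomputable def tree24 : Tree LeafX :=
  .s2
    (.s0
    (.s1
    (.s2
    (.leaf (.box ⟨460, 0, -2691, 6, -25, 836, 701799, 0, 0, 0, 0, 0, 0⟩ ⟨0, 0, 0, 0, 0, 0, 231328, 0, 0, 0, 0, 0, 0⟩ ⟨0, 0, 0, 0, 0, 0, 231328, 0, 0, 0, 0, 0, 0⟩ ⟨0, 0, 0, 0, 0, 0, 138489, 0, 0, 0, 0, 0, 0⟩ ⟨0, 0, 0, 0, 0, 0, 138489, 0, 0, 0, 0, 0, 0⟩ ⟨89, 0, -512, 7, -31, 149, 98826, 0, 0, 0, 0, 0, 0⟩))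
    (.leaf (.box ⟨568, 0, -3116, 6, -30, 943, 667846, 0, 0, 0, 0, 0, 0⟩ ⟨0, 0, 0, 0, 0, 0, 221703, 0, 0, 0, 0, 0, 0⟩ ⟨0, 0, 0, 0, 0, 0, 221703, 0, 0, 0, 0, 0, 0⟩ ⟨0, 0, 0, 0, 0, 0, 132913, 0, 0, 0, 0, 0, 0⟩ ⟨0, 0, 0, 0, 0, 0, 132913, 0, 0, 0, 0, 0, 0⟩ ⟨98, 0, -515, 6, -31, 139, 94904, 0, 0, 0, 0, 0, 0⟩)))
    (.s2
    (.leaf (.box ⟨575, 0, -4005, 6, -31, 1128, 691183, 0, 0, 0, 0, 0, 0⟩ ⟨0, 0, 0, 0, 0, 0, 228475, 0, 0, 0, 0, 0, 0⟩ ⟨0, 0, 0, 0, 0, 0, 228475, 0, 0, 0, 0, 0, 0⟩ ⟨0, 0, 0, 0, 0, 0, 136857, 0, 0, 0, 0, 0, 0⟩ ⟨0, 0, 0, 0, 0, 0, 136857, 0, 0, 0, 0, 0, 0⟩ ⟨88, 0, -586, 6, -30, 155, 97685, 0, 0, 0, 0, 0, 0⟩))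
    (.leaf (.box ⟨522, 0, -3413, 6, -28, 933, 656035, 0, 0, 0, 0, 0, 0⟩ ⟨0, 0, 0, 0, 0, 0, 218649, 0, 0, 0, 0, 0, 0⟩ ⟨0, 0, 0, 0, 0, 0, 218649, 0, 0, 0, 0, 0, 0⟩ ⟨0, 0, 0, 0, 0, 0, 131186, 0, 0, 0, 0, 0, 0⟩ ⟨0, 0, 0, 0, 0, 0, 131186, 0, 0, 0, 0, 0, 0⟩ ⟨108, 0, -665, 6, -34, 163, 93703, 0, 0, 0, 0, 0, 0⟩))))
    (.s1
    (.s2
    (.leaf (.box ⟨479, 0, -2276, 6, -27, 808, 746991, 0, 0, 0, 0, 0, 0⟩ ⟨0, 0, 0, 0, 0, 0, 244470, 0, 0, 0, 0, 0, 0⟩ ⟨0, 0, 0, 0, 0, 0, 244470, 0, 0, 0, 0, 0, 0⟩ ⟨0, 0, 0, 0, 0, 0, 146151, 0, 0, 0, 0, 0, 0⟩ ⟨0, 0, 0, 0, 0, 0, 146151, 0, 0, 0, 0, 0, 0⟩ ⟨114, 1, -512, 9, -39, 166, 104231, 0, 0, 0, 0, 0, 0⟩))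
    (.leaf (.box ⟨508, 0, -2205, 6, -26, 754, 714145, 0, 0, 0, 0, 0, 0⟩ ⟨0, 0, 0, 0, 0, 0, 236070, 0, 0, 0, 0, 0, 0⟩ ⟨0, 0, 0, 0, 0, 0, 236070, 0, 0, 0, 0, 0, 0⟩ ⟨0, 0, 0, 0, 0, 0, 141407, 0, 0, 0, 0, 0, 0⟩ ⟨0, 0, 0, 0, 0, 0, 141407, 0, 0, 0, 0, 0, 0⟩ ⟨122, 0, -512, 9, -38, 153, 100933, 0, 0, 0, 0, 0, 0⟩)))
    (.s2
    (.leaf (.box ⟨491, 0, -2672, 6, -26, 841, 729560, 0, 0, 0, 0, 0, 0⟩ ⟨0, 0, 0, 0, 0, 0, 240309, 0, 0, 0, 0, 0, 0⟩ ⟨0, 0, 0, 0, 0, 0, 240309, 0, 0, 0, 0, 0, 0⟩ ⟨0, 0, 0, 0, 0, 0, 143845, 0, 0, 0, 0, 0, 0⟩ ⟨0, 0, 0, 0, 0, 0, 143845, 0, 0, 0, 0, 0, 0⟩ ⟨102, 0, -512, 8, -32, 147, 102642, 0, 0, 0, 0, 0, 0⟩))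
    (.leaf (.box ⟨612, 0, -3132, 6, -31, 946, 696249, 0, 0, 0, 0, 0, 0⟩ ⟨0, 0, 0, 0, 0, 0, 231767, 0, 0, 0, 0, 0, 0⟩ ⟨0, 0, 0, 0, 0, 0, 231767, 0, 0, 0, 0, 0, 0⟩ ⟨0, 0, 0, 0, 0, 0, 139023, 0, 0, 0, 0, 0, 0⟩ ⟨0, 0, 0, 0, 0, 0, 139023, 0, 0, 0, 0, 0, 0⟩ ⟨107, 0, -512, 7, -31, 135, 99290, 0, 0, 0, 0, 0, 0⟩)))))
    (.s1
    (.s0
    (.leaf (.box ⟨655, 0, -3004, 6, -28, 837, 629501, 0, 0, 0, 0, 0, 0⟩ ⟨0, 0, 0, 0, 0, 0, 210058, 0, 0, 0, 0, 0, 0⟩ ⟨0, 0, 0, 0, 0, 0, 210058, 0, 0, 0, 0, 0, 0⟩ ⟨0, 0, 0, 0, 0, 0, 126062, 0, 0, 0, 0, 0, 0⟩ ⟨0, 0, 0, 0, 0, 0, 126062, 0, 0, 0, 0, 0, 0⟩ ⟨116, 0, -512, 6, -28, 121, 90052, 0, 0, 0, 0, 0, 0⟩))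
    (.leaf (.box ⟨607, 0, -2371, 6, -26, 727, 683428, 0, 0, 0, 0, 0, 0⟩ ⟨0, 0, 0, 0, 0, 0, 228065, 0, 0, 0, 0, 0, 0⟩ ⟨0, 0, 0, 0, 0, 0, 228065, 0, 0, 0, 0, 0, 0⟩ ⟨0, 0, 0, 0, 0, 0, 136870, 0, 0, 0, 0, 0, 0⟩ ⟨0, 0, 0, 0, 0, 0, 136870, 0, 0, 0, 0, 0, 0⟩ ⟨136, 0, -512, 8, -33, 132, 97773, 0, 0, 0, 0, 0, 0⟩)))
    (.s0
    (.leaf (.box ⟨657, -1, -3636, 6, -29, 914, 617387, 0, 0, 0, 0, 0, 0⟩ ⟨0, 0, 0, 0, 0, 0, 206722, 0, 0, 0, 0, 0, 0⟩ ⟨0, 0, 0, 0, 0, 0, 206722, 0, 0, 0, 0, 0, 0⟩ ⟨0, 0, 0, 0, 0, 0, 124145, 0, 0, 0, 0, 0, 0⟩ ⟨0, 0, 0, 0, 0, 0, 124145, 0, 0, 0, 0, 0, 0⟩ ⟨101, -1, -515, 6, -24, 111, 88709, 0, 0, 0, 0, 0, 0⟩))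
    (.leaf (.box ⟨827, 0, -3636, 6, -34, 985, 666791, 0, 0, 0, 0, 0, 0⟩ ⟨0, 0, 0, 0, 0, 0, 223759, 0, 0, 0, 0, 0, 0⟩ ⟨0, 0, 0, 0, 0, 0, 223759, 0, 0, 0, 0, 0, 0⟩ ⟨0, 0, 0, 0, 0, 0, 134436, 0, 0, 0, 0, 0, 0⟩ ⟨0, 0, 0, 0, 0, 0, 134436, 0, 0, 0, 0, 0, 0⟩ ⟨124, 0, -523, 6, -28, 120, 96081, 0, 0, 0, 0, 0, 0⟩))))

/-- A piece of the tree. -/
noncomputable def tree25 : Tree LeafX :=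
  .leaf (.box ⟨492, -1, -1422, 6, -17, 347, 321697, 0, 0, 0, 0, 0, 0⟩ ⟨0, 0, 0, 0, 0, 0, 155373, 0, 0, 0, 0, 0, 0⟩ ⟨0, 0, 0, 0, 0, 0, 155373, 0, 0, 0, 0, 0, 0⟩ ⟨0, 0, 0, 0, 0, 0, 102420, 0, 0, 0, 0, 0, 0⟩ ⟨0, 0, 0, 0, 0, 0, 102420, 0, 0, 0, 0, 0, 0⟩ ⟨189, -1, -512, 8, -22, 110, 76386, 0, 0, 0, 0, 0, 0⟩)

/-- A piece of the tree. -/
noncomputable def tree26 : Tree LeafX :=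
  .s0
    (.s2
    (.s3
    (.s1
    (.s2
    (.leaf (.box ⟨381, 0, -2559, 6, -29, 700, 460098, 0, 0, 0, 0, 0, 0⟩ ⟨168, 0, -1102, 6, -29, 295, 195520, 0, 0, 0, 0, 0, 0⟩ ⟨168, 0, -1102, 6, -29, 295, 195520, 0, 0, 0, 0, 0, 0⟩ ⟨130, 0, -831, 6, -33, 218, 127536, 0, 0, 0, 0, 0, 0⟩ ⟨130, 0, -831, 6, -33, 218, 127536, 0, 0, 0, 0, 0, 0⟩ ⟨95, 0, -613, 6, -30, 158, 98984, 0, 0, 0, 0, 0, 0⟩))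
    (.leaf (.box ⟨384, 0, -2392, 6, -33, 631, 372430, 0, 0, 0, 0, 0, 0⟩ ⟨0, 0, 0, 0, 0, 0, 183801, 0, 0, 0, 0, 0, 0⟩ ⟨0, 0, 0, 0, 0, 0, 183801, 0, 0, 0, 0, 0, 0⟩ ⟨0, 0, 0, 0, 0, 0, 122007, 0, 0, 0, 0, 0, 0⟩ ⟨0, 0, 0, 0, 0, 0, 122007, 0, 0, 0, 0, 0, 0⟩ ⟨123, 0, -710, 6, -36, 168, 91308, 0, 0, 0, 0, 0, 0⟩)))
    (.leaf (.box ⟨363, 0, -2594, 6, -31, 637, 368292, 0, 0, 0, 0, 0, 0⟩ ⟨0, 0, 0, 0, 0, 0, 182253, 0, 0, 0, 0, 0, 0⟩ ⟨0, 0, 0, 0, 0, 0, 182253, 0, 0, 0, 0, 0, 0⟩ ⟨0, 0, 0, 0, 0, 0, 121087, 0, 0, 0, 0, 0, 0⟩ ⟨0, 0, 0, 0, 0, 0, 121087, 0, 0, 0, 0, 0, 0⟩ ⟨116, 0, -688, 6, -31, 156, 90660, 0, 0, 0, 0, 0, 0⟩)))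
    (.leaf (.box ⟨424, 0, -2618, 6, -17, 645, 636953, 0, 0, 0, 0, 0, 0⟩ ⟨0, 0, 0, 0, 0, 0, 214565, 0, 0, 0, 0, 0, 0⟩ ⟨0, 0, 0, 0, 0, 0, 214565, 0, 0, 0, 0, 0, 0⟩ ⟨0, 0, 0, 0, 0, 0, 129012, 0, 0, 0, 0, 0, 0⟩ ⟨0, 0, 0, 0, 0, 0, 129012, 0, 0, 0, 0, 0, 0⟩ ⟨109, 0, -578, 6, -24, 131, 92235, 0, 0, 0, 0, 0, 0⟩)))
    (.leaf (.box ⟨461, -1, -1965, 6, -20, 445, 408245, 0, 0, 0, 0, 0, 0⟩ ⟨207, -1, -821, 6, -18, 176, 174276, 0, 0, 0, 0, 0, 0⟩ ⟨207, -1, -821, 6, -18, 176, 174276, 0, 0, 0, 0, 0, 0⟩ ⟨146, -1, -580, 6, -19, 118, 114096, 0, 0, 0, 0, 0, 0⟩ ⟨146, -1, -580, 6, -19, 118, 114096, 0, 0, 0, 0, 0, 0⟩ ⟨127, -1, -512, 7, -20, 100, 87946, 0, 0, 0, 0, 0, 0⟩)))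
    (.s2
    (.s3
    (.s1
    (.s2
    (.s3
    (.leaf (.box ⟨350, 0, -1922, 6, -29, 608, 481916, 0, 0, 0, 0, 0, 0⟩ ⟨177, 0, -927, 6, -32, 285, 204762, 0, 0, 0, 0, 0, 0⟩ ⟨177, 0, -927, 6, -32, 285, 204762, 0, 0, 0, 0, 0, 0⟩ ⟨118, 0, -599, 6, -30, 179, 133550, 0, 0, 0, 0, 0, 0⟩ ⟨118, 0, -599, 6, -30, 179, 133550, 0, 0, 0, 0, 0, 0⟩ ⟨100, 0, -512, 7, -32, 149, 104189, 0, 0, 0, 0, 0, 0⟩))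
    (.leaf (.box ⟨398, 0, -2388, 6, -30, 720, 517568, 0, 0, 0, 0, 0, 0⟩ ⟨0, 0, 0, 0, 0, 0, 217936, 0, 0, 0, 0, 0, 0⟩ ⟨0, 0, 0, 0, 0, 0, 217936, 0, 0, 0, 0, 0, 0⟩ ⟨0, 0, 0, 0, 0, 0, 138029, 0, 0, 0, 0, 0, 0⟩ ⟨0, 0, 0, 0, 0, 0, 138029, 0, 0, 0, 0, 0, 0⟩ ⟨96, 0, -551, 6, -33, 152, 100997, 0, 0, 0, 0, 0, 0⟩)))
    (.leaf (.box ⟨431, 0, -2024, 6, -29, 595, 462499, 0, 0, 0, 0, 0, 0⟩ ⟨221, 0, -1044, 6, -34, 294, 196999, 0, 0, 0, 0, 0, 0⟩ ⟨221, 0, -1044, 6, -34, 294, 196999, 0, 0, 0, 0, 0, 0⟩ ⟨127, 0, -595, 6, -28, 161, 128746, 0, 0, 0, 0, 0, 0⟩ ⟨127, 0, -595, 6, -28, 161, 128746, 0, 0, 0, 0, 0, 0⟩ ⟨109, 0, -512, 6, -30, 133, 100108, 0, 0, 0, 0, 0, 0⟩)))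
    (.s2
    (.leaf (.box ⟨405, 0, -2302, 6, -27, 636, 475629, 0, 0, 0, 0, 0, 0⟩ ⟨193, 0, -1104, 6, -30, 297, 202364, 0, 0, 0, 0, 0, 0⟩ ⟨193, 0, -1104, 6, -30, 297, 202364, 0, 0, 0, 0, 0, 0⟩ ⟨125, 0, -700, 6, -28, 183, 132131, 0, 0, 0, 0, 0, 0⟩ ⟨125, 0, -700, 6, -28, 183, 132131, 0, 0, 0, 0, 0, 0⟩ ⟨104, 0, -573, 6, -29, 146, 102649, 0, 0, 0, 0, 0, 0⟩))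
    (.leaf (.box ⟨391, -1, -2071, 6, -25, 543, 455878, 0, 0, 0, 0, 0, 0⟩ ⟨179, -1, -927, 6, -25, 233, 194521, 0, 0, 0, 0, 0, 0⟩ ⟨179, -1, -927, 6, -25, 233, 194521, 0, 0, 0, 0, 0, 0⟩ ⟨121, -1, -649, 6, -26, 157, 127308, 0, 0, 0, 0, 0, 0⟩ ⟨121, -1, -649, 6, -26, 157, 127308, 0, 0, 0, 0, 0, 0⟩ ⟨98, -1, -512, 6, -25, 119, 99128, 0, 0, 0, 0, 0, 0⟩))))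
    (.s1
    (.s2
    (.s2
    (.leaf (.box ⟨531, 0, -3442, 6, -27, 983, 737131, 0, 0, 0, 0, 0, 0⟩ ⟨0, 0, 0, 0, 0, 0, 242396, 0, 0, 0, 0, 0, 0⟩ ⟨0, 0, 0, 0, 0, 0, 242396, 0, 0, 0, 0, 0, 0⟩ ⟨0, 0, 0, 0, 0, 0, 145047, 0, 0, 0, 0, 0, 0⟩ ⟨0, 0, 0, 0, 0, 0, 145047, 0, 0, 0, 0, 0, 0⟩ ⟨78, 0, -512, 7, -26, 136, 103485, 0, 0, 0, 0, 0, 0⟩))
    (.leaf (.box ⟨526, 0, -3295, 6, -26, 928, 714964, 0, 0, 0, 0, 0, 0⟩ ⟨0, 0, 0, 0, 0, 0, 236932, 0, 0, 0, 0, 0, 0⟩ ⟨0, 0, 0, 0, 0, 0, 236932, 0, 0, 0, 0, 0, 0⟩ ⟨0, 0, 0, 0, 0, 0, 141994, 0, 0, 0, 0, 0, 0⟩ ⟨0, 0, 0, 0, 0, 0, 141994, 0, 0, 0, 0, 0, 0⟩ ⟨82, 0, -517, 6, -26, 132, 101373, 0, 0, 0, 0, 0, 0⟩)))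
    (.leaf (.box ⟨499, 0, -2912, 6, -24, 790, 680794, 0, 0, 0, 0, 0, 0⟩ ⟨0, 0, 0, 0, 0, 0, 228314, 0, 0, 0, 0, 0, 0⟩ ⟨0, 0, 0, 0, 0, 0, 228314, 0, 0, 0, 0, 0, 0⟩ ⟨0, 0, 0, 0, 0, 0, 137155, 0, 0, 0, 0, 0, 0⟩ ⟨0, 0, 0, 0, 0, 0, 137155, 0, 0, 0, 0, 0, 0⟩ ⟨103, 0, -565, 6, -28, 134, 98019, 0, 0, 0, 0, 0, 0⟩)))
    (.leaf (.box ⟨631, 0, -3915, 6, -25, 991, 745408, 0, 0, 0, 0, 0, 0⟩ ⟨202, 0, -1177, 6, -24, 287, 225292, 0, 0, 0, 0, 0, 0⟩ ⟨202, 0, -1177, 6, -24, 287, 225292, 0, 0, 0, 0, 0, 0⟩ ⟨133, 0, -735, 6, -24, 173, 136412, 0, 0, 0, 0, 0, 0⟩ ⟨133, 0, -735, 6, -24, 173, 136412, 0, 0, 0, 0, 0, 0⟩ ⟨112, 0, -585, 6, -25, 133, 98625, 0, 0, 0, 0, 0, 0⟩))))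
    (.s1
    (.s2
    (.leaf (.box ⟨331, -1, -1407, 6, -21, 369, 392709, 0, 0, 0, 0, 0, 0⟩ ⟨0, 0, 0, 0, 0, 0, 190486, 0, 0, 0, 0, 0, 0⟩ ⟨0, 0, 0, 0, 0, 0, 190486, 0, 0, 0, 0, 0, 0⟩ ⟨0, 0, 0, 0, 0, 0, 125738, 0, 0, 0, 0, 0, 0⟩ ⟨0, 0, 0, 0, 0, 0, 125738, 0, 0, 0, 0, 0, 0⟩ ⟨128, -1, -512, 8, -27, 115, 93840, 0, 0, 0, 0, 0, 0⟩))
    (.leaf (.box ⟨354, -1, -1680, 6, -23, 408, 388187, 0, 0, 0, 0, 0, 0⟩ ⟨0, 0, 0, 0, 0, 0, 188373, 0, 0, 0, 0, 0, 0⟩ ⟨0, 0, 0, 0, 0, 0, 188373, 0, 0, 0, 0, 0, 0⟩ ⟨0, 0, 0, 0, 0, 0, 124360, 0, 0, 0, 0, 0, 0⟩ ⟨0, 0, 0, 0, 0, 0, 124360, 0, 0, 0, 0, 0, 0⟩ ⟨114, -1, -512, 8, -24, 106, 92818, 0, 0, 0, 0, 0, 0⟩)))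
    (.s2
    (.leaf (.box ⟨423, -1, -2101, 6, -23, 498, 443561, 0, 0, 0, 0, 0, 0⟩ ⟨188, -1, -890, 6, -21, 200, 189565, 0, 0, 0, 0, 0, 0⟩ ⟨188, -1, -890, 6, -21, 200, 189565, 0, 0, 0, 0, 0, 0⟩ ⟨130, -1, -628, 6, -22, 134, 124219, 0, 0, 0, 0, 0, 0⟩ ⟨130, -1, -628, 6, -22, 134, 124219, 0, 0, 0, 0, 0, 0⟩ ⟨111, -1, -530, 6, -23, 108, 95833, 0, 0, 0, 0, 0, 0⟩))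
    (.leaf (.box ⟨464, -1, -2617, 6, -27, 577, 438672, 0, 0, 0, 0, 0, 0⟩ ⟨206, -1, -1147, 6, -26, 240, 187496, 0, 0, 0, 0, 0, 0⟩ ⟨206, -1, -1147, 6, -26, 240, 187496, 0, 0, 0, 0, 0, 0⟩ ⟨131, -1, -695, 6, -22, 138, 122873, 0, 0, 0, 0, 0, 0⟩ ⟨131, -1, -695, 6, -22, 138, 122873, 0, 0, 0, 0, 0, 0⟩ ⟨105, -1, -576, 6, -23, 109, 94803, 0, 0, 0, 0, 0, 0⟩)))))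

/-- A piece of the tree. -/
noncomputable def tree27 : Tree LeafX :=
  .s2
    (.s3
    (.s2
    (.s3
    (.leaf (.box ⟨398, 0, -1980, 6, -18, 468, 451430, 0, 0, 0, 0, 0, 0⟩ ⟨204, 0, -1006, 6, -21, 232, 192484, 0, 0, 0, 0, 0, 0⟩ ⟨204, 0, -1006, 6, -21, 232, 192484, 0, 0, 0, 0, 0, 0⟩ ⟨124, 0, -612, 6, -19, 138, 125918, 0, 0, 0, 0, 0, 0⟩ ⟨124, 0, -612, 6, -19, 138, 125918, 0, 0, 0, 0, 0, 0⟩ ⟨105, 0, -512, 6, -20, 113, 98469, 0, 0, 0, 0, 0, 0⟩))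
    (.leaf (.box ⟨426, 0, -2380, 6, -19, 555, 483077, 0, 0, 0, 0, 0, 0⟩ ⟨0, 0, 0, 0, 0, 0, 205267, 0, 0, 0, 0, 0, 0⟩ ⟨0, 0, 0, 0, 0, 0, 205267, 0, 0, 0, 0, 0, 0⟩ ⟨0, 0, 0, 0, 0, 0, 130321, 0, 0, 0, 0, 0, 0⟩ ⟨0, 0, 0, 0, 0, 0, 130321, 0, 0, 0, 0, 0, 0⟩ ⟨92, 0, -512, 6, -19, 111, 95465, 0, 0, 0, 0, 0, 0⟩)))
    (.leaf (.box ⟨472, -1, -2222, 6, -21, 495, 428482, 0, 0, 0, 0, 0, 0⟩ ⟨188, -1, -867, 6, -18, 186, 183339, 0, 0, 0, 0, 0, 0⟩ ⟨188, -1, -867, 6, -18, 186, 183339, 0, 0, 0, 0, 0, 0⟩ ⟨120, -1, -542, 6, -16, 112, 120268, 0, 0, 0, 0, 0, 0⟩ ⟨120, -1, -542, 6, -16, 112, 120268, 0, 0, 0, 0, 0, 0⟩ ⟨109, -1, -512, 7, -19, 102, 93780, 0, 0, 0, 0, 0, 0⟩)))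
    (.leaf (.box ⟨573, -1, -3147, 6, -18, 704, 625280, 0, 0, 0, 0, 0, 0⟩ ⟨0, 0, 0, 0, 0, 0, 213091, 0, 0, 0, 0, 0, 0⟩ ⟨0, 0, 0, 0, 0, 0, 213091, 0, 0, 0, 0, 0, 0⟩ ⟨0, 0, 0, 0, 0, 0, 128429, 0, 0, 0, 0, 0, 0⟩ ⟨0, 0, 0, 0, 0, 0, 128429, 0, 0, 0, 0, 0, 0⟩ ⟨110, -1, -512, 6, -18, 104, 91912, 0, 0, 0, 0, 0, 0⟩)))
    (.s2
    (.leaf (.box ⟨319, -2, -1535, 6, -16, 318, 358523, 0, 0, 0, 0, 0, 0⟩ ⟨0, 0, 0, 0, 0, 0, 175510, 0, 0, 0, 0, 0, 0⟩ ⟨0, 0, 0, 0, 0, 0, 175510, 0, 0, 0, 0, 0, 0⟩ ⟨0, 0, 0, 0, 0, 0, 116196, 0, 0, 0, 0, 0, 0⟩ ⟨0, 0, 0, 0, 0, 0, 116196, 0, 0, 0, 0, 0, 0⟩ ⟨109, -2, -512, 8, -18, 92, 86846, 0, 0, 0, 0, 0, 0⟩))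
    (.leaf (.box ⟨264, -2, -1483, 6, -15, 291, 350061, 0, 0, 0, 0, 0, 0⟩ ⟨0, 0, 0, 0, 0, 0, 171381, 0, 0, 0, 0, 0, 0⟩ ⟨0, 0, 0, 0, 0, 0, 171381, 0, 0, 0, 0, 0, 0⟩ ⟨0, 0, 0, 0, 0, 0, 113465, 0, 0, 0, 0, 0, 0⟩ ⟨0, 0, 0, 0, 0, 0, 113465, 0, 0, 0, 0, 0, 0⟩ ⟨96, -2, -512, 8, -17, 86, 84806, 0, 0, 0, 0, 0, 0⟩)))

/-- A piece of the tree. -/
noncomputable def tree28 : Tree LeafX :=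
  .s0
    (.s2
    (.s1
    (.leaf (.box ⟨445, 2, -512, 14, -28, 339, 473073, 0, 0, 0, 0, 0, 0⟩ ⟨0, 0, 0, 0, 0, 0, 224332, 0, 0, 0, 0, 0, 0⟩ ⟨0, 0, 0, 0, 0, 0, 224332, 0, 0, 0, 0, 0, 0⟩ ⟨0, 0, 0, 0, 0, 0, 147026, 0, 0, 0, 0, 0, 0⟩ ⟨0, 0, 0, 0, 0, 0, 147026, 0, 0, 0, 0, 0, 0⟩ ⟨475, 10, -512, 55, -105, 295, 109345, 0, 0, 0, 0, 0, 0⟩))
    (.s3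
    (.s2
    (.leaf (.box ⟨292, 1, -512, 9, -19, 259, 448070, 0, 0, 0, 0, 0, 0⟩ ⟨0, 0, 0, 0, 0, 0, 218409, 0, 0, 0, 0, 0, 0⟩ ⟨0, 0, 0, 0, 0, 0, 218409, 0, 0, 0, 0, 0, 0⟩ ⟨0, 0, 0, 0, 0, 0, 144397, 0, 0, 0, 0, 0, 0⟩ ⟨0, 0, 0, 0, 0, 0, 144397, 0, 0, 0, 0, 0, 0⟩ ⟨285, 4, -512, 31, -72, 229, 107850, 0, 0, 0, 0, 0, 0⟩))
    (.leaf (.box ⟨285, 1, -512, 8, -19, 243, 432184, 0, 0, 0, 0, 0, 0⟩ ⟨0, 0, 0, 0, 0, 0, 212116, 0, 0, 0, 0, 0, 0⟩ ⟨0, 0, 0, 0, 0, 0, 212116, 0, 0, 0, 0, 0, 0⟩ ⟨0, 0, 0, 0, 0, 0, 140549, 0, 0, 0, 0, 0, 0⟩ ⟨0, 0, 0, 0, 0, 0, 140549, 0, 0, 0, 0, 0, 0⟩ ⟨285, 2, -512, 28, -67, 207, 105091, 0, 0, 0, 0, 0, 0⟩)))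
    (.s0
    (.s1
    (.leaf (.box ⟨561, 1, -1814, 6, -28, 738, 779397, 0, 0, 0, 0, 0, 0⟩ ⟨0, 0, 0, 0, 0, 0, 255103, 0, 0, 0, 0, 0, 0⟩ ⟨0, 0, 0, 0, 0, 0, 255103, 0, 0, 0, 0, 0, 0⟩ ⟨0, 0, 0, 0, 0, 0, 152511, 0, 0, 0, 0, 0, 0⟩ ⟨0, 0, 0, 0, 0, 0, 152511, 0, 0, 0, 0, 0, 0⟩ ⟨181, 1, -512, 13, -50, 182, 108768, 0, 0, 0, 0, 0, 0⟩))
    (.s2
    (.leaf (.box ⟨488, 1, -2140, 6, -26, 778, 786726, 0, 0, 0, 0, 0, 0⟩ ⟨0, 0, 0, 0, 0, 0, 256405, 0, 0, 0, 0, 0, 0⟩ ⟨0, 0, 0, 0, 0, 0, 256405, 0, 0, 0, 0, 0, 0⟩ ⟨0, 0, 0, 0, 0, 0, 153161, 0, 0, 0, 0, 0, 0⟩ ⟨0, 0, 0, 0, 0, 0, 153161, 0, 0, 0, 0, 0, 0⟩ ⟨124, 1, -512, 9, -41, 166, 109193, 0, 0, 0, 0, 0, 0⟩))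
    (.leaf (.box ⟨451, 0, -1859, 6, -23, 641, 753617, 0, 0, 0, 0, 0, 0⟩ ⟨0, 0, 0, 0, 0, 0, 249317, 0, 0, 0, 0, 0, 0⟩ ⟨0, 0, 0, 0, 0, 0, 249317, 0, 0, 0, 0, 0, 0⟩ ⟨0, 0, 0, 0, 0, 0, 149366, 0, 0, 0, 0, 0, 0⟩ ⟨0, 0, 0, 0, 0, 0, 149366, 0, 0, 0, 0, 0, 0⟩ ⟨125, 0, -512, 10, -38, 151, 106621, 0, 0, 0, 0, 0, 0⟩))))
    (.leaf (.box ⟨434, 1, -1008, 6, -18, 451, 832776, 0, 0, 0, 0, 0, 0⟩ ⟨0, 0, 0, 0, 0, 0, 272183, 0, 0, 0, 0, 0, 0⟩ ⟨0, 0, 0, 0, 0, 0, 272183, 0, 0, 0, 0, 0, 0⟩ ⟨0, 0, 0, 0, 0, 0, 162676, 0, 0, 0, 0, 0, 0⟩ ⟨0, 0, 0, 0, 0, 0, 162676, 0, 0, 0, 0, 0, 0⟩ ⟨240, 3, -512, 19, -57, 196, 116004, 0, 0, 0, 0, 0, 0⟩)))))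
    (.s1
    (.leaf (.box ⟨413, 1, -512, 11, -22, 277, 459303, 0, 0, 0, 0, 0, 0⟩ ⟨0, 0, 0, 0, 0, 0, 220198, 0, 0, 0, 0, 0, 0⟩ ⟨0, 0, 0, 0, 0, 0, 220198, 0, 0, 0, 0, 0, 0⟩ ⟨0, 0, 0, 0, 0, 0, 144811, 0, 0, 0, 0, 0, 0⟩ ⟨0, 0, 0, 0, 0, 0, 144811, 0, 0, 0, 0, 0, 0⟩ ⟨414, 3, -512, 40, -80, 231, 107878, 0, 0, 0, 0, 0, 0⟩))
    (.s3
    (.leaf (.box ⟨281, 0, -512, 7, -16, 202, 421835, 0, 0, 0, 0, 0, 0⟩ ⟨0, 0, 0, 0, 0, 0, 208151, 0, 0, 0, 0, 0, 0⟩ ⟨0, 0, 0, 0, 0, 0, 208151, 0, 0, 0, 0, 0, 0⟩ ⟨0, 0, 0, 0, 0, 0, 138163, 0, 0, 0, 0, 0, 0⟩ ⟨0, 0, 0, 0, 0, 0, 138163, 0, 0, 0, 0, 0, 0⟩ ⟨274, 0, -512, 26, -54, 170, 103397, 0, 0, 0, 0, 0, 0⟩))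
    (.s2
    (.leaf (.box ⟨376, 0, -881, 6, -14, 323, 735723, 0, 0, 0, 0, 0, 0⟩ ⟨0, 0, 0, 0, 0, 0, 245664, 0, 0, 0, 0, 0, 0⟩ ⟨0, 0, 0, 0, 0, 0, 245664, 0, 0, 0, 0, 0, 0⟩ ⟨0, 0, 0, 0, 0, 0, 147449, 0, 0, 0, 0, 0, 0⟩ ⟨0, 0, 0, 0, 0, 0, 147449, 0, 0, 0, 0, 0, 0⟩ ⟨210, 1, -512, 19, -46, 156, 105336, 0, 0, 0, 0, 0, 0⟩))
    (.leaf (.box ⟨433, 0, -1139, 6, -16, 372, 731986, 0, 0, 0, 0, 0, 0⟩ ⟨0, 0, 0, 0, 0, 0, 245079, 0, 0, 0, 0, 0, 0⟩ ⟨0, 0, 0, 0, 0, 0, 245079, 0, 0, 0, 0, 0, 0⟩ ⟨0, 0, 0, 0, 0, 0, 147178, 0, 0, 0, 0, 0, 0⟩ ⟨0, 0, 0, 0, 0, 0, 147178, 0, 0, 0, 0, 0, 0⟩ ⟨184, 0, -512, 16, -41, 140, 105167, 0, 0, 0, 0, 0, 0⟩))))))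
    (.s2
    (.s2
    (.leaf (.box ⟨512, 4, -430, 20, -32, 365, 563948, 0, 0, 0, 0, 0, 0⟩ ⟨0, 0, 0, 0, 0, 0, 261511, 0, 0, 0, 0, 0, 0⟩ ⟨0, 0, 0, 0, 0, 0, 261511, 0, 0, 0, 0, 0, 0⟩ ⟨0, 0, 0, 0, 0, 0, 170223, 0, 0, 0, 0, 0, 0⟩ ⟨0, 0, 0, 0, 0, 0, 170223, 0, 0, 0, 0, 0, 0⟩ ⟨512, 18, -414, 71, -120, 299, 126177, 0, 0, 0, 0, 0, 0⟩))
    (.leaf (.box ⟨512, 3, -433, 15, -26, 336, 617321, 0, 0, 0, 0, 0, 0⟩ ⟨512, 6, -427, 32, -58, 312, 260528, 0, 0, 0, 0, 0, 0⟩ ⟨512, 6, -427, 32, -58, 312, 260528, 0, 0, 0, 0, 0, 0⟩ ⟨512, 9, -420, 48, -83, 289, 168836, 0, 0, 0, 0, 0, 0⟩ ⟨512, 9, -420, 48, -83, 289, 168836, 0, 0, 0, 0, 0, 0⟩ ⟨512, 12, -419, 58, -103, 270, 128703, 0, 0, 0, 0, 0, 0⟩)))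
    (.leaf (.box ⟨512, 2, -436, 14, -22, 261, 544745, 0, 0, 0, 0, 0, 0⟩ ⟨0, 0, 0, 0, 0, 0, 257710, 0, 0, 0, 0, 0, 0⟩ ⟨0, 0, 0, 0, 0, 0, 257710, 0, 0, 0, 0, 0, 0⟩ ⟨0, 0, 0, 0, 0, 0, 168778, 0, 0, 0, 0, 0, 0⟩ ⟨0, 0, 0, 0, 0, 0, 168778, 0, 0, 0, 0, 0, 0⟩ ⟨512, 7, -456, 54, -84, 228, 125477, 0, 0, 0, 0, 0, 0⟩)))

/-- A piece of the tree. -/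
noncomputable def tree29 : Tree LeafX :=
  .s0
    (.s1
    (.s3
    (.s2
    (.leaf (.box ⟨276, 0, -1105, 6, -24, 399, 437321, 0, 0, 0, 0, 0, 0⟩ ⟨0, 0, 0, 0, 0, 0, 214206, 0, 0, 0, 0, 0, 0⟩ ⟨0, 0, 0, 0, 0, 0, 214206, 0, 0, 0, 0, 0, 0⟩ ⟨0, 0, 0, 0, 0, 0, 141841, 0, 0, 0, 0, 0, 0⟩ ⟨0, 0, 0, 0, 0, 0, 141841, 0, 0, 0, 0, 0, 0⟩ ⟨134, 1, -512, 10, -41, 166, 106023, 0, 0, 0, 0, 0, 0⟩))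
    (.leaf (.box ⟨327, 0, -1283, 6, -28, 435, 421472, 0, 0, 0, 0, 0, 0⟩ ⟨0, 0, 0, 0, 0, 0, 207845, 0, 0, 0, 0, 0, 0⟩ ⟨0, 0, 0, 0, 0, 0, 207845, 0, 0, 0, 0, 0, 0⟩ ⟨0, 0, 0, 0, 0, 0, 137932, 0, 0, 0, 0, 0, 0⟩ ⟨0, 0, 0, 0, 0, 0, 137932, 0, 0, 0, 0, 0, 0⟩ ⟨134, 0, -512, 9, -39, 150, 103214, 0, 0, 0, 0, 0, 0⟩)))
    (.s0
    (.s2
    (.leaf (.box ⟨549, 0, -3405, 6, -32, 1058, 764141, 0, 0, 0, 0, 0, 0⟩ ⟨0, 0, 0, 0, 0, 0, 251675, 0, 0, 0, 0, 0, 0⟩ ⟨0, 0, 0, 0, 0, 0, 251675, 0, 0, 0, 0, 0, 0⟩ ⟨0, 0, 0, 0, 0, 0, 150646, 0, 0, 0, 0, 0, 0⟩ ⟨0, 0, 0, 0, 0, 0, 150646, 0, 0, 0, 0, 0, 0⟩ ⟨97, 0, -525, 6, -31, 146, 107494, 0, 0, 0, 0, 0, 0⟩))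
    (.leaf (.box ⟨628, 0, -3727, 6, -35, 1098, 731436, 0, 0, 0, 0, 0, 0⟩ ⟨0, 0, 0, 0, 0, 0, 244525, 0, 0, 0, 0, 0, 0⟩ ⟨0, 0, 0, 0, 0, 0, 244525, 0, 0, 0, 0, 0, 0⟩ ⟨0, 0, 0, 0, 0, 0, 146801, 0, 0, 0, 0, 0, 0⟩ ⟨0, 0, 0, 0, 0, 0, 146801, 0, 0, 0, 0, 0, 0⟩ ⟨113, 0, -622, 6, -35, 158, 104884, 0, 0, 0, 0, 0, 0⟩)))
    (.leaf (.box ⟨455, 0, -2035, 6, -22, 659, 763892, 0, 0, 0, 0, 0, 0⟩ ⟨0, 0, 0, 0, 0, 0, 254491, 0, 0, 0, 0, 0, 0⟩ ⟨0, 0, 0, 0, 0, 0, 254491, 0, 0, 0, 0, 0, 0⟩ ⟨0, 0, 0, 0, 0, 0, 152678, 0, 0, 0, 0, 0, 0⟩ ⟨0, 0, 0, 0, 0, 0, 152678, 0, 0, 0, 0, 0, 0⟩ ⟨132, 0, -512, 7, -34, 144, 109050, 0, 0, 0, 0, 0, 0⟩))))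
    (.s3
    (.s2
    (.leaf (.box ⟨363, 0, -1697, 6, -26, 540, 503502, 0, 0, 0, 0, 0, 0⟩ ⟨159, 0, -717, 6, -25, 220, 214081, 0, 0, 0, 0, 0, 0⟩ ⟨159, 0, -717, 6, -25, 220, 214081, 0, 0, 0, 0, 0, 0⟩ ⟨120, 0, -512, 7, -26, 152, 139705, 0, 0, 0, 0, 0, 0⟩ ⟨120, 0, -512, 7, -26, 152, 139705, 0, 0, 0, 0, 0, 0⟩ ⟨116, 0, -512, 9, -32, 146, 108476, 0, 0, 0, 0, 0, 0⟩))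
    (.leaf (.box ⟨428, 0, -1919, 6, -29, 572, 486371, 0, 0, 0, 0, 0, 0⟩ ⟨212, 0, -938, 6, -32, 267, 207514, 0, 0, 0, 0, 0, 0⟩ ⟨212, 0, -938, 6, -32, 267, 207514, 0, 0, 0, 0, 0, 0⟩ ⟨121, 0, -527, 6, -26, 143, 135802, 0, 0, 0, 0, 0, 0⟩ ⟨121, 0, -527, 6, -26, 143, 135802, 0, 0, 0, 0, 0, 0⟩ ⟨116, 0, -512, 7, -31, 132, 105734, 0, 0, 0, 0, 0, 0⟩)))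
    (.s1
    (.s2
    (.leaf (.box ⟨491, 0, -3120, 6, -27, 928, 754361, 0, 0, 0, 0, 0, 0⟩ ⟨0, 0, 0, 0, 0, 0, 249625, 0, 0, 0, 0, 0, 0⟩ ⟨0, 0, 0, 0, 0, 0, 249625, 0, 0, 0, 0, 0, 0⟩ ⟨0, 0, 0, 0, 0, 0, 149558, 0, 0, 0, 0, 0, 0⟩ ⟨0, 0, 0, 0, 0, 0, 149558, 0, 0, 0, 0, 0, 0⟩ ⟨86, 0, -512, 7, -28, 136, 106760, 0, 0, 0, 0, 0, 0⟩))
    (.leaf (.box ⟨442, 0, -2683, 6, -24, 753, 721501, 0, 0, 0, 0, 0, 0⟩ ⟨0, 0, 0, 0, 0, 0, 242515, 0, 0, 0, 0, 0, 0⟩ ⟨0, 0, 0, 0, 0, 0, 242515, 0, 0, 0, 0, 0, 0⟩ ⟨0, 0, 0, 0, 0, 0, 145753, 0, 0, 0, 0, 0, 0⟩ ⟨0, 0, 0, 0, 0, 0, 145753, 0, 0, 0, 0, 0, 0⟩ ⟨102, 0, -587, 6, -31, 141, 104184, 0, 0, 0, 0, 0, 0⟩)))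
    (.s2
    (.leaf (.box ⟨432, 0, -2938, 6, -21, 832, 824258, 0, 0, 0, 0, 0, 0⟩ ⟨179, 0, -1173, 6, -27, 320, 247628, 0, 0, 0, 0, 0, 0⟩ ⟨179, 0, -1173, 6, -27, 320, 247628, 0, 0, 0, 0, 0, 0⟩ ⟨113, 0, -723, 6, -27, 190, 149365, 0, 0, 0, 0, 0, 0⟩ ⟨113, 0, -723, 6, -27, 190, 149365, 0, 0, 0, 0, 0, 0⟩ ⟨90, 0, -566, 6, -28, 143, 107599, 0, 0, 0, 0, 0, 0⟩))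
    (.leaf (.box ⟨589, 0, -3769, 6, -31, 1005, 712274, 0, 0, 0, 0, 0, 0⟩ ⟨0, 0, 0, 0, 0, 0, 240756, 0, 0, 0, 0, 0, 0⟩ ⟨0, 0, 0, 0, 0, 0, 240756, 0, 0, 0, 0, 0, 0⟩ ⟨0, 0, 0, 0, 0, 0, 144860, 0, 0, 0, 0, 0, 0⟩ ⟨0, 0, 0, 0, 0, 0, 144860, 0, 0, 0, 0, 0, 0⟩ ⟨107, 0, -658, 6, -32, 151, 103596, 0, 0, 0, 0, 0, 0⟩))))))
    (.s1
    (.s2
    (.s2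
    (.leaf (.box ⟨240, 1, -777, 6, -19, 315, 500494, 0, 0, 0, 0, 0, 0⟩ ⟨0, 0, 0, 0, 0, 0, 236061, 0, 0, 0, 0, 0, 0⟩ ⟨0, 0, 0, 0, 0, 0, 236061, 0, 0, 0, 0, 0, 0⟩ ⟨0, 0, 0, 0, 0, 0, 154456, 0, 0, 0, 0, 0, 0⟩ ⟨0, 0, 0, 0, 0, 0, 154456, 0, 0, 0, 0, 0, 0⟩ ⟨164, 2, -512, 13, -49, 184, 114777, 0, 0, 0, 0, 0, 0⟩))
    (.leaf (.box ⟨226, 0, -708, 6, -17, 280, 488903, 0, 0, 0, 0, 0, 0⟩ ⟨0, 0, 0, 0, 0, 0, 232545, 0, 0, 0, 0, 0, 0⟩ ⟨0, 0, 0, 0, 0, 0, 232545, 0, 0, 0, 0, 0, 0⟩ ⟨0, 0, 0, 0, 0, 0, 152553, 0, 0, 0, 0, 0, 0⟩ ⟨0, 0, 0, 0, 0, 0, 152553, 0, 0, 0, 0, 0, 0⟩ ⟨165, 1, -512, 14, -47, 176, 113508, 0, 0, 0, 0, 0, 0⟩)))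
    (.leaf (.box ⟨274, 0, -827, 6, -20, 308, 473482, 0, 0, 0, 0, 0, 0⟩ ⟨0, 0, 0, 0, 0, 0, 227701, 0, 0, 0, 0, 0, 0⟩ ⟨0, 0, 0, 0, 0, 0, 227701, 0, 0, 0, 0, 0, 0⟩ ⟨0, 0, 0, 0, 0, 0, 149893, 0, 0, 0, 0, 0, 0⟩ ⟨0, 0, 0, 0, 0, 0, 149893, 0, 0, 0, 0, 0, 0⟩ ⟨181, 1, -512, 13, -45, 161, 111717, 0, 0, 0, 0, 0, 0⟩)))
    (.s3
    (.s2
    (.leaf (.box ⟨252, 0, -958, 6, -22, 358, 462143, 0, 0, 0, 0, 0, 0⟩ ⟨0, 0, 0, 0, 0, 0, 226422, 0, 0, 0, 0, 0, 0⟩ ⟨0, 0, 0, 0, 0, 0, 226422, 0, 0, 0, 0, 0, 0⟩ ⟨0, 0, 0, 0, 0, 0, 149942, 0, 0, 0, 0, 0, 0⟩ ⟨0, 0, 0, 0, 0, 0, 149942, 0, 0, 0, 0, 0, 0⟩ ⟨139, 1, -512, 10, -44, 168, 112083, 0, 0, 0, 0, 0, 0⟩))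
    (.leaf (.box ⟨319, 0, -1213, 6, -28, 419, 447910, 0, 0, 0, 0, 0, 0⟩ ⟨0, 0, 0, 0, 0, 0, 221460, 0, 0, 0, 0, 0, 0⟩ ⟨0, 0, 0, 0, 0, 0, 221460, 0, 0, 0, 0, 0, 0⟩ ⟨0, 0, 0, 0, 0, 0, 147094, 0, 0, 0, 0, 0, 0⟩ ⟨0, 0, 0, 0, 0, 0, 147094, 0, 0, 0, 0, 0, 0⟩ ⟨140, 0, -512, 10, -40, 151, 110116, 0, 0, 0, 0, 0, 0⟩)))
    (.s0
    (.s2
    (.leaf (.box ⟨528, 0, -3103, 6, -31, 995, 807302, 0, 0, 0, 0, 0, 0⟩ ⟨0, 0, 0, 0, 0, 0, 266041, 0, 0, 0, 0, 0, 0⟩ ⟨0, 0, 0, 0, 0, 0, 266041, 0, 0, 0, 0, 0, 0⟩ ⟨0, 0, 0, 0, 0, 0, 159262, 0, 0, 0, 0, 0, 0⟩ ⟨0, 0, 0, 0, 0, 0, 159262, 0, 0, 0, 0, 0, 0⟩ ⟨101, 0, -512, 7, -32, 144, 113648, 0, 0, 0, 0, 0, 0⟩))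
    (.leaf (.box ⟨663, 0, -3682, 6, -37, 1104, 775309, 0, 0, 0, 0, 0, 0⟩ ⟨0, 0, 0, 0, 0, 0, 260679, 0, 0, 0, 0, 0, 0⟩ ⟨0, 0, 0, 0, 0, 0, 260679, 0, 0, 0, 0, 0, 0⟩ ⟨0, 0, 0, 0, 0, 0, 156679, 0, 0, 0, 0, 0, 0⟩ ⟨0, 0, 0, 0, 0, 0, 156679, 0, 0, 0, 0, 0, 0⟩ ⟨120, 0, -628, 6, -37, 159, 111997, 0, 0, 0, 0, 0, 0⟩)))
    (.leaf (.box ⟨593, 0, -2480, 6, -28, 825, 815034, 0, 0, 0, 0, 0, 0⟩ ⟨0, 0, 0, 0, 0, 0, 272773, 0, 0, 0, 0, 0, 0⟩ ⟨0, 0, 0, 0, 0, 0, 272773, 0, 0, 0, 0, 0, 0⟩ ⟨0, 0, 0, 0, 0, 0, 163796, 0, 0, 0, 0, 0, 0⟩ ⟨0, 0, 0, 0, 0, 0, 163796, 0, 0, 0, 0, 0, 0⟩ ⟨144, 0, -512, 8, -35, 145, 117037, 0, 0, 0, 0, 0, 0⟩)))))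

/-- A piece of the tree. -/
noncomputable def tree30 : Tree LeafX :=
  .s1
    (.s3
    (.s2
    (.s2
    (.leaf (.box ⟨261, 0, -1515, 6, -22, 437, 432449, 0, 0, 0, 0, 0, 0⟩ ⟨0, 0, 0, 0, 0, 0, 212539, 0, 0, 0, 0, 0, 0⟩ ⟨0, 0, 0, 0, 0, 0, 212539, 0, 0, 0, 0, 0, 0⟩ ⟨0, 0, 0, 0, 0, 0, 140892, 0, 0, 0, 0, 0, 0⟩ ⟨0, 0, 0, 0, 0, 0, 140892, 0, 0, 0, 0, 0, 0⟩ ⟨92, 0, -512, 7, -27, 134, 105371, 0, 0, 0, 0, 0, 0⟩))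
    (.leaf (.box ⟨293, 0, -1652, 6, -24, 465, 421148, 0, 0, 0, 0, 0, 0⟩ ⟨0, 0, 0, 0, 0, 0, 208116, 0, 0, 0, 0, 0, 0⟩ ⟨0, 0, 0, 0, 0, 0, 208116, 0, 0, 0, 0, 0, 0⟩ ⟨0, 0, 0, 0, 0, 0, 138207, 0, 0, 0, 0, 0, 0⟩ ⟨0, 0, 0, 0, 0, 0, 138207, 0, 0, 0, 0, 0, 0⟩ ⟨93, 0, -512, 6, -27, 128, 103454, 0, 0, 0, 0, 0, 0⟩)))
    (.leaf (.box ⟨320, -1, -1638, 6, -25, 436, 405049, 0, 0, 0, 0, 0, 0⟩ ⟨0, 0, 0, 0, 0, 0, 201856, 0, 0, 0, 0, 0, 0⟩ ⟨0, 0, 0, 0, 0, 0, 201856, 0, 0, 0, 0, 0, 0⟩ ⟨0, 0, 0, 0, 0, 0, 134422, 0, 0, 0, 0, 0, 0⟩ ⟨0, 0, 0, 0, 0, 0, 134422, 0, 0, 0, 0, 0, 0⟩ ⟨106, -1, -512, 7, -26, 118, 100761, 0, 0, 0, 0, 0, 0⟩)))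
    (.s2
    (.s2
    (.leaf (.box ⟨361, 0, -2453, 6, -17, 657, 753032, 0, 0, 0, 0, 0, 0⟩ ⟨0, 0, 0, 0, 0, 0, 249881, 0, 0, 0, 0, 0, 0⟩ ⟨0, 0, 0, 0, 0, 0, 249881, 0, 0, 0, 0, 0, 0⟩ ⟨0, 0, 0, 0, 0, 0, 149794, 0, 0, 0, 0, 0, 0⟩ ⟨0, 0, 0, 0, 0, 0, 149794, 0, 0, 0, 0, 0, 0⟩ ⟨80, 0, -536, 6, -24, 130, 106954, 0, 0, 0, 0, 0, 0⟩))
    (.leaf (.box ⟨442, 0, -2941, 6, -21, 770, 729370, 0, 0, 0, 0, 0, 0⟩ ⟨0, 0, 0, 0, 0, 0, 244948, 0, 0, 0, 0, 0, 0⟩ ⟨0, 0, 0, 0, 0, 0, 244948, 0, 0, 0, 0, 0, 0⟩ ⟨0, 0, 0, 0, 0, 0, 147190, 0, 0, 0, 0, 0, 0⟩ ⟨0, 0, 0, 0, 0, 0, 147190, 0, 0, 0, 0, 0, 0⟩ ⟨88, 0, -569, 6, -25, 132, 105203, 0, 0, 0, 0, 0, 0⟩)))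
    (.leaf (.box ⟨465, -1, -2724, 6, -18, 678, 782170, 0, 0, 0, 0, 0, 0⟩ ⟨213, -1, -1245, 6, -26, 295, 237392, 0, 0, 0, 0, 0, 0⟩ ⟨213, -1, -1245, 6, -26, 295, 237392, 0, 0, 0, 0, 0, 0⟩ ⟨134, -1, -767, 6, -25, 173, 144119, 0, 0, 0, 0, 0, 0⟩ ⟨134, -1, -767, 6, -25, 173, 144119, 0, 0, 0, 0, 0, 0⟩ ⟨92, -1, -531, 6, -22, 114, 104457, 0, 0, 0, 0, 0, 0⟩))))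
    (.s3
    (.s2
    (.s2
    (.leaf (.box ⟨304, 0, -1944, 6, -23, 510, 426866, 0, 0, 0, 0, 0, 0⟩ ⟨0, 0, 0, 0, 0, 0, 210681, 0, 0, 0, 0, 0, 0⟩ ⟨0, 0, 0, 0, 0, 0, 210681, 0, 0, 0, 0, 0, 0⟩ ⟨0, 0, 0, 0, 0, 0, 139853, 0, 0, 0, 0, 0, 0⟩ ⟨0, 0, 0, 0, 0, 0, 139853, 0, 0, 0, 0, 0, 0⟩ ⟨85, 0, -536, 6, -24, 128, 104665, 0, 0, 0, 0, 0, 0⟩))
    (.leaf (.box ⟨326, -1, -2050, 6, -26, 524, 415329, 0, 0, 0, 0, 0, 0⟩ ⟨0, 0, 0, 0, 0, 0, 206256, 0, 0, 0, 0, 0, 0⟩ ⟨0, 0, 0, 0, 0, 0, 206256, 0, 0, 0, 0, 0, 0⟩ ⟨0, 0, 0, 0, 0, 0, 137194, 0, 0, 0, 0, 0, 0⟩ ⟨0, 0, 0, 0, 0, 0, 137194, 0, 0, 0, 0, 0, 0⟩ ⟨87, -1, -512, 6, -23, 116, 102779, 0, 0, 0, 0, 0, 0⟩)))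
    (.leaf (.box ⟨370, -1, -2107, 6, -27, 509, 399068, 0, 0, 0, 0, 0, 0⟩ ⟨0, 0, 0, 0, 0, 0, 200067, 0, 0, 0, 0, 0, 0⟩ ⟨0, 0, 0, 0, 0, 0, 200067, 0, 0, 0, 0, 0, 0⟩ ⟨0, 0, 0, 0, 0, 0, 133497, 0, 0, 0, 0, 0, 0⟩ ⟨0, 0, 0, 0, 0, 0, 133497, 0, 0, 0, 0, 0, 0⟩ ⟨110, -1, -583, 6, -25, 122, 100167, 0, 0, 0, 0, 0, 0⟩)))
    (.s2
    (.leaf (.box ⟨489, 0, -3446, 6, -21, 842, 715837, 0, 0, 0, 0, 0, 0⟩ ⟨0, 0, 0, 0, 0, 0, 242995, 0, 0, 0, 0, 0, 0⟩ ⟨0, 0, 0, 0, 0, 0, 242995, 0, 0, 0, 0, 0, 0⟩ ⟨0, 0, 0, 0, 0, 0, 146335, 0, 0, 0, 0, 0, 0⟩ ⟨0, 0, 0, 0, 0, 0, 146335, 0, 0, 0, 0, 0, 0⟩ ⟨94, 0, -598, 6, -22, 131, 104690, 0, 0, 0, 0, 0, 0⟩))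
    (.leaf (.box ⟨463, -1, -3006, 6, -19, 689, 681671, 0, 0, 0, 0, 0, 0⟩ ⟨0, 0, 0, 0, 0, 0, 236152, 0, 0, 0, 0, 0, 0⟩ ⟨0, 0, 0, 0, 0, 0, 236152, 0, 0, 0, 0, 0, 0⟩ ⟨0, 0, 0, 0, 0, 0, 142814, 0, 0, 0, 0, 0, 0⟩ ⟨0, 0, 0, 0, 0, 0, 142814, 0, 0, 0, 0, 0, 0⟩ ⟨107, -1, -672, 6, -24, 133, 102357, 0, 0, 0, 0, 0, 0⟩))))

/-- A piece of the tree. -/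
noncomputable def tree31 : Tree LeafX :=
  .s3
    (.s1
    (.s3
    (.leaf (.box ⟨328, 0, -1191, 6, -25, 388, 431662, 0, 0, 0, 0, 0, 0⟩ ⟨0, 0, 0, 0, 0, 0, 217046, 0, 0, 0, 0, 0, 0⟩ ⟨0, 0, 0, 0, 0, 0, 217046, 0, 0, 0, 0, 0, 0⟩ ⟨0, 0, 0, 0, 0, 0, 144969, 0, 0, 0, 0, 0, 0⟩ ⟨0, 0, 0, 0, 0, 0, 144969, 0, 0, 0, 0, 0, 0⟩ ⟨152, 0, -512, 8, -37, 145, 108829, 0, 0, 0, 0, 0, 0⟩))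
    (.leaf (.box ⟨424, 0, -1653, 6, -21, 513, 641526, 0, 0, 0, 0, 0, 0⟩ ⟨209, 0, -797, 6, -26, 235, 237282, 0, 0, 0, 0, 0, 0⟩ ⟨209, 0, -797, 6, -26, 235, 237282, 0, 0, 0, 0, 0, 0⟩ ⟨151, 0, -531, 6, -26, 149, 149947, 0, 0, 0, 0, 0, 0⟩ ⟨151, 0, -531, 6, -26, 149, 149947, 0, 0, 0, 0, 0, 0⟩ ⟨142, 0, -512, 8, -32, 137, 113348, 0, 0, 0, 0, 0, 0⟩)))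
    (.s2
    (.s2
    (.leaf (.box ⟨322, 0, -1730, 6, -23, 523, 533678, 0, 0, 0, 0, 0, 0⟩ ⟨143, 0, -760, 6, -23, 221, 227006, 0, 0, 0, 0, 0, 0⟩ ⟨143, 0, -760, 6, -23, 221, 227006, 0, 0, 0, 0, 0, 0⟩ ⟨104, 0, -539, 6, -24, 151, 148190, 0, 0, 0, 0, 0, 0⟩ ⟨104, 0, -539, 6, -24, 151, 148190, 0, 0, 0, 0, 0, 0⟩ ⟨100, 0, -512, 8, -28, 138, 115102, 0, 0, 0, 0, 0, 0⟩))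
    (.leaf (.box ⟨317, 0, -1686, 6, -27, 494, 442892, 0, 0, 0, 0, 0, 0⟩ ⟨0, 0, 0, 0, 0, 0, 219608, 0, 0, 0, 0, 0, 0⟩ ⟨0, 0, 0, 0, 0, 0, 219608, 0, 0, 0, 0, 0, 0⟩ ⟨0, 0, 0, 0, 0, 0, 146002, 0, 0, 0, 0, 0, 0⟩ ⟨0, 0, 0, 0, 0, 0, 146002, 0, 0, 0, 0, 0, 0⟩ ⟨103, 0, -512, 7, -29, 131, 109350, 0, 0, 0, 0, 0, 0⟩)))
    (.leaf (.box ⟨378, -1, -1810, 6, -25, 496, 508359, 0, 0, 0, 0, 0, 0⟩ ⟨166, -1, -772, 6, -23, 201, 218058, 0, 0, 0, 0, 0, 0⟩ ⟨166, -1, -772, 6, -23, 201, 218058, 0, 0, 0, 0, 0, 0⟩ ⟨120, -1, -549, 6, -24, 135, 143321, 0, 0, 0, 0, 0, 0⟩ ⟨120, -1, -549, 6, -24, 135, 143321, 0, 0, 0, 0, 0, 0⟩ ⟨114, -1, -512, 7, -27, 120, 112055, 0, 0, 0, 0, 0, 0⟩))))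
    (.s1
    (.s2
    (.s0
    (.leaf (.box ⟨429, 0, -2773, 6, -23, 804, 784130, 0, 0, 0, 0, 0, 0⟩ ⟨0, 0, 0, 0, 0, 0, 261773, 0, 0, 0, 0, 0, 0⟩ ⟨0, 0, 0, 0, 0, 0, 261773, 0, 0, 0, 0, 0, 0⟩ ⟨0, 0, 0, 0, 0, 0, 157112, 0, 0, 0, 0, 0, 0⟩ ⟨0, 0, 0, 0, 0, 0, 157112, 0, 0, 0, 0, 0, 0⟩ ⟨97, 0, -571, 6, -29, 145, 112237, 0, 0, 0, 0, 0, 0⟩))
    (.leaf (.box ⟨469, 0, -2846, 6, -27, 884, 819492, 0, 0, 0, 0, 0, 0⟩ ⟨0, 0, 0, 0, 0, 0, 272176, 0, 0, 0, 0, 0, 0⟩ ⟨0, 0, 0, 0, 0, 0, 272176, 0, 0, 0, 0, 0, 0⟩ ⟨0, 0, 0, 0, 0, 0, 163187, 0, 0, 0, 0, 0, 0⟩ ⟨0, 0, 0, 0, 0, 0, 163187, 0, 0, 0, 0, 0, 0⟩ ⟨99, 0, -512, 7, -30, 138, 116526, 0, 0, 0, 0, 0, 0⟩)))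
    (.leaf (.box ⟨658, 0, -3295, 6, -27, 921, 844624, 0, 0, 0, 0, 0, 0⟩ ⟨219, 0, -1083, 6, -28, 286, 256100, 0, 0, 0, 0, 0, 0⟩ ⟨219, 0, -1083, 6, -28, 286, 256100, 0, 0, 0, 0, 0, 0⟩ ⟨123, 0, -600, 6, -24, 150, 155382, 0, 0, 0, 0, 0, 0⟩ ⟨123, 0, -600, 6, -24, 150, 155382, 0, 0, 0, 0, 0, 0⟩ ⟨106, 0, -512, 7, -26, 121, 112556, 0, 0, 0, 0, 0, 0⟩)))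
    (.s3
    (.s2
    (.s2
    (.leaf (.box ⟨495, 0, -3365, 6, -27, 955, 779598, 0, 0, 0, 0, 0, 0⟩ ⟨0, 0, 0, 0, 0, 0, 262856, 0, 0, 0, 0, 0, 0⟩ ⟨0, 0, 0, 0, 0, 0, 262856, 0, 0, 0, 0, 0, 0⟩ ⟨0, 0, 0, 0, 0, 0, 158078, 0, 0, 0, 0, 0, 0⟩ ⟨0, 0, 0, 0, 0, 0, 158078, 0, 0, 0, 0, 0, 0⟩ ⟨77, 0, -531, 6, -26, 133, 113024, 0, 0, 0, 0, 0, 0⟩))
    (.leaf (.box ⟨524, 0, -3403, 6, -28, 938, 755589, 0, 0, 0, 0, 0, 0⟩ ⟨0, 0, 0, 0, 0, 0, 258649, 0, 0, 0, 0, 0, 0⟩ ⟨0, 0, 0, 0, 0, 0, 258649, 0, 0, 0, 0, 0, 0⟩ ⟨0, 0, 0, 0, 0, 0, 156030, 0, 0, 0, 0, 0, 0⟩ ⟨0, 0, 0, 0, 0, 0, 156030, 0, 0, 0, 0, 0, 0⟩ ⟨96, 0, -627, 6, -30, 149, 111709, 0, 0, 0, 0, 0, 0⟩)))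
    (.leaf (.box ⟨468, -1, -2689, 6, -23, 697, 724704, 0, 0, 0, 0, 0, 0⟩ ⟨0, 0, 0, 0, 0, 0, 253848, 0, 0, 0, 0, 0, 0⟩ ⟨0, 0, 0, 0, 0, 0, 253848, 0, 0, 0, 0, 0, 0⟩ ⟨0, 0, 0, 0, 0, 0, 153873, 0, 0, 0, 0, 0, 0⟩ ⟨0, 0, 0, 0, 0, 0, 153873, 0, 0, 0, 0, 0, 0⟩ ⟨94, -1, -547, 6, -25, 120, 110395, 0, 0, 0, 0, 0, 0⟩)))
    (.s2
    (.s0
    (.leaf (.box ⟨470, 0, -3938, 6, -18, 1028, 1128374, 0, 0, 0, 0, 0, 0⟩ ⟨0, 0, 0, 0, 0, 0, 280905, 0, 0, 0, 0, 0, 0⟩ ⟨0, 0, 0, 0, 0, 0, 280905, 0, 0, 0, 0, 0, 0⟩ ⟨0, 0, 0, 0, 0, 0, 160421, 0, 0, 0, 0, 0, 0⟩ ⟨0, 0, 0, 0, 0, 0, 160421, 0, 0, 0, 0, 0, 0⟩ ⟨105, 0, -745, 6, -30, 171, 112267, 0, 0, 0, 0, 0, 0⟩))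
    (.leaf (.box ⟨760, 0, -5989, 6, -31, 1661, 1177407, 0, 0, 0, 0, 0, 0⟩ ⟨0, 0, 0, 0, 0, 0, 291382, 0, 0, 0, 0, 0, 0⟩ ⟨0, 0, 0, 0, 0, 0, 291382, 0, 0, 0, 0, 0, 0⟩ ⟨0, 0, 0, 0, 0, 0, 166265, 0, 0, 0, 0, 0, 0⟩ ⟨0, 0, 0, 0, 0, 0, 166265, 0, 0, 0, 0, 0, 0⟩ ⟨102, 0, -705, 6, -32, 169, 116318, 0, 0, 0, 0, 0, 0⟩)))
    (.leaf (.box ⟨862, -1, -5421, 6, -29, 1359, 1068822, 0, 0, 0, 0, 0, 0⟩ ⟨0, 0, 0, 0, 0, 0, 276036, 0, 0, 0, 0, 0, 0⟩ ⟨0, 0, 0, 0, 0, 0, 276036, 0, 0, 0, 0, 0, 0⟩ ⟨0, 0, 0, 0, 0, 0, 158484, 0, 0, 0, 0, 0, 0⟩ ⟨0, 0, 0, 0, 0, 0, 158484, 0, 0, 0, 0, 0, 0⟩ ⟨101, -1, -639, 6, -27, 135, 111149, 0, 0, 0, 0, 0, 0⟩)))))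

/-- A piece of the tree. -/
noncomputable def tree32 : Tree LeafX :=
  .s1
    (.s0
    (.s0
    (.s1
    (.s2
    (.leaf (.box ⟨389, 0, -1650, 6, -27, 469, 425061, 0, 0, 0, 0, 0, 0⟩ ⟨0, 0, 0, 0, 0, 0, 206115, 0, 0, 0, 0, 0, 0⟩ ⟨0, 0, 0, 0, 0, 0, 206115, 0, 0, 0, 0, 0, 0⟩ ⟨0, 0, 0, 0, 0, 0, 136041, 0, 0, 0, 0, 0, 0⟩ ⟨0, 0, 0, 0, 0, 0, 136041, 0, 0, 0, 0, 0, 0⟩ ⟨126, 0, -512, 6, -30, 123, 101525, 0, 0, 0, 0, 0, 0⟩))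
    (.leaf (.box ⟨363, -1, -1638, 6, -25, 423, 423699, 0, 0, 0, 0, 0, 0⟩ ⟨0, 0, 0, 0, 0, 0, 205665, 0, 0, 0, 0, 0, 0⟩ ⟨0, 0, 0, 0, 0, 0, 205665, 0, 0, 0, 0, 0, 0⟩ ⟨0, 0, 0, 0, 0, 0, 135789, 0, 0, 0, 0, 0, 0⟩ ⟨0, 0, 0, 0, 0, 0, 135789, 0, 0, 0, 0, 0, 0⟩ ⟨114, -1, -512, 7, -27, 112, 101353, 0, 0, 0, 0, 0, 0⟩)))
    (.leaf (.box ⟨524, -1, -2206, 6, -26, 535, 476439, 0, 0, 0, 0, 0, 0⟩ ⟨239, -1, -970, 6, -25, 223, 203776, 0, 0, 0, 0, 0, 0⟩ ⟨239, -1, -970, 6, -25, 223, 203776, 0, 0, 0, 0, 0, 0⟩ ⟨163, -1, -653, 6, -24, 142, 133616, 0, 0, 0, 0, 0, 0⟩ ⟨163, -1, -653, 6, -24, 142, 133616, 0, 0, 0, 0, 0, 0⟩ ⟨131, -1, -525, 6, -24, 109, 103146, 0, 0, 0, 0, 0, 0⟩)))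
    (.s1
    (.leaf (.box ⟨473, 0, -1617, 6, -28, 462, 443657, 0, 0, 0, 0, 0, 0⟩ ⟨0, 0, 0, 0, 0, 0, 215148, 0, 0, 0, 0, 0, 0⟩ ⟨0, 0, 0, 0, 0, 0, 215148, 0, 0, 0, 0, 0, 0⟩ ⟨0, 0, 0, 0, 0, 0, 142007, 0, 0, 0, 0, 0, 0⟩ ⟨0, 0, 0, 0, 0, 0, 142007, 0, 0, 0, 0, 0, 0⟩ ⟨152, 0, -512, 8, -31, 124, 105978, 0, 0, 0, 0, 0, 0⟩))
    (.s3
    (.leaf (.box ⟨425, -1, -1826, 6, -30, 482, 421979, 0, 0, 0, 0, 0, 0⟩ ⟨0, 0, 0, 0, 0, 0, 210012, 0, 0, 0, 0, 0, 0⟩ ⟨0, 0, 0, 0, 0, 0, 210012, 0, 0, 0, 0, 0, 0⟩ ⟨0, 0, 0, 0, 0, 0, 139792, 0, 0, 0, 0, 0, 0⟩ ⟨0, 0, 0, 0, 0, 0, 139792, 0, 0, 0, 0, 0, 0⟩ ⟨126, -1, -512, 7, -28, 115, 104763, 0, 0, 0, 0, 0, 0⟩))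
    (.leaf (.box ⟨809, -1, -4025, 6, -33, 989, 726077, 0, 0, 0, 0, 0, 0⟩ ⟨0, 0, 0, 0, 0, 0, 247521, 0, 0, 0, 0, 0, 0⟩ ⟨0, 0, 0, 0, 0, 0, 247521, 0, 0, 0, 0, 0, 0⟩ ⟨0, 0, 0, 0, 0, 0, 149190, 0, 0, 0, 0, 0, 0⟩ ⟨0, 0, 0, 0, 0, 0, 149190, 0, 0, 0, 0, 0, 0⟩ ⟨135, -1, -662, 6, -31, 137, 106773, 0, 0, 0, 0, 0, 0⟩)))))
    (.s0
    (.s2
    (.s2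
    (.leaf (.box ⟨373, 0, -1246, 6, -24, 388, 456946, 0, 0, 0, 0, 0, 0⟩ ⟨0, 0, 0, 0, 0, 0, 221978, 0, 0, 0, 0, 0, 0⟩ ⟨0, 0, 0, 0, 0, 0, 221978, 0, 0, 0, 0, 0, 0⟩ ⟨0, 0, 0, 0, 0, 0, 146596, 0, 0, 0, 0, 0, 0⟩ ⟨0, 0, 0, 0, 0, 0, 146596, 0, 0, 0, 0, 0, 0⟩ ⟨152, 0, -512, 9, -35, 134, 109433, 0, 0, 0, 0, 0, 0⟩))
    (.leaf (.box ⟨302, 0, -1085, 6, -20, 319, 456237, 0, 0, 0, 0, 0, 0⟩ ⟨0, 0, 0, 0, 0, 0, 221843, 0, 0, 0, 0, 0, 0⟩ ⟨0, 0, 0, 0, 0, 0, 221843, 0, 0, 0, 0, 0, 0⟩ ⟨0, 0, 0, 0, 0, 0, 146551, 0, 0, 0, 0, 0, 0⟩ ⟨0, 0, 0, 0, 0, 0, 146551, 0, 0, 0, 0, 0, 0⟩ ⟨148, -1, -512, 10, -33, 126, 109416, 0, 0, 0, 0, 0, 0⟩)))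
    (.leaf (.box ⟨471, 0, -1643, 6, -24, 443, 523549, 0, 0, 0, 0, 0, 0⟩ ⟨229, 0, -792, 6, -26, 202, 223722, 0, 0, 0, 0, 0, 0⟩ ⟨229, 0, -792, 6, -26, 202, 223722, 0, 0, 0, 0, 0, 0⟩ ⟨150, 0, -516, 6, -24, 124, 146587, 0, 0, 0, 0, 0, 0⟩ ⟨150, 0, -516, 6, -24, 124, 146587, 0, 0, 0, 0, 0, 0⟩ ⟨148, -1, -512, 9, -29, 117, 113079, 0, 0, 0, 0, 0, 0⟩)))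
    (.leaf (.box ⟨534, 0, -1444, 6, -25, 436, 549130, 0, 0, 0, 0, 0, 0⟩ ⟨189, 0, -512, 6, -19, 146, 234490, 0, 0, 0, 0, 0, 0⟩ ⟨189, 0, -512, 6, -19, 146, 234490, 0, 0, 0, 0, 0, 0⟩ ⟨189, 0, -512, 8, -28, 138, 153383, 0, 0, 0, 0, 0, 0⟩ ⟨189, 0, -512, 8, -28, 138, 153383, 0, 0, 0, 0, 0, 0⟩ ⟨191, -1, -512, 12, -34, 130, 118127, 0, 0, 0, 0, 0, 0⟩))))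
    (.s2
    (.s0
    (.s1
    (.leaf (.box ⟨425, -1, -2012, 6, -23, 475, 470776, 0, 0, 0, 0, 0, 0⟩ ⟨188, -1, -835, 6, -21, 186, 201825, 0, 0, 0, 0, 0, 0⟩ ⟨188, -1, -835, 6, -21, 186, 201825, 0, 0, 0, 0, 0, 0⟩ ⟨143, -1, -648, 6, -23, 137, 132586, 0, 0, 0, 0, 0, 0⟩ ⟨143, -1, -648, 6, -23, 137, 132586, 0, 0, 0, 0, 0, 0⟩ ⟨116, -1, -512, 7, -22, 103, 102537, 0, 0, 0, 0, 0, 0⟩))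
    (.leaf (.box ⟨461, -1, -2496, 6, -24, 540, 465207, 0, 0, 0, 0, 0, 0⟩ ⟨220, -1, -1170, 6, -25, 240, 200060, 0, 0, 0, 0, 0, 0⟩ ⟨220, -1, -1170, 6, -25, 240, 200060, 0, 0, 0, 0, 0, 0⟩ ⟨152, -1, -796, 6, -24, 155, 131755, 0, 0, 0, 0, 0, 0⟩ ⟨152, -1, -796, 6, -24, 155, 131755, 0, 0, 0, 0, 0, 0⟩ ⟨120, -1, -631, 6, -23, 117, 102141, 0, 0, 0, 0, 0, 0⟩)))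
    (.s3
    (.leaf (.box ⟨364, -1, -1436, 6, -20, 372, 505179, 0, 0, 0, 0, 0, 0⟩ ⟨162, -1, -627, 6, -19, 154, 217184, 0, 0, 0, 0, 0, 0⟩ ⟨162, -1, -627, 6, -19, 154, 217184, 0, 0, 0, 0, 0, 0⟩ ⟨131, -1, -512, 7, -22, 119, 142957, 0, 0, 0, 0, 0, 0⟩ ⟨131, -1, -512, 7, -22, 119, 142957, 0, 0, 0, 0, 0, 0⟩ ⟨130, -1, -512, 8, -27, 113, 111903, 0, 0, 0, 0, 0, 0⟩))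
    (.s1
    (.leaf (.box ⟨554, -1, -2925, 6, -26, 741, 744242, 0, 0, 0, 0, 0, 0⟩ ⟨0, 0, 0, 0, 0, 0, 255738, 0, 0, 0, 0, 0, 0⟩ ⟨0, 0, 0, 0, 0, 0, 255738, 0, 0, 0, 0, 0, 0⟩ ⟨0, 0, 0, 0, 0, 0, 154396, 0, 0, 0, 0, 0, 0⟩ ⟨0, 0, 0, 0, 0, 0, 154396, 0, 0, 0, 0, 0, 0⟩ ⟨101, -1, -512, 6, -25, 108, 110577, 0, 0, 0, 0, 0, 0⟩))
    (.leaf (.box ⟨649, -1, -3794, 6, -29, 879, 726485, 0, 0, 0, 0, 0, 0⟩ ⟨0, 0, 0, 0, 0, 0, 253135, 0, 0, 0, 0, 0, 0⟩ ⟨0, 0, 0, 0, 0, 0, 253135, 0, 0, 0, 0, 0, 0⟩ ⟨0, 0, 0, 0, 0, 0, 153270, 0, 0, 0, 0, 0, 0⟩ ⟨0, 0, 0, 0, 0, 0, 153270, 0, 0, 0, 0, 0, 0⟩ ⟨106, -1, -630, 6, -26, 123, 109909, 0, 0, 0, 0, 0, 0⟩)))))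
    (.s0
    (.s2
    (.leaf (.box ⟨423, -1, -2041, 6, -21, 434, 464707, 0, 0, 0, 0, 0, 0⟩ ⟨202, -1, -957, 6, -21, 193, 199917, 0, 0, 0, 0, 0, 0⟩ ⟨202, -1, -957, 6, -21, 193, 199917, 0, 0, 0, 0, 0, 0⟩ ⟨125, -1, -611, 6, -19, 117, 131688, 0, 0, 0, 0, 0, 0⟩ ⟨125, -1, -611, 6, -19, 117, 131688, 0, 0, 0, 0, 0, 0⟩ ⟨105, -1, -512, 7, -19, 93, 102109, 0, 0, 0, 0, 0, 0⟩))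
    (.leaf (.box ⟨383, -1, -2089, 6, -24, 429, 402117, 0, 0, 0, 0, 0, 0⟩ ⟨0, 0, 0, 0, 0, 0, 198760, 0, 0, 0, 0, 0, 0⟩ ⟨0, 0, 0, 0, 0, 0, 198760, 0, 0, 0, 0, 0, 0⟩ ⟨0, 0, 0, 0, 0, 0, 132004, 0, 0, 0, 0, 0, 0⟩ ⟨0, 0, 0, 0, 0, 0, 132004, 0, 0, 0, 0, 0, 0⟩ ⟨99, -1, -518, 6, -20, 92, 98815, 0, 0, 0, 0, 0, 0⟩)))
    (.s3
    (.leaf (.box ⟨374, -1, -1646, 6, -25, 382, 425910, 0, 0, 0, 0, 0, 0⟩ ⟨0, 0, 0, 0, 0, 0, 214817, 0, 0, 0, 0, 0, 0⟩ ⟨0, 0, 0, 0, 0, 0, 214817, 0, 0, 0, 0, 0, 0⟩ ⟨0, 0, 0, 0, 0, 0, 143630, 0, 0, 0, 0, 0, 0⟩ ⟨0, 0, 0, 0, 0, 0, 143630, 0, 0, 0, 0, 0, 0⟩ ⟨112, -1, -512, 7, -25, 103, 107880, 0, 0, 0, 0, 0, 0⟩))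
    (.leaf (.box ⟨614, -1, -2939, 6, -23, 647, 723513, 0, 0, 0, 0, 0, 0⟩ ⟨0, 0, 0, 0, 0, 0, 253874, 0, 0, 0, 0, 0, 0⟩ ⟨0, 0, 0, 0, 0, 0, 253874, 0, 0, 0, 0, 0, 0⟩ ⟨0, 0, 0, 0, 0, 0, 153946, 0, 0, 0, 0, 0, 0⟩ ⟨0, 0, 0, 0, 0, 0, 153946, 0, 0, 0, 0, 0, 0⟩ ⟨98, -1, -512, 7, -21, 96, 110465, 0, 0, 0, 0, 0, 0⟩)))))

/-- A piece of the tree. -/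
noncomputable def tree33 : Tree LeafX :=
  .s1
    (.s1
    (.s2
    (.leaf (.box ⟨259, 1, -512, 8, -20, 267, 541869, 0, 0, 0, 0, 0, 0⟩ ⟨0, 0, 0, 0, 0, 0, 254315, 0, 0, 0, 0, 0, 0⟩ ⟨0, 0, 0, 0, 0, 0, 254315, 0, 0, 0, 0, 0, 0⟩ ⟨0, 0, 0, 0, 0, 0, 166146, 0, 0, 0, 0, 0, 0⟩ ⟨0, 0, 0, 0, 0, 0, 166146, 0, 0, 0, 0, 0, 0⟩ ⟨282, 6, -512, 32, -75, 227, 123373, 0, 0, 0, 0, 0, 0⟩))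
    (.leaf (.box ⟨256, 1, -512, 7, -18, 243, 528695, 0, 0, 0, 0, 0, 0⟩ ⟨0, 0, 0, 0, 0, 0, 251590, 0, 0, 0, 0, 0, 0⟩ ⟨0, 0, 0, 0, 0, 0, 251590, 0, 0, 0, 0, 0, 0⟩ ⟨0, 0, 0, 0, 0, 0, 165072, 0, 0, 0, 0, 0, 0⟩ ⟨0, 0, 0, 0, 0, 0, 165072, 0, 0, 0, 0, 0, 0⟩ ⟨264, 3, -512, 25, -67, 201, 122831, 0, 0, 0, 0, 0, 0⟩)))
    (.s2
    (.s2
    (.leaf (.box ⟨224, 1, -512, 7, -16, 236, 534932, 0, 0, 0, 0, 0, 0⟩ ⟨0, 0, 0, 0, 0, 0, 251238, 0, 0, 0, 0, 0, 0⟩ ⟨0, 0, 0, 0, 0, 0, 251238, 0, 0, 0, 0, 0, 0⟩ ⟨0, 0, 0, 0, 0, 0, 164172, 0, 0, 0, 0, 0, 0⟩ ⟨0, 0, 0, 0, 0, 0, 164172, 0, 0, 0, 0, 0, 0⟩ ⟨224, 4, -512, 24, -62, 202, 121920, 0, 0, 0, 0, 0, 0⟩))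
    (.leaf (.box ⟨221, 1, -512, 6, -16, 228, 523044, 0, 0, 0, 0, 0, 0⟩ ⟨0, 0, 0, 0, 0, 0, 248393, 0, 0, 0, 0, 0, 0⟩ ⟨0, 0, 0, 0, 0, 0, 248393, 0, 0, 0, 0, 0, 0⟩ ⟨0, 0, 0, 0, 0, 0, 162870, 0, 0, 0, 0, 0, 0⟩ ⟨0, 0, 0, 0, 0, 0, 162870, 0, 0, 0, 0, 0, 0⟩ ⟨224, 3, -512, 23, -59, 192, 121155, 0, 0, 0, 0, 0, 0⟩)))
    (.leaf (.box ⟨229, 0, -512, 8, -15, 211, 509468, 0, 0, 0, 0, 0, 0⟩ ⟨0, 0, 0, 0, 0, 0, 245304, 0, 0, 0, 0, 0, 0⟩ ⟨0, 0, 0, 0, 0, 0, 245304, 0, 0, 0, 0, 0, 0⟩ ⟨0, 0, 0, 0, 0, 0, 161543, 0, 0, 0, 0, 0, 0⟩ ⟨0, 0, 0, 0, 0, 0, 161543, 0, 0, 0, 0, 0, 0⟩ ⟨233, 2, -512, 23, -55, 174, 120423, 0, 0, 0, 0, 0, 0⟩))))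
    (.s0
    (.s2
    (.s2
    (.s3
    (.leaf (.box ⟨243, 0, -854, 6, -17, 319, 576595, 0, 0, 0, 0, 0, 0⟩ ⟨148, 1, -512, 6, -23, 183, 244700, 0, 0, 0, 0, 0, 0⟩ ⟨148, 1, -512, 6, -23, 183, 244700, 0, 0, 0, 0, 0, 0⟩ ⟨150, 1, -512, 10, -33, 175, 159443, 0, 0, 0, 0, 0, 0⟩ ⟨150, 1, -512, 10, -33, 175, 159443, 0, 0, 0, 0, 0, 0⟩ ⟨152, 1, -512, 13, -41, 167, 123616, 0, 0, 0, 0, 0, 0⟩))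
    (.s1
    (.leaf (.box ⟨480, 1, -2361, 6, -27, 831, 887559, 0, 0, 0, 0, 0, 0⟩ ⟨0, 0, 0, 0, 0, 0, 287406, 0, 0, 0, 0, 0, 0⟩ ⟨0, 0, 0, 0, 0, 0, 287406, 0, 0, 0, 0, 0, 0⟩ ⟨0, 0, 0, 0, 0, 0, 171465, 0, 0, 0, 0, 0, 0⟩ ⟨0, 0, 0, 0, 0, 0, 171465, 0, 0, 0, 0, 0, 0⟩ ⟨105, 1, -512, 9, -37, 155, 122177, 0, 0, 0, 0, 0, 0⟩))
    (.s3
    (.leaf (.box ⟨413, 0, -2401, 6, -25, 784, 848372, 0, 0, 0, 0, 0, 0⟩ ⟨0, 0, 0, 0, 0, 0, 282927, 0, 0, 0, 0, 0, 0⟩ ⟨0, 0, 0, 0, 0, 0, 282927, 0, 0, 0, 0, 0, 0⟩ ⟨0, 0, 0, 0, 0, 0, 169773, 0, 0, 0, 0, 0, 0⟩ ⟨0, 0, 0, 0, 0, 0, 169773, 0, 0, 0, 0, 0, 0⟩ ⟨88, 1, -512, 8, -32, 144, 121271, 0, 0, 0, 0, 0, 0⟩))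
    (.leaf (.box ⟨595, 0, -3753, 6, -23, 1170, 1286396, 0, 0, 0, 0, 0, 0⟩ ⟨0, 0, 0, 0, 0, 0, 306856, 0, 0, 0, 0, 0, 0⟩ ⟨0, 0, 0, 0, 0, 0, 306856, 0, 0, 0, 0, 0, 0⟩ ⟨0, 0, 0, 0, 0, 0, 174206, 0, 0, 0, 0, 0, 0⟩ ⟨0, 0, 0, 0, 0, 0, 174206, 0, 0, 0, 0, 0, 0⟩ ⟨79, 0, -512, 7, -29, 137, 121627, 0, 0, 0, 0, 0, 0⟩)))))
    (.s1
    (.leaf (.box ⟨231, 0, -840, 6, -18, 303, 507338, 0, 0, 0, 0, 0, 0⟩ ⟨0, 0, 0, 0, 0, 0, 243419, 0, 0, 0, 0, 0, 0⟩ ⟨0, 0, 0, 0, 0, 0, 243419, 0, 0, 0, 0, 0, 0⟩ ⟨0, 0, 0, 0, 0, 0, 160123, 0, 0, 0, 0, 0, 0⟩ ⟨0, 0, 0, 0, 0, 0, 160123, 0, 0, 0, 0, 0, 0⟩ ⟨148, 1, -512, 11, -41, 157, 119299, 0, 0, 0, 0, 0, 0⟩))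
    (.s3
    (.leaf (.box ⟨285, 0, -1327, 6, -28, 452, 480882, 0, 0, 0, 0, 0, 0⟩ ⟨0, 0, 0, 0, 0, 0, 237480, 0, 0, 0, 0, 0, 0⟩ ⟨0, 0, 0, 0, 0, 0, 237480, 0, 0, 0, 0, 0, 0⟩ ⟨0, 0, 0, 0, 0, 0, 157673, 0, 0, 0, 0, 0, 0⟩ ⟨0, 0, 0, 0, 0, 0, 157673, 0, 0, 0, 0, 0, 0⟩ ⟨117, 0, -512, 10, -37, 149, 118013, 0, 0, 0, 0, 0, 0⟩))
    (.leaf (.box ⟨446, 0, -2416, 6, -24, 746, 833360, 0, 0, 0, 0, 0, 0⟩ ⟨0, 0, 0, 0, 0, 0, 279469, 0, 0, 0, 0, 0, 0⟩ ⟨0, 0, 0, 0, 0, 0, 279469, 0, 0, 0, 0, 0, 0⟩ ⟨0, 0, 0, 0, 0, 0, 167885, 0, 0, 0, 0, 0, 0⟩ ⟨0, 0, 0, 0, 0, 0, 167885, 0, 0, 0, 0, 0, 0⟩ ⟨97, 0, -512, 8, -30, 133, 119980, 0, 0, 0, 0, 0, 0⟩)))))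
    (.s0
    (.s1
    (.leaf (.box ⟨353, 0, -1403, 6, -27, 454, 495463, 0, 0, 0, 0, 0, 0⟩ ⟨0, 0, 0, 0, 0, 0, 240311, 0, 0, 0, 0, 0, 0⟩ ⟨0, 0, 0, 0, 0, 0, 240311, 0, 0, 0, 0, 0, 0⟩ ⟨0, 0, 0, 0, 0, 0, 158623, 0, 0, 0, 0, 0, 0⟩ ⟨0, 0, 0, 0, 0, 0, 158623, 0, 0, 0, 0, 0, 0⟩ ⟨138, 0, -512, 8, -35, 139, 118382, 0, 0, 0, 0, 0, 0⟩))
    (.s2
    (.leaf (.box ⟨301, 0, -1527, 6, -26, 456, 486779, 0, 0, 0, 0, 0, 0⟩ ⟨0, 0, 0, 0, 0, 0, 237060, 0, 0, 0, 0, 0, 0⟩ ⟨0, 0, 0, 0, 0, 0, 237060, 0, 0, 0, 0, 0, 0⟩ ⟨0, 0, 0, 0, 0, 0, 156682, 0, 0, 0, 0, 0, 0⟩ ⟨0, 0, 0, 0, 0, 0, 156682, 0, 0, 0, 0, 0, 0⟩ ⟨109, 0, -512, 7, -30, 129, 117008, 0, 0, 0, 0, 0, 0⟩))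
    (.leaf (.box ⟨276, -1, -1426, 6, -24, 404, 483496, 0, 0, 0, 0, 0, 0⟩ ⟨0, 0, 0, 0, 0, 0, 236399, 0, 0, 0, 0, 0, 0⟩ ⟨0, 0, 0, 0, 0, 0, 236399, 0, 0, 0, 0, 0, 0⟩ ⟨0, 0, 0, 0, 0, 0, 156446, 0, 0, 0, 0, 0, 0⟩ ⟨0, 0, 0, 0, 0, 0, 156446, 0, 0, 0, 0, 0, 0⟩ ⟨108, -1, -512, 7, -29, 121, 116906, 0, 0, 0, 0, 0, 0⟩))))
    (.s2
    (.leaf (.box ⟨315, 0, -1136, 6, -21, 384, 586867, 0, 0, 0, 0, 0, 0⟩ ⟨155, 0, -529, 6, -21, 169, 250481, 0, 0, 0, 0, 0, 0⟩ ⟨155, 0, -529, 6, -21, 169, 250481, 0, 0, 0, 0, 0, 0⟩ ⟨151, 0, -512, 8, -30, 154, 163982, 0, 0, 0, 0, 0, 0⟩ ⟨151, 0, -512, 8, -30, 154, 163982, 0, 0, 0, 0, 0, 0⟩ ⟨154, 0, -512, 11, -36, 145, 126353, 0, 0, 0, 0, 0, 0⟩))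
    (.leaf (.box ⟨288, 0, -1054, 6, -21, 337, 510039, 0, 0, 0, 0, 0, 0⟩ ⟨0, 0, 0, 0, 0, 0, 248231, 0, 0, 0, 0, 0, 0⟩ ⟨0, 0, 0, 0, 0, 0, 248231, 0, 0, 0, 0, 0, 0⟩ ⟨0, 0, 0, 0, 0, 0, 164032, 0, 0, 0, 0, 0, 0⟩ ⟨0, 0, 0, 0, 0, 0, 164032, 0, 0, 0, 0, 0, 0⟩ ⟨147, 0, -512, 10, -35, 136, 122485, 0, 0, 0, 0, 0, 0⟩)))))
    (.s2
    (.s2
    (.leaf (.box ⟨248, 1, -681, 6, -18, 281, 558807, 0, 0, 0, 0, 0, 0⟩ ⟨0, 0, 0, 0, 0, 0, 264764, 0, 0, 0, 0, 0, 0⟩ ⟨0, 0, 0, 0, 0, 0, 264764, 0, 0, 0, 0, 0, 0⟩ ⟨0, 0, 0, 0, 0, 0, 173479, 0, 0, 0, 0, 0, 0⟩ ⟨0, 0, 0, 0, 0, 0, 173479, 0, 0, 0, 0, 0, 0⟩ ⟨191, 2, -512, 18, -50, 180, 129002, 0, 0, 0, 0, 0, 0⟩))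
    (.leaf (.box ⟨226, 0, -641, 6, -17, 255, 547491, 0, 0, 0, 0, 0, 0⟩ ⟨0, 0, 0, 0, 0, 0, 262693, 0, 0, 0, 0, 0, 0⟩ ⟨0, 0, 0, 0, 0, 0, 262693, 0, 0, 0, 0, 0, 0⟩ ⟨0, 0, 0, 0, 0, 0, 172803, 0, 0, 0, 0, 0, 0⟩ ⟨0, 0, 0, 0, 0, 0, 172803, 0, 0, 0, 0, 0, 0⟩ ⟨190, 1, -512, 17, -48, 170, 128747, 0, 0, 0, 0, 0, 0⟩)))
    (.leaf (.box ⟨259, 0, -680, 6, -17, 249, 540159, 0, 0, 0, 0, 0, 0⟩ ⟨0, 0, 0, 0, 0, 0, 261290, 0, 0, 0, 0, 0, 0⟩ ⟨0, 0, 0, 0, 0, 0, 261290, 0, 0, 0, 0, 0, 0⟩ ⟨0, 0, 0, 0, 0, 0, 172324, 0, 0, 0, 0, 0, 0⟩ ⟨0, 0, 0, 0, 0, 0, 172324, 0, 0, 0, 0, 0, 0⟩ ⟨207, 0, -512, 17, -44, 154, 128553, 0, 0, 0, 0, 0, 0⟩))))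

/-- A piece of the tree. -/
noncomputable def tree34 : Tree LeafX :=
  .s1
    (.leaf (.box ⟨272, 0, -512, 6, -12, 181, 579445, 0, 0, 0, 0, 0, 0⟩ ⟨268, 0, -512, 13, -27, 170, 246832, 0, 0, 0, 0, 0, 0⟩ ⟨268, 0, -512, 13, -27, 170, 246832, 0, 0, 0, 0, 0, 0⟩ ⟨263, 0, -512, 20, -38, 160, 161369, 0, 0, 0, 0, 0, 0⟩ ⟨263, 0, -512, 20, -38, 160, 161369, 0, 0, 0, 0, 0, 0⟩ ⟨259, 0, -512, 25, -47, 151, 124107, 0, 0, 0, 0, 0, 0⟩))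
    (.s0
    (.s2
    (.s1
    (.leaf (.box ⟨343, 0, -1270, 6, -25, 376, 494098, 0, 0, 0, 0, 0, 0⟩ ⟨0, 0, 0, 0, 0, 0, 240158, 0, 0, 0, 0, 0, 0⟩ ⟨0, 0, 0, 0, 0, 0, 240158, 0, 0, 0, 0, 0, 0⟩ ⟨0, 0, 0, 0, 0, 0, 158631, 0, 0, 0, 0, 0, 0⟩ ⟨0, 0, 0, 0, 0, 0, 158631, 0, 0, 0, 0, 0, 0⟩ ⟨148, -1, -512, 11, -34, 126, 118427, 0, 0, 0, 0, 0, 0⟩))
    (.s2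
    (.leaf (.box ⟨252, -1, -1147, 6, -20, 316, 482201, 0, 0, 0, 0, 0, 0⟩ ⟨0, 0, 0, 0, 0, 0, 236292, 0, 0, 0, 0, 0, 0⟩ ⟨0, 0, 0, 0, 0, 0, 236292, 0, 0, 0, 0, 0, 0⟩ ⟨0, 0, 0, 0, 0, 0, 156488, 0, 0, 0, 0, 0, 0⟩ ⟨0, 0, 0, 0, 0, 0, 156488, 0, 0, 0, 0, 0, 0⟩ ⟨116, -1, -512, 9, -29, 118, 116979, 0, 0, 0, 0, 0, 0⟩))
    (.leaf (.box ⟨267, -1, -1302, 6, -21, 337, 481308, 0, 0, 0, 0, 0, 0⟩ ⟨0, 0, 0, 0, 0, 0, 236868, 0, 0, 0, 0, 0, 0⟩ ⟨0, 0, 0, 0, 0, 0, 236868, 0, 0, 0, 0, 0, 0⟩ ⟨0, 0, 0, 0, 0, 0, 157088, 0, 0, 0, 0, 0, 0⟩ ⟨0, 0, 0, 0, 0, 0, 157088, 0, 0, 0, 0, 0, 0⟩ ⟨114, -1, -512, 8, -28, 111, 117509, 0, 0, 0, 0, 0, 0⟩))))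
    (.s2
    (.leaf (.box ⟨286, -1, -1154, 6, -17, 295, 558814, 0, 0, 0, 0, 0, 0⟩ ⟨141, -1, -562, 6, -18, 136, 240293, 0, 0, 0, 0, 0, 0⟩ ⟨141, -1, -562, 6, -18, 136, 240293, 0, 0, 0, 0, 0, 0⟩ ⟨129, -1, -512, 8, -23, 117, 158239, 0, 0, 0, 0, 0, 0⟩ ⟨129, -1, -512, 8, -23, 117, 158239, 0, 0, 0, 0, 0, 0⟩ ⟨129, -1, -512, 9, -28, 111, 122663, 0, 0, 0, 0, 0, 0⟩))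
    (.leaf (.box ⟨288, -1, -1254, 6, -20, 302, 488974, 0, 0, 0, 0, 0, 0⟩ ⟨0, 0, 0, 0, 0, 0, 241873, 0, 0, 0, 0, 0, 0⟩ ⟨0, 0, 0, 0, 0, 0, 241873, 0, 0, 0, 0, 0, 0⟩ ⟨0, 0, 0, 0, 0, 0, 160676, 0, 0, 0, 0, 0, 0⟩ ⟨0, 0, 0, 0, 0, 0, 160676, 0, 0, 0, 0, 0, 0⟩ ⟨118, -1, -512, 9, -27, 106, 120293, 0, 0, 0, 0, 0, 0⟩))))
    (.leaf (.box ⟨361, 0, -961, 6, -20, 282, 536799, 0, 0, 0, 0, 0, 0⟩ ⟨0, 0, 0, 0, 0, 0, 261700, 0, 0, 0, 0, 0, 0⟩ ⟨0, 0, 0, 0, 0, 0, 261700, 0, 0, 0, 0, 0, 0⟩ ⟨0, 0, 0, 0, 0, 0, 173027, 0, 0, 0, 0, 0, 0⟩ ⟨0, 0, 0, 0, 0, 0, 173027, 0, 0, 0, 0, 0, 0⟩ ⟨193, -1, -512, 15, -36, 126, 129237, 0, 0, 0, 0, 0, 0⟩)))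

/-- A piece of the tree. -/
noncomputable def tree35 : Tree LeafX :=
  .s3
    (.s1
    (.s0
    (.leaf (.box ⟨647, -1, -631, 6, -8, 180, 203696, 0, 0, 0, 0, 0, 0⟩ ⟨0, 0, 0, 0, 0, 0, 99109, 0, 0, 0, 0, 0, 0⟩ ⟨0, 0, 0, 0, 0, 0, 99109, 0, 0, 0, 0, 0, 0⟩ ⟨0, 0, 0, 0, 0, 0, 65486, 0, 0, 0, 0, 0, 0⟩ ⟨0, 0, 0, 0, 0, 0, 65486, 0, 0, 0, 0, 0, 0⟩ ⟨383, -2, -512, 12, -16, 92, 48897, 0, 0, 0, 0, 0, 0⟩))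
    (.leaf (.box ⟨696, -1, -801, 6, -8, 215, 214898, 0, 0, 0, 0, 0, 0⟩ ⟨0, 0, 0, 0, 0, 0, 104934, 0, 0, 0, 0, 0, 0⟩ ⟨0, 0, 0, 0, 0, 0, 104934, 0, 0, 0, 0, 0, 0⟩ ⟨0, 0, 0, 0, 0, 0, 69415, 0, 0, 0, 0, 0, 0⟩ ⟨0, 0, 0, 0, 0, 0, 69415, 0, 0, 0, 0, 0, 0⟩ ⟨327, -2, -512, 12, -14, 93, 51860, 0, 0, 0, 0, 0, 0⟩)))
    (.s0
    (.leaf (.box ⟨650, -2, -241, 6, -8, 158, 209191, 0, 0, 0, 0, 0, 0⟩ ⟨0, 0, 0, 0, 0, 0, 103496, 0, 0, 0, 0, 0, 0⟩ ⟨0, 0, 0, 0, 0, 0, 103496, 0, 0, 0, 0, 0, 0⟩ ⟨0, 0, 0, 0, 0, 0, 68756, 0, 0, 0, 0, 0, 0⟩ ⟨0, 0, 0, 0, 0, 0, 68756, 0, 0, 0, 0, 0, 0⟩ ⟨512, -5, -364, 18, -21, 111, 51477, 0, 0, 0, 0, 0, 0⟩))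
    (.leaf (.box ⟨550, -2, -785, 6, -8, 217, 224552, 0, 0, 0, 0, 0, 0⟩ ⟨0, 0, 0, 0, 0, 0, 111641, 0, 0, 0, 0, 0, 0⟩ ⟨0, 0, 0, 0, 0, 0, 111641, 0, 0, 0, 0, 0, 0⟩ ⟨0, 0, 0, 0, 0, 0, 74288, 0, 0, 0, 0, 0, 0⟩ ⟨0, 0, 0, 0, 0, 0, 74288, 0, 0, 0, 0, 0, 0⟩ ⟨264, -4, -512, 11, -14, 99, 55663, 0, 0, 0, 0, 0, 0⟩))))
    (.s3
    (.s1
    (.s0
    (.leaf (.box ⟨1088, -1, -1057, 6, -8, 328, 353712, 0, 0, 0, 0, 0, 0⟩ ⟨0, 0, 0, 0, 0, 0, 116368, 0, 0, 0, 0, 0, 0⟩ ⟨0, 0, 0, 0, 0, 0, 116368, 0, 0, 0, 0, 0, 0⟩ ⟨0, 0, 0, 0, 0, 0, 69640, 0, 0, 0, 0, 0, 0⟩ ⟨0, 0, 0, 0, 0, 0, 69640, 0, 0, 0, 0, 0, 0⟩ ⟨358, -2, -512, 12, -17, 95, 49687, 0, 0, 0, 0, 0, 0⟩))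
    (.leaf (.box ⟨949, -1, -1439, 6, -8, 383, 372034, 0, 0, 0, 0, 0, 0⟩ ⟨0, 0, 0, 0, 0, 0, 123236, 0, 0, 0, 0, 0, 0⟩ ⟨0, 0, 0, 0, 0, 0, 123236, 0, 0, 0, 0, 0, 0⟩ ⟨0, 0, 0, 0, 0, 0, 73849, 0, 0, 0, 0, 0, 0⟩ ⟨0, 0, 0, 0, 0, 0, 73849, 0, 0, 0, 0, 0, 0⟩ ⟨240, -1, -512, 9, -13, 91, 52721, 0, 0, 0, 0, 0, 0⟩)))
    (.s0
    (.leaf (.box ⟨977, -2, -345, 6, -8, 264, 357639, 0, 0, 0, 0, 0, 0⟩ ⟨0, 0, 0, 0, 0, 0, 121841, 0, 0, 0, 0, 0, 0⟩ ⟨0, 0, 0, 0, 0, 0, 121841, 0, 0, 0, 0, 0, 0⟩ ⟨0, 0, 0, 0, 0, 0, 73428, 0, 0, 0, 0, 0, 0⟩ ⟨0, 0, 0, 0, 0, 0, 73428, 0, 0, 0, 0, 0, 0⟩ ⟨512, -5, -404, 19, -24, 127, 52548, 0, 0, 0, 0, 0, 0⟩))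
    (.leaf (.box ⟨1006, -2, -1476, 6, -10, 434, 382146, 0, 0, 0, 0, 0, 0⟩ ⟨0, 0, 0, 0, 0, 0, 131557, 0, 0, 0, 0, 0, 0⟩ ⟨0, 0, 0, 0, 0, 0, 131557, 0, 0, 0, 0, 0, 0⟩ ⟨0, 0, 0, 0, 0, 0, 79455, 0, 0, 0, 0, 0, 0⟩ ⟨0, 0, 0, 0, 0, 0, 79455, 0, 0, 0, 0, 0, 0⟩ ⟨259, -3, -512, 10, -15, 102, 56914, 0, 0, 0, 0, 0, 0⟩))))
    (.s1
    (.s0
    (.leaf (.box ⟨1572, -1, -1524, 6, -8, 497, 540774, 0, 0, 0, 0, 0, 0⟩ ⟨0, 0, 0, 0, 0, 0, 126129, 0, 0, 0, 0, 0, 0⟩ ⟨0, 0, 0, 0, 0, 0, 126129, 0, 0, 0, 0, 0, 0⟩ ⟨0, 0, 0, 0, 0, 0, 71390, 0, 0, 0, 0, 0, 0⟩ ⟨0, 0, 0, 0, 0, 0, 71390, 0, 0, 0, 0, 0, 0⟩ ⟨346, -1, -512, 11, -17, 97, 49784, 0, 0, 0, 0, 0, 0⟩))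
    (.leaf (.box ⟨1272, -1, -2236, 6, -8, 592, 566426, 0, 0, 0, 0, 0, 0⟩ ⟨0, 0, 0, 0, 0, 0, 133614, 0, 0, 0, 0, 0, 0⟩ ⟨0, 0, 0, 0, 0, 0, 133614, 0, 0, 0, 0, 0, 0⟩ ⟨0, 0, 0, 0, 0, 0, 75741, 0, 0, 0, 0, 0, 0⟩ ⟨0, 0, 0, 0, 0, 0, 75741, 0, 0, 0, 0, 0, 0⟩ ⟨206, -1, -512, 9, -13, 90, 52849, 0, 0, 0, 0, 0, 0⟩)))
    (.s0
    (.leaf (.box ⟨1615, -1, -556, 6, -9, 466, 535543, 0, 0, 0, 0, 0, 0⟩ ⟨0, 0, 0, 0, 0, 0, 132290, 0, 0, 0, 0, 0, 0⟩ ⟨0, 0, 0, 0, 0, 0, 132290, 0, 0, 0, 0, 0, 0⟩ ⟨0, 0, 0, 0, 0, 0, 75466, 0, 0, 0, 0, 0, 0⟩ ⟨0, 0, 0, 0, 0, 0, 75466, 0, 0, 0, 0, 0, 0⟩ ⟨512, -5, -421, 20, -26, 134, 52790, 0, 0, 0, 0, 0, 0⟩))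
    (.leaf (.box ⟨1387, -2, -2006, 6, -10, 610, 568874, 0, 0, 0, 0, 0, 0⟩ ⟨0, 0, 0, 0, 0, 0, 142922, 0, 0, 0, 0, 0, 0⟩ ⟨0, 0, 0, 0, 0, 0, 142922, 0, 0, 0, 0, 0, 0⟩ ⟨0, 0, 0, 0, 0, 0, 81727, 0, 0, 0, 0, 0, 0⟩ ⟨0, 0, 0, 0, 0, 0, 81727, 0, 0, 0, 0, 0, 0⟩ ⟨265, -3, -512, 10, -15, 104, 57225, 0, 0, 0, 0, 0, 0⟩)))))

/-- A piece of the tree. -/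
noncomputable def tree36 : Tree LeafX :=
  .s0
    (.s1
    (.leaf (.box ⟨664, -1, -924, 6, -5, 194, 185795, 0, 0, 0, 0, 0, 0⟩ ⟨0, 0, 0, 0, 0, 0, 90311, 0, 0, 0, 0, 0, 0⟩ ⟨0, 0, 0, 0, 0, 0, 90311, 0, 0, 0, 0, 0, 0⟩ ⟨0, 0, 0, 0, 0, 0, 59654, 0, 0, 0, 0, 0, 0⟩ ⟨0, 0, 0, 0, 0, 0, 59654, 0, 0, 0, 0, 0, 0⟩ ⟨235, -2, -512, 10, -7, 72, 44535, 0, 0, 0, 0, 0, 0⟩))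
    (.leaf (.box ⟨710, -3, -548, 6, -3, 140, 190338, 0, 0, 0, 0, 0, 0⟩ ⟨0, 0, 0, 0, 0, 0, 94626, 0, 0, 0, 0, 0, 0⟩ ⟨0, 0, 0, 0, 0, 0, 94626, 0, 0, 0, 0, 0, 0⟩ ⟨0, 0, 0, 0, 0, 0, 62964, 0, 0, 0, 0, 0, 0⟩ ⟨0, 0, 0, 0, 0, 0, 62964, 0, 0, 0, 0, 0, 0⟩ ⟨424, -7, -512, 15, -6, 85, 47178, 0, 0, 0, 0, 0, 0⟩)))
    (.s1
    (.leaf (.box ⟨1112, -1, -801, 6, -3, 225, 197431, 0, 0, 0, 0, 0, 0⟩ ⟨0, 0, 0, 0, 0, 0, 96432, 0, 0, 0, 0, 0, 0⟩ ⟨0, 0, 0, 0, 0, 0, 96432, 0, 0, 0, 0, 0, 0⟩ ⟨0, 0, 0, 0, 0, 0, 63796, 0, 0, 0, 0, 0, 0⟩ ⟨0, 0, 0, 0, 0, 0, 63796, 0, 0, 0, 0, 0, 0⟩ ⟨512, -2, -498, 10, -5, 93, 47664, 0, 0, 0, 0, 0, 0⟩))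
    (.leaf (.box ⟨427, -3, -1097, 6, -2, 214, 208011, 0, 0, 0, 0, 0, 0⟩ ⟨0, 0, 0, 0, 0, 0, 103900, 0, 0, 0, 0, 0, 0⟩ ⟨0, 0, 0, 0, 0, 0, 103900, 0, 0, 0, 0, 0, 0⟩ ⟨0, 0, 0, 0, 0, 0, 69243, 0, 0, 0, 0, 0, 0⟩ ⟨0, 0, 0, 0, 0, 0, 69243, 0, 0, 0, 0, 0, 0⟩ ⟨164, -4, -512, 9, -2, 75, 51923, 0, 0, 0, 0, 0, 0⟩)))

/-- A piece of the tree. -/
noncomputable def tree37 : Tree LeafX :=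
  .s3
    (.s3
    (.s0
    (.s1
    (.leaf (.box ⟨1320, -1, -1946, 6, -9, 487, 349470, 0, 0, 0, 0, 0, 0⟩ ⟨0, 0, 0, 0, 0, 0, 115723, 0, 0, 0, 0, 0, 0⟩ ⟨0, 0, 0, 0, 0, 0, 115723, 0, 0, 0, 0, 0, 0⟩ ⟨0, 0, 0, 0, 0, 0, 69342, 0, 0, 0, 0, 0, 0⟩ ⟨0, 0, 0, 0, 0, 0, 69342, 0, 0, 0, 0, 0, 0⟩ ⟨220, -1, -533, 6, -10, 84, 49502, 0, 0, 0, 0, 0, 0⟩))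
    (.leaf (.box ⟨2042, -2, -1414, 6, -11, 541, 353388, 0, 0, 0, 0, 0, 0⟩ ⟨0, 0, 0, 0, 0, 0, 121164, 0, 0, 0, 0, 0, 0⟩ ⟨0, 0, 0, 0, 0, 0, 121164, 0, 0, 0, 0, 0, 0⟩ ⟨0, 0, 0, 0, 0, 0, 73117, 0, 0, 0, 0, 0, 0⟩ ⟨0, 0, 0, 0, 0, 0, 73117, 0, 0, 0, 0, 0, 0⟩ ⟨376, -3, -512, 8, -12, 107, 52355, 0, 0, 0, 0, 0, 0⟩)))
    (.s1
    (.leaf (.box ⟨1792, -1, -2634, 6, -9, 712, 367827, 0, 0, 0, 0, 0, 0⟩ ⟨0, 0, 0, 0, 0, 0, 122603, 0, 0, 0, 0, 0, 0⟩ ⟨0, 0, 0, 0, 0, 0, 122603, 0, 0, 0, 0, 0, 0⟩ ⟨0, 0, 0, 0, 0, 0, 73561, 0, 0, 0, 0, 0, 0⟩ ⟨0, 0, 0, 0, 0, 0, 73561, 0, 0, 0, 0, 0, 0⟩ ⟨413, -1, -855, 6, -12, 152, 52543, 0, 0, 0, 0, 0, 0⟩))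
    (.leaf (.box ⟨1212, -2, -5861, 6, -18, 1359, 378038, 0, 0, 0, 0, 0, 0⟩ ⟨0, 0, 0, 0, 0, 0, 130965, 0, 0, 0, 0, 0, 0⟩ ⟨0, 0, 0, 0, 0, 0, 130965, 0, 0, 0, 0, 0, 0⟩ ⟨0, 0, 0, 0, 0, 0, 79202, 0, 0, 0, 0, 0, 0⟩ ⟨0, 0, 0, 0, 0, 0, 79202, 0, 0, 0, 0, 0, 0⟩ ⟨200, -2, -1105, 6, -14, 183, 56765, 0, 0, 0, 0, 0, 0⟩))))
    (.s0
    (.s1
    (.leaf (.box ⟨1904, -1, -2789, 6, -11, 717, 421966, 0, 0, 0, 0, 0, 0⟩ ⟨0, 0, 0, 0, 0, 0, 120379, 0, 0, 0, 0, 0, 0⟩ ⟨0, 0, 0, 0, 0, 0, 120379, 0, 0, 0, 0, 0, 0⟩ ⟨0, 0, 0, 0, 0, 0, 70204, 0, 0, 0, 0, 0, 0⟩ ⟨0, 0, 0, 0, 0, 0, 70204, 0, 0, 0, 0, 0, 0⟩ ⟨237, -1, -599, 6, -12, 96, 49550, 0, 0, 0, 0, 0, 0⟩))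
    (.leaf (.box ⟨2136, -2, -1458, 6, -10, 582, 423284, 0, 0, 0, 0, 0, 0⟩ ⟨0, 0, 0, 0, 0, 0, 126154, 0, 0, 0, 0, 0, 0⟩ ⟨0, 0, 0, 0, 0, 0, 126154, 0, 0, 0, 0, 0, 0⟩ ⟨0, 0, 0, 0, 0, 0, 74123, 0, 0, 0, 0, 0, 0⟩ ⟨0, 0, 0, 0, 0, 0, 74123, 0, 0, 0, 0, 0, 0⟩ ⟨367, -3, -512, 9, -13, 109, 52478, 0, 0, 0, 0, 0, 0⟩)))
    (.s1
    (.leaf (.box ⟨1746, -1, -2761, 6, -8, 744, 443444, 0, 0, 0, 0, 0, 0⟩ ⟨0, 0, 0, 0, 0, 0, 127557, 0, 0, 0, 0, 0, 0⟩ ⟨0, 0, 0, 0, 0, 0, 127557, 0, 0, 0, 0, 0, 0⟩ ⟨0, 0, 0, 0, 0, 0, 74492, 0, 0, 0, 0, 0, 0⟩ ⟨0, 0, 0, 0, 0, 0, 74492, 0, 0, 0, 0, 0, 0⟩ ⟨412, -1, -910, 6, -13, 161, 52607, 0, 0, 0, 0, 0, 0⟩))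
    (.leaf (.box ⟨811, -2, -3789, 6, -10, 897, 451780, 0, 0, 0, 0, 0, 0⟩ ⟨0, 0, 0, 0, 0, 0, 136394, 0, 0, 0, 0, 0, 0⟩ ⟨0, 0, 0, 0, 0, 0, 136394, 0, 0, 0, 0, 0, 0⟩ ⟨0, 0, 0, 0, 0, 0, 80322, 0, 0, 0, 0, 0, 0⟩ ⟨0, 0, 0, 0, 0, 0, 80322, 0, 0, 0, 0, 0, 0⟩ ⟨203, -2, -1292, 6, -17, 216, 56921, 0, 0, 0, 0, 0, 0⟩)))))
    (.s3
    (.s0
    (.s1
    (.leaf (.box ⟨1631, -1, -2360, 6, -8, 623, 532469, 0, 0, 0, 0, 0, 0⟩ ⟨0, 0, 0, 0, 0, 0, 125428, 0, 0, 0, 0, 0, 0⟩ ⟨0, 0, 0, 0, 0, 0, 125428, 0, 0, 0, 0, 0, 0⟩ ⟨0, 0, 0, 0, 0, 0, 71087, 0, 0, 0, 0, 0, 0⟩ ⟨0, 0, 0, 0, 0, 0, 71087, 0, 0, 0, 0, 0, 0⟩ ⟨225, -1, -560, 6, -11, 90, 49598, 0, 0, 0, 0, 0, 0⟩))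
    (.leaf (.box ⟨3090, -2, -2083, 6, -12, 869, 527490, 0, 0, 0, 0, 0, 0⟩ ⟨0, 0, 0, 0, 0, 0, 131562, 0, 0, 0, 0, 0, 0⟩ ⟨0, 0, 0, 0, 0, 0, 131562, 0, 0, 0, 0, 0, 0⟩ ⟨0, 0, 0, 0, 0, 0, 75153, 0, 0, 0, 0, 0, 0⟩ ⟨0, 0, 0, 0, 0, 0, 75153, 0, 0, 0, 0, 0, 0⟩ ⟨359, -2, -512, 7, -14, 111, 52600, 0, 0, 0, 0, 0, 0⟩)))
    (.s1
    (.leaf (.box ⟨2641, -1, -4481, 6, -10, 1203, 558212, 0, 0, 0, 0, 0, 0⟩ ⟨0, 0, 0, 0, 0, 0, 132928, 0, 0, 0, 0, 0, 0⟩ ⟨0, 0, 0, 0, 0, 0, 132928, 0, 0, 0, 0, 0, 0⟩ ⟨0, 0, 0, 0, 0, 0, 75448, 0, 0, 0, 0, 0, 0⟩ ⟨0, 0, 0, 0, 0, 0, 75448, 0, 0, 0, 0, 0, 0⟩ ⟨346, -1, -831, 6, -12, 146, 52671, 0, 0, 0, 0, 0, 0⟩))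
    (.leaf (.box ⟨2174, -2, -9548, 6, -22, 2306, 561033, 0, 0, 0, 0, 0, 0⟩ ⟨0, 0, 0, 0, 0, 0, 142284, 0, 0, 0, 0, 0, 0⟩ ⟨0, 0, 0, 0, 0, 0, 142284, 0, 0, 0, 0, 0, 0⟩ ⟨0, 0, 0, 0, 0, 0, 81473, 0, 0, 0, 0, 0, 0⟩ ⟨0, 0, 0, 0, 0, 0, 81473, 0, 0, 0, 0, 0, 0⟩ ⟨191, -2, -1382, 6, -19, 234, 57078, 0, 0, 0, 0, 0, 0⟩))))
    (.s0
    (.s1
    (.leaf (.box ⟨2426, -1, -3477, 6, -9, 941, 721482, 0, 0, 0, 0, 0, 0⟩ ⟨0, 0, 0, 0, 0, 0, 130923, 0, 0, 0, 0, 0, 0⟩ ⟨0, 0, 0, 0, 0, 0, 130923, 0, 0, 0, 0, 0, 0⟩ ⟨0, 0, 0, 0, 0, 0, 71994, 0, 0, 0, 0, 0, 0⟩ ⟨0, 0, 0, 0, 0, 0, 71994, 0, 0, 0, 0, 0, 0⟩ ⟨206, -1, -535, 6, -11, 87, 49647, 0, 0, 0, 0, 0, 0⟩))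
    (.leaf (.box ⟨2570, -2, -1704, 6, -8, 741, 699485, 0, 0, 0, 0, 0, 0⟩ ⟨0, 0, 0, 0, 0, 0, 137447, 0, 0, 0, 0, 0, 0⟩ ⟨0, 0, 0, 0, 0, 0, 137447, 0, 0, 0, 0, 0, 0⟩ ⟨0, 0, 0, 0, 0, 0, 76211, 0, 0, 0, 0, 0, 0⟩ ⟨0, 0, 0, 0, 0, 0, 76211, 0, 0, 0, 0, 0, 0⟩ ⟨351, -2, -512, 7, -14, 113, 52722, 0, 0, 0, 0, 0, 0⟩)))
    (.s1
    (.leaf (.box ⟨2928, -1, -5376, 6, -9, 1438, 753159, 0, 0, 0, 0, 0, 0⟩ ⟨0, 0, 0, 0, 0, 0, 138772, 0, 0, 0, 0, 0, 0⟩ ⟨0, 0, 0, 0, 0, 0, 138772, 0, 0, 0, 0, 0, 0⟩ ⟨0, 0, 0, 0, 0, 0, 76427, 0, 0, 0, 0, 0, 0⟩ ⟨0, 0, 0, 0, 0, 0, 76427, 0, 0, 0, 0, 0, 0⟩ ⟨299, -1, -764, 6, -11, 134, 52735, 0, 0, 0, 0, 0, 0⟩))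
    (.leaf (.box ⟨3070, -2, -12607, 6, -23, 3103, 739579, 0, 0, 0, 0, 0, 0⟩ ⟨0, 0, 0, 0, 0, 0, 148689, 0, 0, 0, 0, 0, 0⟩ ⟨0, 0, 0, 0, 0, 0, 148689, 0, 0, 0, 0, 0, 0⟩ ⟨0, 0, 0, 0, 0, 0, 82653, 0, 0, 0, 0, 0, 0⟩ ⟨0, 0, 0, 0, 0, 0, 82653, 0, 0, 0, 0, 0, 0⟩ ⟨226, -2, -1535, 6, -22, 263, 57234, 0, 0, 0, 0, 0, 0⟩)))))

/-- A piece of the tree. -/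
noncomputable def tree38 : Tree LeafX :=
  .s3
    (.s3
    (.s0
    (.s1
    (.leaf (.box ⟨1343, -1, -2028, 6, -9, 501, 347488, 0, 0, 0, 0, 0, 0⟩ ⟨0, 0, 0, 0, 0, 0, 115055, 0, 0, 0, 0, 0, 0⟩ ⟨0, 0, 0, 0, 0, 0, 115055, 0, 0, 0, 0, 0, 0⟩ ⟨0, 0, 0, 0, 0, 0, 68941, 0, 0, 0, 0, 0, 0⟩ ⟨0, 0, 0, 0, 0, 0, 68941, 0, 0, 0, 0, 0, 0⟩ ⟨222, -1, -553, 6, -10, 86, 49215, 0, 0, 0, 0, 0, 0⟩))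
    (.leaf (.box ⟨1883, -2, -1350, 6, -9, 496, 351229, 0, 0, 0, 0, 0, 0⟩ ⟨0, 0, 0, 0, 0, 0, 120495, 0, 0, 0, 0, 0, 0⟩ ⟨0, 0, 0, 0, 0, 0, 120495, 0, 0, 0, 0, 0, 0⟩ ⟨0, 0, 0, 0, 0, 0, 72722, 0, 0, 0, 0, 0, 0⟩ ⟨0, 0, 0, 0, 0, 0, 72722, 0, 0, 0, 0, 0, 0⟩ ⟨366, -3, -512, 8, -12, 105, 52075, 0, 0, 0, 0, 0, 0⟩)))
    (.s1
    (.leaf (.box ⟨1714, -1, -2435, 6, -8, 661, 365902, 0, 0, 0, 0, 0, 0⟩ ⟨0, 0, 0, 0, 0, 0, 121963, 0, 0, 0, 0, 0, 0⟩ ⟨0, 0, 0, 0, 0, 0, 121963, 0, 0, 0, 0, 0, 0⟩ ⟨0, 0, 0, 0, 0, 0, 73177, 0, 0, 0, 0, 0, 0⟩ ⟨0, 0, 0, 0, 0, 0, 73177, 0, 0, 0, 0, 0, 0⟩ ⟨397, -1, -794, 6, -11, 142, 52269, 0, 0, 0, 0, 0, 0⟩))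
    (.leaf (.box ⟨1203, -2, -5510, 6, -16, 1259, 376133, 0, 0, 0, 0, 0, 0⟩ ⟨0, 0, 0, 0, 0, 0, 130380, 0, 0, 0, 0, 0, 0⟩ ⟨0, 0, 0, 0, 0, 0, 130380, 0, 0, 0, 0, 0, 0⟩ ⟨0, 0, 0, 0, 0, 0, 78857, 0, 0, 0, 0, 0, 0⟩ ⟨0, 0, 0, 0, 0, 0, 78857, 0, 0, 0, 0, 0, 0⟩ ⟨220, -2, -1196, 6, -14, 196, 56521, 0, 0, 0, 0, 0, 0⟩))))
    (.s0
    (.s1
    (.leaf (.box ⟨1805, -1, -2705, 6, -10, 687, 419583, 0, 0, 0, 0, 0, 0⟩ ⟨0, 0, 0, 0, 0, 0, 119685, 0, 0, 0, 0, 0, 0⟩ ⟨0, 0, 0, 0, 0, 0, 119685, 0, 0, 0, 0, 0, 0⟩ ⟨0, 0, 0, 0, 0, 0, 69798, 0, 0, 0, 0, 0, 0⟩ ⟨0, 0, 0, 0, 0, 0, 69798, 0, 0, 0, 0, 0, 0⟩ ⟨219, -1, -575, 6, -11, 91, 49263, 0, 0, 0, 0, 0, 0⟩))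
    (.leaf (.box ⟨2263, -2, -1599, 6, -10, 614, 420644, 0, 0, 0, 0, 0, 0⟩ ⟨0, 0, 0, 0, 0, 0, 125456, 0, 0, 0, 0, 0, 0⟩ ⟨0, 0, 0, 0, 0, 0, 125456, 0, 0, 0, 0, 0, 0⟩ ⟨0, 0, 0, 0, 0, 0, 73722, 0, 0, 0, 0, 0, 0⟩ ⟨0, 0, 0, 0, 0, 0, 73722, 0, 0, 0, 0, 0, 0⟩ ⟨358, -3, -512, 9, -12, 107, 52197, 0, 0, 0, 0, 0, 0⟩)))
    (.s1
    (.leaf (.box ⟨1889, -1, -2873, 6, -8, 776, 441122, 0, 0, 0, 0, 0, 0⟩ ⟨0, 0, 0, 0, 0, 0, 126892, 0, 0, 0, 0, 0, 0⟩ ⟨0, 0, 0, 0, 0, 0, 126892, 0, 0, 0, 0, 0, 0⟩ ⟨0, 0, 0, 0, 0, 0, 74104, 0, 0, 0, 0, 0, 0⟩ ⟨0, 0, 0, 0, 0, 0, 74104, 0, 0, 0, 0, 0, 0⟩ ⟨410, -1, -881, 6, -12, 156, 52333, 0, 0, 0, 0, 0, 0⟩))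
    (.leaf (.box ⟨861, -2, -4265, 6, -11, 995, 449448, 0, 0, 0, 0, 0, 0⟩ ⟨0, 0, 0, 0, 0, 0, 135786, 0, 0, 0, 0, 0, 0⟩ ⟨0, 0, 0, 0, 0, 0, 135786, 0, 0, 0, 0, 0, 0⟩ ⟨0, 0, 0, 0, 0, 0, 79974, 0, 0, 0, 0, 0, 0⟩ ⟨0, 0, 0, 0, 0, 0, 79974, 0, 0, 0, 0, 0, 0⟩ ⟨195, -2, -1173, 6, -14, 194, 56677, 0, 0, 0, 0, 0, 0⟩)))))
    (.s3
    (.s0
    (.s1
    (.leaf (.box ⟨1562, -1, -2318, 6, -7, 604, 529479, 0, 0, 0, 0, 0, 0⟩ ⟨0, 0, 0, 0, 0, 0, 124706, 0, 0, 0, 0, 0, 0⟩ ⟨0, 0, 0, 0, 0, 0, 124706, 0, 0, 0, 0, 0, 0⟩ ⟨0, 0, 0, 0, 0, 0, 70676, 0, 0, 0, 0, 0, 0⟩ ⟨0, 0, 0, 0, 0, 0, 70676, 0, 0, 0, 0, 0, 0⟩ ⟨210, -1, -540, 6, -10, 86, 49311, 0, 0, 0, 0, 0, 0⟩))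
    (.leaf (.box ⟨3171, -2, -2210, 6, -12, 885, 524095, 0, 0, 0, 0, 0, 0⟩ ⟨0, 0, 0, 0, 0, 0, 130838, 0, 0, 0, 0, 0, 0⟩ ⟨0, 0, 0, 0, 0, 0, 130838, 0, 0, 0, 0, 0, 0⟩ ⟨0, 0, 0, 0, 0, 0, 74749, 0, 0, 0, 0, 0, 0⟩ ⟨0, 0, 0, 0, 0, 0, 74749, 0, 0, 0, 0, 0, 0⟩ ⟨352, -2, -512, 7, -13, 108, 52320, 0, 0, 0, 0, 0, 0⟩)))
    (.s1
    (.leaf (.box ⟨2829, -1, -4629, 6, -10, 1246, 555285, 0, 0, 0, 0, 0, 0⟩ ⟨0, 0, 0, 0, 0, 0, 132236, 0, 0, 0, 0, 0, 0⟩ ⟨0, 0, 0, 0, 0, 0, 132236, 0, 0, 0, 0, 0, 0⟩ ⟨0, 0, 0, 0, 0, 0, 75055, 0, 0, 0, 0, 0, 0⟩ ⟨0, 0, 0, 0, 0, 0, 75055, 0, 0, 0, 0, 0, 0⟩ ⟨382, -1, -877, 6, -12, 155, 52397, 0, 0, 0, 0, 0, 0⟩))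
    (.leaf (.box ⟨2117, -2, -9893, 6, -22, 2354, 558032, 0, 0, 0, 0, 0, 0⟩ ⟨0, 0, 0, 0, 0, 0, 141649, 0, 0, 0, 0, 0, 0⟩ ⟨0, 0, 0, 0, 0, 0, 141649, 0, 0, 0, 0, 0, 0⟩ ⟨0, 0, 0, 0, 0, 0, 81121, 0, 0, 0, 0, 0, 0⟩ ⟨0, 0, 0, 0, 0, 0, 81121, 0, 0, 0, 0, 0, 0⟩ ⟨194, -2, -1264, 6, -16, 212, 56834, 0, 0, 0, 0, 0, 0⟩))))
    (.s0
    (.s1
    (.leaf (.box ⟨2455, -1, -3607, 6, -9, 963, 717473, 0, 0, 0, 0, 0, 0⟩ ⟨0, 0, 0, 0, 0, 0, 130168, 0, 0, 0, 0, 0, 0⟩ ⟨0, 0, 0, 0, 0, 0, 130168, 0, 0, 0, 0, 0, 0⟩ ⟨0, 0, 0, 0, 0, 0, 71577, 0, 0, 0, 0, 0, 0⟩ ⟨0, 0, 0, 0, 0, 0, 71577, 0, 0, 0, 0, 0, 0⟩ ⟨207, -1, -561, 6, -11, 91, 49359, 0, 0, 0, 0, 0, 0⟩))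
    (.leaf (.box ⟨2672, -2, -1838, 6, -8, 767, 694750, 0, 0, 0, 0, 0, 0⟩ ⟨0, 0, 0, 0, 0, 0, 136693, 0, 0, 0, 0, 0, 0⟩ ⟨0, 0, 0, 0, 0, 0, 136693, 0, 0, 0, 0, 0, 0⟩ ⟨0, 0, 0, 0, 0, 0, 75804, 0, 0, 0, 0, 0, 0⟩ ⟨0, 0, 0, 0, 0, 0, 75804, 0, 0, 0, 0, 0, 0⟩ ⟨343, -2, -512, 7, -13, 110, 52443, 0, 0, 0, 0, 0, 0⟩)))
    (.s1
    (.leaf (.box ⟨2772, -1, -4871, 6, -8, 1307, 749196, 0, 0, 0, 0, 0, 0⟩ ⟨0, 0, 0, 0, 0, 0, 138050, 0, 0, 0, 0, 0, 0⟩ ⟨0, 0, 0, 0, 0, 0, 138050, 0, 0, 0, 0, 0, 0⟩ ⟨0, 0, 0, 0, 0, 0, 76030, 0, 0, 0, 0, 0, 0⟩ ⟨0, 0, 0, 0, 0, 0, 76030, 0, 0, 0, 0, 0, 0⟩ ⟨326, -1, -805, 6, -11, 141, 52461, 0, 0, 0, 0, 0, 0⟩))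
    (.leaf (.box ⟨2355, -2, -10207, 6, -18, 2475, 735392, 0, 0, 0, 0, 0, 0⟩ ⟨0, 0, 0, 0, 0, 0, 148030, 0, 0, 0, 0, 0, 0⟩ ⟨0, 0, 0, 0, 0, 0, 148030, 0, 0, 0, 0, 0, 0⟩ ⟨0, 0, 0, 0, 0, 0, 82298, 0, 0, 0, 0, 0, 0⟩ ⟨0, 0, 0, 0, 0, 0, 82298, 0, 0, 0, 0, 0, 0⟩ ⟨184, -2, -1338, 6, -18, 227, 56991, 0, 0, 0, 0, 0, 0⟩)))))

/-- A piece of the tree. -/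
noncomputable def tree39 : Tree LeafX :=
  .s2
    (.s3
    (.s0
    (.s1
    (.leaf (.box ⟨1390, -1, -2160, 6, -9, 527, 345516, 0, 0, 0, 0, 0, 0⟩ ⟨0, 0, 0, 0, 0, 0, 114392, 0, 0, 0, 0, 0, 0⟩ ⟨0, 0, 0, 0, 0, 0, 114392, 0, 0, 0, 0, 0, 0⟩ ⟨0, 0, 0, 0, 0, 0, 68542, 0, 0, 0, 0, 0, 0⟩ ⟨0, 0, 0, 0, 0, 0, 68542, 0, 0, 0, 0, 0, 0⟩ ⟨227, -1, -603, 6, -11, 93, 48930, 0, 0, 0, 0, 0, 0⟩))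
    (.leaf (.box ⟨1661, -2, -1232, 6, -8, 435, 349080, 0, 0, 0, 0, 0, 0⟩ ⟨0, 0, 0, 0, 0, 0, 119829, 0, 0, 0, 0, 0, 0⟩ ⟨0, 0, 0, 0, 0, 0, 119829, 0, 0, 0, 0, 0, 0⟩ ⟨0, 0, 0, 0, 0, 0, 72329, 0, 0, 0, 0, 0, 0⟩ ⟨0, 0, 0, 0, 0, 0, 72329, 0, 0, 0, 0, 0, 0⟩ ⟨358, -3, -512, 8, -11, 102, 51796, 0, 0, 0, 0, 0, 0⟩)))
    (.s1
    (.leaf (.box ⟨1674, -1, -2292, 6, -7, 624, 363984, 0, 0, 0, 0, 0, 0⟩ ⟨0, 0, 0, 0, 0, 0, 121327, 0, 0, 0, 0, 0, 0⟩ ⟨0, 0, 0, 0, 0, 0, 121327, 0, 0, 0, 0, 0, 0⟩ ⟨0, 0, 0, 0, 0, 0, 72796, 0, 0, 0, 0, 0, 0⟩ ⟨0, 0, 0, 0, 0, 0, 72796, 0, 0, 0, 0, 0, 0⟩ ⟨386, -1, -747, 6, -10, 134, 51997, 0, 0, 0, 0, 0, 0⟩))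
    (.leaf (.box ⟨751, -2, -3250, 6, -9, 731, 374237, 0, 0, 0, 0, 0, 0⟩ ⟨0, 0, 0, 0, 0, 0, 129795, 0, 0, 0, 0, 0, 0⟩ ⟨0, 0, 0, 0, 0, 0, 129795, 0, 0, 0, 0, 0, 0⟩ ⟨0, 0, 0, 0, 0, 0, 78513, 0, 0, 0, 0, 0, 0⟩ ⟨0, 0, 0, 0, 0, 0, 78513, 0, 0, 0, 0, 0, 0⟩ ⟨175, -2, -912, 6, -10, 148, 56277, 0, 0, 0, 0, 0, 0⟩))))
    (.s0
    (.s1
    (.leaf (.box ⟨1619, -1, -2485, 6, -9, 622, 417211, 0, 0, 0, 0, 0, 0⟩ ⟨0, 0, 0, 0, 0, 0, 118994, 0, 0, 0, 0, 0, 0⟩ ⟨0, 0, 0, 0, 0, 0, 118994, 0, 0, 0, 0, 0, 0⟩ ⟨0, 0, 0, 0, 0, 0, 69393, 0, 0, 0, 0, 0, 0⟩ ⟨0, 0, 0, 0, 0, 0, 69393, 0, 0, 0, 0, 0, 0⟩ ⟨208, -1, -561, 6, -10, 88, 48977, 0, 0, 0, 0, 0, 0⟩))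
    (.leaf (.box ⟨2530, -2, -1852, 6, -11, 683, 418016, 0, 0, 0, 0, 0, 0⟩ ⟨0, 0, 0, 0, 0, 0, 124765, 0, 0, 0, 0, 0, 0⟩ ⟨0, 0, 0, 0, 0, 0, 124765, 0, 0, 0, 0, 0, 0⟩ ⟨0, 0, 0, 0, 0, 0, 73325, 0, 0, 0, 0, 0, 0⟩ ⟨0, 0, 0, 0, 0, 0, 73325, 0, 0, 0, 0, 0, 0⟩ ⟨351, -3, -512, 8, -11, 104, 51919, 0, 0, 0, 0, 0, 0⟩)))
    (.s1
    (.leaf (.box ⟨2013, -1, -2955, 6, -8, 801, 438807, 0, 0, 0, 0, 0, 0⟩ ⟨0, 0, 0, 0, 0, 0, 126229, 0, 0, 0, 0, 0, 0⟩ ⟨0, 0, 0, 0, 0, 0, 126229, 0, 0, 0, 0, 0, 0⟩ ⟨0, 0, 0, 0, 0, 0, 73718, 0, 0, 0, 0, 0, 0⟩ ⟨0, 0, 0, 0, 0, 0, 73718, 0, 0, 0, 0, 0, 0⟩ ⟨369, -1, -765, 6, -10, 136, 52060, 0, 0, 0, 0, 0, 0⟩))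
    (.leaf (.box ⟨1374, -2, -6689, 6, -16, 1537, 447127, 0, 0, 0, 0, 0, 0⟩ ⟨0, 0, 0, 0, 0, 0, 135181, 0, 0, 0, 0, 0, 0⟩ ⟨0, 0, 0, 0, 0, 0, 135181, 0, 0, 0, 0, 0, 0⟩ ⟨0, 0, 0, 0, 0, 0, 79628, 0, 0, 0, 0, 0, 0⟩ ⟨0, 0, 0, 0, 0, 0, 79628, 0, 0, 0, 0, 0, 0⟩ ⟨206, -2, -1183, 6, -13, 194, 56435, 0, 0, 0, 0, 0, 0⟩)))))
    (.s3
    (.s0
    (.s1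
    (.leaf (.box ⟨1482, -1, -2358, 6, -10, 567, 343554, 0, 0, 0, 0, 0, 0⟩ ⟨0, 0, 0, 0, 0, 0, 113731, 0, 0, 0, 0, 0, 0⟩ ⟨0, 0, 0, 0, 0, 0, 113731, 0, 0, 0, 0, 0, 0⟩ ⟨0, 0, 0, 0, 0, 0, 68145, 0, 0, 0, 0, 0, 0⟩ ⟨0, 0, 0, 0, 0, 0, 68145, 0, 0, 0, 0, 0, 0⟩ ⟨228, -1, -620, 6, -11, 95, 48646, 0, 0, 0, 0, 0, 0⟩))
    (.leaf (.box ⟨1730, -2, -1331, 6, -8, 452, 346942, 0, 0, 0, 0, 0, 0⟩ ⟨0, 0, 0, 0, 0, 0, 119165, 0, 0, 0, 0, 0, 0⟩ ⟨0, 0, 0, 0, 0, 0, 119165, 0, 0, 0, 0, 0, 0⟩ ⟨0, 0, 0, 0, 0, 0, 71937, 0, 0, 0, 0, 0, 0⟩ ⟨0, 0, 0, 0, 0, 0, 71937, 0, 0, 0, 0, 0, 0⟩ ⟨349, -3, -512, 8, -10, 100, 51518, 0, 0, 0, 0, 0, 0⟩)))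
    (.s1
    (.leaf (.box ⟨1611, -1, -2131, 6, -7, 582, 362073, 0, 0, 0, 0, 0, 0⟩ ⟨0, 0, 0, 0, 0, 0, 120694, 0, 0, 0, 0, 0, 0⟩ ⟨0, 0, 0, 0, 0, 0, 120694, 0, 0, 0, 0, 0, 0⟩ ⟨0, 0, 0, 0, 0, 0, 72417, 0, 0, 0, 0, 0, 0⟩ ⟨0, 0, 0, 0, 0, 0, 72417, 0, 0, 0, 0, 0, 0⟩ ⟨437, -1, -817, 6, -10, 147, 51726, 0, 0, 0, 0, 0, 0⟩))
    (.leaf (.box ⟨888, -2, -3636, 6, -9, 806, 372352, 0, 0, 0, 0, 0, 0⟩ ⟨0, 0, 0, 0, 0, 0, 129217, 0, 0, 0, 0, 0, 0⟩ ⟨0, 0, 0, 0, 0, 0, 129217, 0, 0, 0, 0, 0, 0⟩ ⟨0, 0, 0, 0, 0, 0, 78172, 0, 0, 0, 0, 0, 0⟩ ⟨0, 0, 0, 0, 0, 0, 78172, 0, 0, 0, 0, 0, 0⟩ ⟨202, -2, -998, 6, -10, 160, 56036, 0, 0, 0, 0, 0, 0⟩))))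
    (.s0
    (.s1
    (.leaf (.box ⟨1525, -1, -2408, 6, -9, 595, 414852, 0, 0, 0, 0, 0, 0⟩ ⟨0, 0, 0, 0, 0, 0, 118307, 0, 0, 0, 0, 0, 0⟩ ⟨0, 0, 0, 0, 0, 0, 118307, 0, 0, 0, 0, 0, 0⟩ ⟨0, 0, 0, 0, 0, 0, 68991, 0, 0, 0, 0, 0, 0⟩ ⟨0, 0, 0, 0, 0, 0, 68991, 0, 0, 0, 0, 0, 0⟩ ⟨223, -1, -613, 6, -11, 95, 48693, 0, 0, 0, 0, 0, 0⟩))
    (.leaf (.box ⟨2511, -2, -1905, 6, -10, 676, 415400, 0, 0, 0, 0, 0, 0⟩ ⟨0, 0, 0, 0, 0, 0, 124077, 0, 0, 0, 0, 0, 0⟩ ⟨0, 0, 0, 0, 0, 0, 124077, 0, 0, 0, 0, 0, 0⟩ ⟨0, 0, 0, 0, 0, 0, 72930, 0, 0, 0, 0, 0, 0⟩ ⟨0, 0, 0, 0, 0, 0, 72930, 0, 0, 0, 0, 0, 0⟩ ⟨344, -3, -512, 8, -11, 102, 51642, 0, 0, 0, 0, 0, 0⟩)))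
    (.s1
    (.leaf (.box ⟨2189, -1, -3092, 6, -8, 841, 436500, 0, 0, 0, 0, 0, 0⟩ ⟨0, 0, 0, 0, 0, 0, 125571, 0, 0, 0, 0, 0, 0⟩ ⟨0, 0, 0, 0, 0, 0, 125571, 0, 0, 0, 0, 0, 0⟩ ⟨0, 0, 0, 0, 0, 0, 73334, 0, 0, 0, 0, 0, 0⟩ ⟨0, 0, 0, 0, 0, 0, 73334, 0, 0, 0, 0, 0, 0⟩ ⟨384, -1, -742, 6, -9, 132, 51789, 0, 0, 0, 0, 0, 0⟩))
    (.leaf (.box ⟨1110, -2, -5123, 6, -12, 1160, 444819, 0, 0, 0, 0, 0, 0⟩ ⟨0, 0, 0, 0, 0, 0, 134580, 0, 0, 0, 0, 0, 0⟩ ⟨0, 0, 0, 0, 0, 0, 134580, 0, 0, 0, 0, 0, 0⟩ ⟨0, 0, 0, 0, 0, 0, 79284, 0, 0, 0, 0, 0, 0⟩ ⟨0, 0, 0, 0, 0, 0, 79284, 0, 0, 0, 0, 0, 0⟩ ⟨186, -2, -1016, 6, -10, 165, 56194, 0, 0, 0, 0, 0, 0⟩)))))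

/-- A piece of the tree. -/
noncomputable def tree40 : Tree LeafX :=
  .s2
    (.s3
    (.s0
    (.s1
    (.leaf (.box ⟨1494, -1, -2277, 6, -7, 585, 526504, 0, 0, 0, 0, 0, 0⟩ ⟨0, 0, 0, 0, 0, 0, 123986, 0, 0, 0, 0, 0, 0⟩ ⟨0, 0, 0, 0, 0, 0, 123986, 0, 0, 0, 0, 0, 0⟩ ⟨0, 0, 0, 0, 0, 0, 70267, 0, 0, 0, 0, 0, 0⟩ ⟨0, 0, 0, 0, 0, 0, 70267, 0, 0, 0, 0, 0, 0⟩ ⟨210, -1, -574, 6, -11, 91, 49025, 0, 0, 0, 0, 0, 0⟩))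
    (.leaf (.box ⟨2909, -2, -2100, 6, -10, 808, 520717, 0, 0, 0, 0, 0, 0⟩ ⟨0, 0, 0, 0, 0, 0, 130118, 0, 0, 0, 0, 0, 0⟩ ⟨0, 0, 0, 0, 0, 0, 130118, 0, 0, 0, 0, 0, 0⟩ ⟨0, 0, 0, 0, 0, 0, 74348, 0, 0, 0, 0, 0, 0⟩ ⟨0, 0, 0, 0, 0, 0, 74348, 0, 0, 0, 0, 0, 0⟩ ⟨342, -2, -512, 7, -12, 106, 52042, 0, 0, 0, 0, 0, 0⟩)))
    (.s1
    (.leaf (.box ⟨2790, -1, -4402, 6, -9, 1189, 552366, 0, 0, 0, 0, 0, 0⟩ ⟨0, 0, 0, 0, 0, 0, 131546, 0, 0, 0, 0, 0, 0⟩ ⟨0, 0, 0, 0, 0, 0, 131546, 0, 0, 0, 0, 0, 0⟩ ⟨0, 0, 0, 0, 0, 0, 74664, 0, 0, 0, 0, 0, 0⟩ ⟨0, 0, 0, 0, 0, 0, 74664, 0, 0, 0, 0, 0, 0⟩ ⟨349, -1, -767, 6, -10, 135, 52124, 0, 0, 0, 0, 0, 0⟩))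
    (.leaf (.box ⟨1688, -2, -8401, 6, -17, 1970, 555045, 0, 0, 0, 0, 0, 0⟩ ⟨0, 0, 0, 0, 0, 0, 141020, 0, 0, 0, 0, 0, 0⟩ ⟨0, 0, 0, 0, 0, 0, 141020, 0, 0, 0, 0, 0, 0⟩ ⟨0, 0, 0, 0, 0, 0, 80771, 0, 0, 0, 0, 0, 0⟩ ⟨0, 0, 0, 0, 0, 0, 80771, 0, 0, 0, 0, 0, 0⟩ ⟨187, -2, -1205, 6, -14, 200, 56592, 0, 0, 0, 0, 0, 0⟩))))
    (.s0
    (.s1
    (.leaf (.box ⟨2486, -1, -3750, 6, -9, 988, 713486, 0, 0, 0, 0, 0, 0⟩ ⟨0, 0, 0, 0, 0, 0, 129417, 0, 0, 0, 0, 0, 0⟩ ⟨0, 0, 0, 0, 0, 0, 129417, 0, 0, 0, 0, 0, 0⟩ ⟨0, 0, 0, 0, 0, 0, 71163, 0, 0, 0, 0, 0, 0⟩ ⟨0, 0, 0, 0, 0, 0, 71163, 0, 0, 0, 0, 0, 0⟩ ⟨206, -1, -572, 6, -11, 92, 49073, 0, 0, 0, 0, 0, 0⟩))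
    (.leaf (.box ⟨2778, -2, -1978, 6, -8, 792, 690034, 0, 0, 0, 0, 0, 0⟩ ⟨0, 0, 0, 0, 0, 0, 135944, 0, 0, 0, 0, 0, 0⟩ ⟨0, 0, 0, 0, 0, 0, 135944, 0, 0, 0, 0, 0, 0⟩ ⟨0, 0, 0, 0, 0, 0, 75399, 0, 0, 0, 0, 0, 0⟩ ⟨0, 0, 0, 0, 0, 0, 75399, 0, 0, 0, 0, 0, 0⟩ ⟨335, -3, -512, 8, -12, 108, 52166, 0, 0, 0, 0, 0, 0⟩)))
    (.s1
    (.leaf (.box ⟨2674, -1, -4524, 6, -7, 1217, 745246, 0, 0, 0, 0, 0, 0⟩ ⟨0, 0, 0, 0, 0, 0, 137331, 0, 0, 0, 0, 0, 0⟩ ⟨0, 0, 0, 0, 0, 0, 137331, 0, 0, 0, 0, 0, 0⟩ ⟨0, 0, 0, 0, 0, 0, 75634, 0, 0, 0, 0, 0, 0⟩ ⟨0, 0, 0, 0, 0, 0, 75634, 0, 0, 0, 0, 0, 0⟩ ⟨334, -1, -798, 6, -11, 140, 52188, 0, 0, 0, 0, 0, 0⟩))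
    (.leaf (.box ⟨1795, -2, -8226, 6, -14, 1966, 731223, 0, 0, 0, 0, 0, 0⟩ ⟨0, 0, 0, 0, 0, 0, 147375, 0, 0, 0, 0, 0, 0⟩ ⟨0, 0, 0, 0, 0, 0, 147375, 0, 0, 0, 0, 0, 0⟩ ⟨0, 0, 0, 0, 0, 0, 81946, 0, 0, 0, 0, 0, 0⟩ ⟨0, 0, 0, 0, 0, 0, 81946, 0, 0, 0, 0, 0, 0⟩ ⟨156, -2, -1150, 6, -14, 193, 56750, 0, 0, 0, 0, 0, 0⟩)))))
    (.s3
    (.s0
    (.s1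
    (.leaf (.box ⟨1429, -1, -2231, 6, -7, 566, 523546, 0, 0, 0, 0, 0, 0⟩ ⟨0, 0, 0, 0, 0, 0, 123269, 0, 0, 0, 0, 0, 0⟩ ⟨0, 0, 0, 0, 0, 0, 123269, 0, 0, 0, 0, 0, 0⟩ ⟨0, 0, 0, 0, 0, 0, 69859, 0, 0, 0, 0, 0, 0⟩ ⟨0, 0, 0, 0, 0, 0, 69859, 0, 0, 0, 0, 0, 0⟩ ⟨197, -1, -555, 6, -10, 87, 48740, 0, 0, 0, 0, 0, 0⟩))
    (.leaf (.box ⟨2678, -2, -2003, 6, -9, 741, 517352, 0, 0, 0, 0, 0, 0⟩ ⟨0, 0, 0, 0, 0, 0, 129403, 0, 0, 0, 0, 0, 0⟩ ⟨0, 0, 0, 0, 0, 0, 129403, 0, 0, 0, 0, 0, 0⟩ ⟨0, 0, 0, 0, 0, 0, 73950, 0, 0, 0, 0, 0, 0⟩ ⟨0, 0, 0, 0, 0, 0, 73950, 0, 0, 0, 0, 0, 0⟩ ⟨334, -3, -512, 8, -11, 104, 51766, 0, 0, 0, 0, 0, 0⟩)))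
    (.s1
    (.leaf (.box ⟨3009, -1, -4526, 6, -9, 1226, 549456, 0, 0, 0, 0, 0, 0⟩ ⟨0, 0, 0, 0, 0, 0, 130858, 0, 0, 0, 0, 0, 0⟩ ⟨0, 0, 0, 0, 0, 0, 130858, 0, 0, 0, 0, 0, 0⟩ ⟨0, 0, 0, 0, 0, 0, 74274, 0, 0, 0, 0, 0, 0⟩ ⟨0, 0, 0, 0, 0, 0, 74274, 0, 0, 0, 0, 0, 0⟩ ⟨384, -1, -821, 6, -10, 145, 51852, 0, 0, 0, 0, 0, 0⟩))
    (.leaf (.box ⟨1822, -2, -9288, 6, -18, 2145, 552074, 0, 0, 0, 0, 0, 0⟩ ⟨0, 0, 0, 0, 0, 0, 140395, 0, 0, 0, 0, 0, 0⟩ ⟨0, 0, 0, 0, 0, 0, 140395, 0, 0, 0, 0, 0, 0⟩ ⟨0, 0, 0, 0, 0, 0, 80424, 0, 0, 0, 0, 0, 0⟩ ⟨0, 0, 0, 0, 0, 0, 80424, 0, 0, 0, 0, 0, 0⟩ ⟨189, -2, -1147, 6, -12, 188, 56352, 0, 0, 0, 0, 0, 0⟩))))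
    (.s0
    (.s1
    (.leaf (.box ⟨2520, -1, -3906, 6, -9, 1016, 709523, 0, 0, 0, 0, 0, 0⟩ ⟨0, 0, 0, 0, 0, 0, 128670, 0, 0, 0, 0, 0, 0⟩ ⟨0, 0, 0, 0, 0, 0, 128670, 0, 0, 0, 0, 0, 0⟩ ⟨0, 0, 0, 0, 0, 0, 70750, 0, 0, 0, 0, 0, 0⟩ ⟨0, 0, 0, 0, 0, 0, 70750, 0, 0, 0, 0, 0, 0⟩ ⟨191, -1, -542, 6, -10, 86, 48788, 0, 0, 0, 0, 0, 0⟩))
    (.leaf (.box ⟨2880, -2, -2129, 6, -8, 819, 685337, 0, 0, 0, 0, 0, 0⟩ ⟨0, 0, 0, 0, 0, 0, 135198, 0, 0, 0, 0, 0, 0⟩ ⟨0, 0, 0, 0, 0, 0, 135198, 0, 0, 0, 0, 0, 0⟩ ⟨0, 0, 0, 0, 0, 0, 74996, 0, 0, 0, 0, 0, 0⟩ ⟨0, 0, 0, 0, 0, 0, 74996, 0, 0, 0, 0, 0, 0⟩ ⟨328, -2, -512, 7, -12, 105, 51890, 0, 0, 0, 0, 0, 0⟩)))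
    (.s1
    (.leaf (.box ⟨2715, -1, -4399, 6, -7, 1187, 741309, 0, 0, 0, 0, 0, 0⟩ ⟨0, 0, 0, 0, 0, 0, 136614, 0, 0, 0, 0, 0, 0⟩ ⟨0, 0, 0, 0, 0, 0, 136614, 0, 0, 0, 0, 0, 0⟩ ⟨0, 0, 0, 0, 0, 0, 75240, 0, 0, 0, 0, 0, 0⟩ ⟨0, 0, 0, 0, 0, 0, 75240, 0, 0, 0, 0, 0, 0⟩ ⟨317, -1, -726, 6, -9, 128, 51916, 0, 0, 0, 0, 0, 0⟩))
    (.leaf (.box ⟨2458, -2, -12102, 6, -19, 2849, 727074, 0, 0, 0, 0, 0, 0⟩ ⟨0, 0, 0, 0, 0, 0, 146723, 0, 0, 0, 0, 0, 0⟩ ⟨0, 0, 0, 0, 0, 0, 146723, 0, 0, 0, 0, 0, 0⟩ ⟨0, 0, 0, 0, 0, 0, 81595, 0, 0, 0, 0, 0, 0⟩ ⟨0, 0, 0, 0, 0, 0, 81595, 0, 0, 0, 0, 0, 0⟩ ⟨191, -2, -1250, 6, -14, 207, 56510, 0, 0, 0, 0, 0, 0⟩)))))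

/-- A piece of the tree. -/
noncomputable def tree41 : Tree LeafX :=
  .s3
    (.s2
    (.s0
    (.s1
    (.leaf (.box ⟨1544, -1, -2536, 6, -10, 602, 341603, 0, 0, 0, 0, 0, 0⟩ ⟨0, 0, 0, 0, 0, 0, 113075, 0, 0, 0, 0, 0, 0⟩ ⟨0, 0, 0, 0, 0, 0, 113075, 0, 0, 0, 0, 0, 0⟩ ⟨0, 0, 0, 0, 0, 0, 67750, 0, 0, 0, 0, 0, 0⟩ ⟨0, 0, 0, 0, 0, 0, 67750, 0, 0, 0, 0, 0, 0⟩ ⟨189, -1, -538, 6, -9, 82, 48364, 0, 0, 0, 0, 0, 0⟩))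
    (.leaf (.box ⟨1806, -2, -1436, 6, -8, 470, 344814, 0, 0, 0, 0, 0, 0⟩ ⟨0, 0, 0, 0, 0, 0, 118507, 0, 0, 0, 0, 0, 0⟩ ⟨0, 0, 0, 0, 0, 0, 118507, 0, 0, 0, 0, 0, 0⟩ ⟨0, 0, 0, 0, 0, 0, 71549, 0, 0, 0, 0, 0, 0⟩ ⟨0, 0, 0, 0, 0, 0, 71549, 0, 0, 0, 0, 0, 0⟩ ⟨341, -3, -512, 8, -9, 98, 51243, 0, 0, 0, 0, 0, 0⟩)))
    (.s1
    (.leaf (.box ⟨1821, -1, -2322, 6, -7, 636, 360168, 0, 0, 0, 0, 0, 0⟩ ⟨0, 0, 0, 0, 0, 0, 120061, 0, 0, 0, 0, 0, 0⟩ ⟨0, 0, 0, 0, 0, 0, 120061, 0, 0, 0, 0, 0, 0⟩ ⟨0, 0, 0, 0, 0, 0, 72037, 0, 0, 0, 0, 0, 0⟩ ⟨0, 0, 0, 0, 0, 0, 72037, 0, 0, 0, 0, 0, 0⟩ ⟨429, -1, -773, 6, -9, 139, 51455, 0, 0, 0, 0, 0, 0⟩))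
    (.leaf (.box ⟨1398, -2, -5515, 6, -13, 1204, 370476, 0, 0, 0, 0, 0, 0⟩ ⟨0, 0, 0, 0, 0, 0, 128641, 0, 0, 0, 0, 0, 0⟩ ⟨0, 0, 0, 0, 0, 0, 128641, 0, 0, 0, 0, 0, 0⟩ ⟨0, 0, 0, 0, 0, 0, 77833, 0, 0, 0, 0, 0, 0⟩ ⟨0, 0, 0, 0, 0, 0, 77833, 0, 0, 0, 0, 0, 0⟩ ⟨224, -2, -1050, 6, -9, 166, 55796, 0, 0, 0, 0, 0, 0⟩))))
    (.s0
    (.s1
    (.leaf (.box ⟨1411, -1, -2377, 6, -9, 557, 339662, 0, 0, 0, 0, 0, 0⟩ ⟨0, 0, 0, 0, 0, 0, 112421, 0, 0, 0, 0, 0, 0⟩ ⟨0, 0, 0, 0, 0, 0, 112421, 0, 0, 0, 0, 0, 0⟩ ⟨0, 0, 0, 0, 0, 0, 67357, 0, 0, 0, 0, 0, 0⟩ ⟨0, 0, 0, 0, 0, 0, 67357, 0, 0, 0, 0, 0, 0⟩ ⟨188, -1, -546, 6, -9, 82, 48083, 0, 0, 0, 0, 0, 0⟩))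
    (.leaf (.box ⟨1878, -2, -1546, 6, -8, 487, 342696, 0, 0, 0, 0, 0, 0⟩ ⟨0, 0, 0, 0, 0, 0, 117852, 0, 0, 0, 0, 0, 0⟩ ⟨0, 0, 0, 0, 0, 0, 117852, 0, 0, 0, 0, 0, 0⟩ ⟨0, 0, 0, 0, 0, 0, 71162, 0, 0, 0, 0, 0, 0⟩ ⟨0, 0, 0, 0, 0, 0, 71162, 0, 0, 0, 0, 0, 0⟩ ⟨336, -3, -512, 8, -9, 95, 50969, 0, 0, 0, 0, 0, 0⟩)))
    (.s1
    (.leaf (.box ⟨1945, -1, -2400, 6, -7, 660, 358269, 0, 0, 0, 0, 0, 0⟩ ⟨0, 0, 0, 0, 0, 0, 119432, 0, 0, 0, 0, 0, 0⟩ ⟨0, 0, 0, 0, 0, 0, 119432, 0, 0, 0, 0, 0, 0⟩ ⟨0, 0, 0, 0, 0, 0, 71660, 0, 0, 0, 0, 0, 0⟩ ⟨0, 0, 0, 0, 0, 0, 71660, 0, 0, 0, 0, 0, 0⟩ ⟨394, -1, -685, 6, -8, 124, 51186, 0, 0, 0, 0, 0, 0⟩))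
    (.leaf (.box ⟨1136, -2, -4310, 6, -9, 927, 368610, 0, 0, 0, 0, 0, 0⟩ ⟨0, 0, 0, 0, 0, 0, 128069, 0, 0, 0, 0, 0, 0⟩ ⟨0, 0, 0, 0, 0, 0, 128069, 0, 0, 0, 0, 0, 0⟩ ⟨0, 0, 0, 0, 0, 0, 77497, 0, 0, 0, 0, 0, 0⟩ ⟨0, 0, 0, 0, 0, 0, 77497, 0, 0, 0, 0, 0, 0⟩ ⟨210, -2, -939, 6, -7, 147, 55558, 0, 0, 0, 0, 0, 0⟩)))))
    (.s2
    (.s0
    (.s1
    (.leaf (.box ⟨1436, -1, -2329, 6, -8, 568, 412505, 0, 0, 0, 0, 0, 0⟩ ⟨0, 0, 0, 0, 0, 0, 117623, 0, 0, 0, 0, 0, 0⟩ ⟨0, 0, 0, 0, 0, 0, 117623, 0, 0, 0, 0, 0, 0⟩ ⟨0, 0, 0, 0, 0, 0, 68591, 0, 0, 0, 0, 0, 0⟩ ⟨0, 0, 0, 0, 0, 0, 68591, 0, 0, 0, 0, 0, 0⟩ ⟨209, -1, -592, 6, -10, 91, 48410, 0, 0, 0, 0, 0, 0⟩))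
    (.leaf (.box ⟨2516, -2, -1982, 6, -10, 676, 412795, 0, 0, 0, 0, 0, 0⟩ ⟨0, 0, 0, 0, 0, 0, 123392, 0, 0, 0, 0, 0, 0⟩ ⟨0, 0, 0, 0, 0, 0, 123392, 0, 0, 0, 0, 0, 0⟩ ⟨0, 0, 0, 0, 0, 0, 72538, 0, 0, 0, 0, 0, 0⟩ ⟨0, 0, 0, 0, 0, 0, 72538, 0, 0, 0, 0, 0, 0⟩ ⟨334, -3, -512, 8, -10, 99, 51367, 0, 0, 0, 0, 0, 0⟩)))
    (.s1
    (.leaf (.box ⟨2347, -1, -3198, 6, -8, 873, 434200, 0, 0, 0, 0, 0, 0⟩ ⟨0, 0, 0, 0, 0, 0, 124913, 0, 0, 0, 0, 0, 0⟩ ⟨0, 0, 0, 0, 0, 0, 124913, 0, 0, 0, 0, 0, 0⟩ ⟨0, 0, 0, 0, 0, 0, 72950, 0, 0, 0, 0, 0, 0⟩ ⟨0, 0, 0, 0, 0, 0, 72950, 0, 0, 0, 0, 0, 0⟩ ⟨377, -1, -730, 6, -9, 131, 51518, 0, 0, 0, 0, 0, 0⟩))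
    (.leaf (.box ⟨1365, -2, -5932, 6, -12, 1323, 442522, 0, 0, 0, 0, 0, 0⟩ ⟨0, 0, 0, 0, 0, 0, 133983, 0, 0, 0, 0, 0, 0⟩ ⟨0, 0, 0, 0, 0, 0, 133983, 0, 0, 0, 0, 0, 0⟩ ⟨0, 0, 0, 0, 0, 0, 78942, 0, 0, 0, 0, 0, 0⟩ ⟨0, 0, 0, 0, 0, 0, 78942, 0, 0, 0, 0, 0, 0⟩ ⟨224, -2, -1158, 6, -11, 186, 55955, 0, 0, 0, 0, 0, 0⟩))))
    (.s0
    (.s1
    (.leaf (.box ⟨1357, -1, -2258, 6, -7, 543, 410172, 0, 0, 0, 0, 0, 0⟩ ⟨0, 0, 0, 0, 0, 0, 116944, 0, 0, 0, 0, 0, 0⟩ ⟨0, 0, 0, 0, 0, 0, 116944, 0, 0, 0, 0, 0, 0⟩ ⟨0, 0, 0, 0, 0, 0, 68193, 0, 0, 0, 0, 0, 0⟩ ⟨0, 0, 0, 0, 0, 0, 68193, 0, 0, 0, 0, 0, 0⟩ ⟨204, -1, -595, 6, -10, 91, 48129, 0, 0, 0, 0, 0, 0⟩))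
    (.leaf (.box ⟨2590, -2, -2106, 6, -10, 692, 410204, 0, 0, 0, 0, 0, 0⟩ ⟨0, 0, 0, 0, 0, 0, 122713, 0, 0, 0, 0, 0, 0⟩ ⟨0, 0, 0, 0, 0, 0, 122713, 0, 0, 0, 0, 0, 0⟩ ⟨0, 0, 0, 0, 0, 0, 72148, 0, 0, 0, 0, 0, 0⟩ ⟨0, 0, 0, 0, 0, 0, 72148, 0, 0, 0, 0, 0, 0⟩ ⟨329, -3, -512, 8, -9, 97, 51094, 0, 0, 0, 0, 0, 0⟩)))
    (.s1
    (.leaf (.box ⟨2475, -1, -3139, 6, -7, 860, 431908, 0, 0, 0, 0, 0, 0⟩ ⟨0, 0, 0, 0, 0, 0, 124257, 0, 0, 0, 0, 0, 0⟩ ⟨0, 0, 0, 0, 0, 0, 124257, 0, 0, 0, 0, 0, 0⟩ ⟨0, 0, 0, 0, 0, 0, 72567, 0, 0, 0, 0, 0, 0⟩ ⟨0, 0, 0, 0, 0, 0, 72567, 0, 0, 0, 0, 0, 0⟩ ⟨378, -1, -705, 6, -8, 126, 51248, 0, 0, 0, 0, 0, 0⟩))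
    (.leaf (.box ⟨1574, -2, -6583, 6, -13, 1446, 440237, 0, 0, 0, 0, 0, 0⟩ ⟨0, 0, 0, 0, 0, 0, 133388, 0, 0, 0, 0, 0, 0⟩ ⟨0, 0, 0, 0, 0, 0, 133388, 0, 0, 0, 0, 0, 0⟩ ⟨0, 0, 0, 0, 0, 0, 78602, 0, 0, 0, 0, 0, 0⟩ ⟨0, 0, 0, 0, 0, 0, 78602, 0, 0, 0, 0, 0, 0⟩ ⟨188, -2, -923, 6, -8, 147, 55717, 0, 0, 0, 0, 0, 0⟩)))))

/-- A piece of the tree. -/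
noncomputable def tree42 : Tree LeafX :=
  .s3
    (.s2
    (.s0
    (.s1
    (.leaf (.box ⟨1518, -1, -2431, 6, -7, 609, 520604, 0, 0, 0, 0, 0, 0⟩ ⟨0, 0, 0, 0, 0, 0, 122557, 0, 0, 0, 0, 0, 0⟩ ⟨0, 0, 0, 0, 0, 0, 122557, 0, 0, 0, 0, 0, 0⟩ ⟨0, 0, 0, 0, 0, 0, 69454, 0, 0, 0, 0, 0, 0⟩ ⟨0, 0, 0, 0, 0, 0, 69454, 0, 0, 0, 0, 0, 0⟩ ⟨198, -1, -569, 6, -10, 88, 48457, 0, 0, 0, 0, 0, 0⟩))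
    (.leaf (.box ⟨2548, -2, -1976, 6, -8, 703, 514002, 0, 0, 0, 0, 0, 0⟩ ⟨0, 0, 0, 0, 0, 0, 128692, 0, 0, 0, 0, 0, 0⟩ ⟨0, 0, 0, 0, 0, 0, 128692, 0, 0, 0, 0, 0, 0⟩ ⟨0, 0, 0, 0, 0, 0, 73554, 0, 0, 0, 0, 0, 0⟩ ⟨0, 0, 0, 0, 0, 0, 73554, 0, 0, 0, 0, 0, 0⟩ ⟨327, -3, -512, 8, -10, 101, 51492, 0, 0, 0, 0, 0, 0⟩)))
    (.s1
    (.leaf (.box ⟨2780, -1, -4023, 6, -8, 1094, 546556, 0, 0, 0, 0, 0, 0⟩ ⟨0, 0, 0, 0, 0, 0, 130173, 0, 0, 0, 0, 0, 0⟩ ⟨0, 0, 0, 0, 0, 0, 130173, 0, 0, 0, 0, 0, 0⟩ ⟨0, 0, 0, 0, 0, 0, 73886, 0, 0, 0, 0, 0, 0⟩ ⟨0, 0, 0, 0, 0, 0, 73886, 0, 0, 0, 0, 0, 0⟩ ⟨358, -1, -741, 6, -9, 132, 51581, 0, 0, 0, 0, 0, 0⟩))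
    (.leaf (.box ⟨1840, -2, -8962, 6, -16, 2039, 549116, 0, 0, 0, 0, 0, 0⟩ ⟨0, 0, 0, 0, 0, 0, 139773, 0, 0, 0, 0, 0, 0⟩ ⟨0, 0, 0, 0, 0, 0, 139773, 0, 0, 0, 0, 0, 0⟩ ⟨0, 0, 0, 0, 0, 0, 80078, 0, 0, 0, 0, 0, 0⟩ ⟨0, 0, 0, 0, 0, 0, 80078, 0, 0, 0, 0, 0, 0⟩ ⟨192, -2, -1097, 6, -11, 178, 56113, 0, 0, 0, 0, 0, 0⟩))))
    (.s0
    (.s1
    (.leaf (.box ⟨1510, -1, -2486, 6, -7, 614, 517679, 0, 0, 0, 0, 0, 0⟩ ⟨0, 0, 0, 0, 0, 0, 121847, 0, 0, 0, 0, 0, 0⟩ ⟨0, 0, 0, 0, 0, 0, 121847, 0, 0, 0, 0, 0, 0⟩ ⟨0, 0, 0, 0, 0, 0, 69050, 0, 0, 0, 0, 0, 0⟩ ⟨0, 0, 0, 0, 0, 0, 69050, 0, 0, 0, 0, 0, 0⟩ ⟨196, -1, -580, 6, -10, 89, 48175, 0, 0, 0, 0, 0, 0⟩))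
    (.leaf (.box ⟨2358, -2, -1894, 6, -7, 648, 510667, 0, 0, 0, 0, 0, 0⟩ ⟨0, 0, 0, 0, 0, 0, 127984, 0, 0, 0, 0, 0, 0⟩ ⟨0, 0, 0, 0, 0, 0, 127984, 0, 0, 0, 0, 0, 0⟩ ⟨0, 0, 0, 0, 0, 0, 73160, 0, 0, 0, 0, 0, 0⟩ ⟨0, 0, 0, 0, 0, 0, 73160, 0, 0, 0, 0, 0, 0⟩ ⟨331, -3, -512, 8, -10, 99, 51219, 0, 0, 0, 0, 0, 0⟩)))
    (.s1
    (.leaf (.box ⟨2814, -1, -3955, 6, -7, 1079, 543665, 0, 0, 0, 0, 0, 0⟩ ⟨0, 0, 0, 0, 0, 0, 129491, 0, 0, 0, 0, 0, 0⟩ ⟨0, 0, 0, 0, 0, 0, 129491, 0, 0, 0, 0, 0, 0⟩ ⟨0, 0, 0, 0, 0, 0, 73499, 0, 0, 0, 0, 0, 0⟩ ⟨0, 0, 0, 0, 0, 0, 73499, 0, 0, 0, 0, 0, 0⟩ ⟨364, -1, -723, 6, -8, 129, 51311, 0, 0, 0, 0, 0, 0⟩))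
    (.leaf (.box ⟨1819, -2, -8078, 6, -14, 1811, 546173, 0, 0, 0, 0, 0, 0⟩ ⟨0, 0, 0, 0, 0, 0, 139156, 0, 0, 0, 0, 0, 0⟩ ⟨0, 0, 0, 0, 0, 0, 139156, 0, 0, 0, 0, 0, 0⟩ ⟨0, 0, 0, 0, 0, 0, 79736, 0, 0, 0, 0, 0, 0⟩ ⟨0, 0, 0, 0, 0, 0, 79736, 0, 0, 0, 0, 0, 0⟩ ⟨208, -2, -1121, 6, -10, 180, 55876, 0, 0, 0, 0, 0, 0⟩)))))
    (.s2
    (.s0
    (.s1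
    (.leaf (.box ⟨2618, -1, -4151, 6, -9, 1065, 705581, 0, 0, 0, 0, 0, 0⟩ ⟨0, 0, 0, 0, 0, 0, 127925, 0, 0, 0, 0, 0, 0⟩ ⟨0, 0, 0, 0, 0, 0, 127925, 0, 0, 0, 0, 0, 0⟩ ⟨0, 0, 0, 0, 0, 0, 70339, 0, 0, 0, 0, 0, 0⟩ ⟨0, 0, 0, 0, 0, 0, 70339, 0, 0, 0, 0, 0, 0⟩ ⟨190, -1, -557, 6, -10, 88, 48504, 0, 0, 0, 0, 0, 0⟩))
    (.leaf (.box ⟨2989, -2, -2286, 6, -8, 846, 680661, 0, 0, 0, 0, 0, 0⟩ ⟨0, 0, 0, 0, 0, 0, 134456, 0, 0, 0, 0, 0, 0⟩ ⟨0, 0, 0, 0, 0, 0, 134456, 0, 0, 0, 0, 0, 0⟩ ⟨0, 0, 0, 0, 0, 0, 74596, 0, 0, 0, 0, 0, 0⟩ ⟨0, 0, 0, 0, 0, 0, 74596, 0, 0, 0, 0, 0, 0⟩ ⟨319, -3, -512, 8, -11, 103, 51616, 0, 0, 0, 0, 0, 0⟩)))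
    (.s1
    (.leaf (.box ⟨2622, -1, -4088, 6, -6, 1107, 737382, 0, 0, 0, 0, 0, 0⟩ ⟨0, 0, 0, 0, 0, 0, 135897, 0, 0, 0, 0, 0, 0⟩ ⟨0, 0, 0, 0, 0, 0, 135897, 0, 0, 0, 0, 0, 0⟩ ⟨0, 0, 0, 0, 0, 0, 74846, 0, 0, 0, 0, 0, 0⟩ ⟨0, 0, 0, 0, 0, 0, 74846, 0, 0, 0, 0, 0, 0⟩ ⟨325, -1, -715, 6, -9, 126, 51644, 0, 0, 0, 0, 0, 0⟩))
    (.leaf (.box ⟨2313, -2, -12327, 6, -18, 2859, 722946, 0, 0, 0, 0, 0, 0⟩ ⟨0, 0, 0, 0, 0, 0, 146076, 0, 0, 0, 0, 0, 0⟩ ⟨0, 0, 0, 0, 0, 0, 146076, 0, 0, 0, 0, 0, 0⟩ ⟨0, 0, 0, 0, 0, 0, 81247, 0, 0, 0, 0, 0, 0⟩ ⟨0, 0, 0, 0, 0, 0, 81247, 0, 0, 0, 0, 0, 0⟩ ⟨197, -2, -1254, 6, -13, 206, 56272, 0, 0, 0, 0, 0, 0⟩))))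
    (.s0
    (.s1
    (.leaf (.box ⟨2708, -1, -4428, 6, -9, 1121, 701664, 0, 0, 0, 0, 0, 0⟩ ⟨0, 0, 0, 0, 0, 0, 127183, 0, 0, 0, 0, 0, 0⟩ ⟨0, 0, 0, 0, 0, 0, 127183, 0, 0, 0, 0, 0, 0⟩ ⟨0, 0, 0, 0, 0, 0, 69929, 0, 0, 0, 0, 0, 0⟩ ⟨0, 0, 0, 0, 0, 0, 69929, 0, 0, 0, 0, 0, 0⟩ ⟨181, -1, -532, 6, -9, 83, 48221, 0, 0, 0, 0, 0, 0⟩))
    (.leaf (.box ⟨3100, -2, -2459, 6, -8, 875, 676005, 0, 0, 0, 0, 0, 0⟩ ⟨0, 0, 0, 0, 0, 0, 133720, 0, 0, 0, 0, 0, 0⟩ ⟨0, 0, 0, 0, 0, 0, 133720, 0, 0, 0, 0, 0, 0⟩ ⟨0, 0, 0, 0, 0, 0, 74199, 0, 0, 0, 0, 0, 0⟩ ⟨0, 0, 0, 0, 0, 0, 74199, 0, 0, 0, 0, 0, 0⟩ ⟨311, -3, -512, 8, -10, 101, 51344, 0, 0, 0, 0, 0, 0⟩)))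
    (.s1
    (.leaf (.box ⟨2544, -1, -3802, 6, -5, 1033, 733471, 0, 0, 0, 0, 0, 0⟩ ⟨0, 0, 0, 0, 0, 0, 135185, 0, 0, 0, 0, 0, 0⟩ ⟨0, 0, 0, 0, 0, 0, 135185, 0, 0, 0, 0, 0, 0⟩ ⟨0, 0, 0, 0, 0, 0, 74454, 0, 0, 0, 0, 0, 0⟩ ⟨0, 0, 0, 0, 0, 0, 74454, 0, 0, 0, 0, 0, 0⟩ ⟨341, -1, -727, 6, -8, 129, 51374, 0, 0, 0, 0, 0, 0⟩))
    (.leaf (.box ⟨1105, -2, -5650, 6, -8, 1291, 718835, 0, 0, 0, 0, 0, 0⟩ ⟨0, 0, 0, 0, 0, 0, 145434, 0, 0, 0, 0, 0, 0⟩ ⟨0, 0, 0, 0, 0, 0, 145434, 0, 0, 0, 0, 0, 0⟩ ⟨0, 0, 0, 0, 0, 0, 80901, 0, 0, 0, 0, 0, 0⟩ ⟨0, 0, 0, 0, 0, 0, 80901, 0, 0, 0, 0, 0, 0⟩ ⟨198, -2, -1189, 6, -12, 193, 56036, 0, 0, 0, 0, 0, 0⟩)))))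

/-- A piece of the tree. -/
noncomputable def tree43 : Tree LeafX :=
  .s3
    (.s3
    (.s0
    (.s1
    (.leaf (.box ⟨1227, -1, -2113, 6, -7, 485, 372342, 0, 0, 0, 0, 0, 0⟩ ⟨418, -1, -873, 6, -8, 170, 111122, 0, 0, 0, 0, 0, 0⟩ ⟨418, -1, -873, 6, -8, 170, 111122, 0, 0, 0, 0, 0, 0⟩ ⟨260, -1, -654, 6, -8, 110, 66697, 0, 0, 0, 0, 0, 0⟩ ⟨260, -1, -654, 6, -8, 110, 66697, 0, 0, 0, 0, 0, 0⟩ ⟨171, -1, -512, 6, -7, 76, 48194, 0, 0, 0, 0, 0, 0⟩))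
    (.leaf (.box ⟨1938, -2, -1662, 6, -7, 495, 338490, 0, 0, 0, 0, 0, 0⟩ ⟨0, 0, 0, 0, 0, 0, 116552, 0, 0, 0, 0, 0, 0⟩ ⟨0, 0, 0, 0, 0, 0, 116552, 0, 0, 0, 0, 0, 0⟩ ⟨0, 0, 0, 0, 0, 0, 70396, 0, 0, 0, 0, 0, 0⟩ ⟨0, 0, 0, 0, 0, 0, 70396, 0, 0, 0, 0, 0, 0⟩ ⟨327, -3, -512, 8, -7, 92, 50426, 0, 0, 0, 0, 0, 0⟩)))
    (.s1
    (.leaf (.box ⟨2122, -1, -2440, 6, -6, 675, 354491, 0, 0, 0, 0, 0, 0⟩ ⟨0, 0, 0, 0, 0, 0, 118179, 0, 0, 0, 0, 0, 0⟩ ⟨0, 0, 0, 0, 0, 0, 118179, 0, 0, 0, 0, 0, 0⟩ ⟨0, 0, 0, 0, 0, 0, 70910, 0, 0, 0, 0, 0, 0⟩ ⟨0, 0, 0, 0, 0, 0, 70910, 0, 0, 0, 0, 0, 0⟩ ⟨380, -1, -618, 6, -6, 112, 50650, 0, 0, 0, 0, 0, 0⟩))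
    (.leaf (.box ⟨1272, -2, -4536, 6, -8, 954, 364908, 0, 0, 0, 0, 0, 0⟩ ⟨0, 0, 0, 0, 0, 0, 126935, 0, 0, 0, 0, 0, 0⟩ ⟨0, 0, 0, 0, 0, 0, 126935, 0, 0, 0, 0, 0, 0⟩ ⟨0, 0, 0, 0, 0, 0, 76830, 0, 0, 0, 0, 0, 0⟩ ⟨0, 0, 0, 0, 0, 0, 76830, 0, 0, 0, 0, 0, 0⟩ ⟨178, -2, -762, 6, -5, 118, 55086, 0, 0, 0, 0, 0, 0⟩))))
    (.s2
    (.s0
    (.s1
    (.leaf (.box ⟨1223, -1, -2105, 6, -7, 500, 407851, 0, 0, 0, 0, 0, 0⟩ ⟨0, 0, 0, 0, 0, 0, 116265, 0, 0, 0, 0, 0, 0⟩ ⟨0, 0, 0, 0, 0, 0, 116265, 0, 0, 0, 0, 0, 0⟩ ⟨0, 0, 0, 0, 0, 0, 67796, 0, 0, 0, 0, 0, 0⟩ ⟨0, 0, 0, 0, 0, 0, 67796, 0, 0, 0, 0, 0, 0⟩ ⟨189, -1, -575, 6, -9, 87, 47848, 0, 0, 0, 0, 0, 0⟩))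
    (.leaf (.box ⟨2347, -2, -1974, 6, -8, 624, 407625, 0, 0, 0, 0, 0, 0⟩ ⟨0, 0, 0, 0, 0, 0, 122036, 0, 0, 0, 0, 0, 0⟩ ⟨0, 0, 0, 0, 0, 0, 122036, 0, 0, 0, 0, 0, 0⟩ ⟨0, 0, 0, 0, 0, 0, 71760, 0, 0, 0, 0, 0, 0⟩ ⟨0, 0, 0, 0, 0, 0, 71760, 0, 0, 0, 0, 0, 0⟩ ⟨319, -3, -512, 8, -8, 95, 50822, 0, 0, 0, 0, 0, 0⟩)))
    (.s1
    (.leaf (.box ⟨2515, -1, -3196, 6, -7, 879, 429624, 0, 0, 0, 0, 0, 0⟩ ⟨0, 0, 0, 0, 0, 0, 123606, 0, 0, 0, 0, 0, 0⟩ ⟨0, 0, 0, 0, 0, 0, 123606, 0, 0, 0, 0, 0, 0⟩ ⟨0, 0, 0, 0, 0, 0, 72188, 0, 0, 0, 0, 0, 0⟩ ⟨0, 0, 0, 0, 0, 0, 72188, 0, 0, 0, 0, 0, 0⟩ ⟨383, -1, -669, 6, -7, 120, 50980, 0, 0, 0, 0, 0, 0⟩))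
    (.leaf (.box ⟨1405, -2, -5622, 6, -10, 1217, 437963, 0, 0, 0, 0, 0, 0⟩ ⟨0, 0, 0, 0, 0, 0, 132798, 0, 0, 0, 0, 0, 0⟩ ⟨0, 0, 0, 0, 0, 0, 132798, 0, 0, 0, 0, 0, 0⟩ ⟨0, 0, 0, 0, 0, 0, 78265, 0, 0, 0, 0, 0, 0⟩ ⟨0, 0, 0, 0, 0, 0, 78265, 0, 0, 0, 0, 0, 0⟩ ⟨226, -2, -1051, 6, -8, 165, 55481, 0, 0, 0, 0, 0, 0⟩))))
    (.s0
    (.s1
    (.leaf (.box ⟨1159, -1, -2050, 6, -6, 480, 405542, 0, 0, 0, 0, 0, 0⟩ ⟨0, 0, 0, 0, 0, 0, 115593, 0, 0, 0, 0, 0, 0⟩ ⟨0, 0, 0, 0, 0, 0, 115593, 0, 0, 0, 0, 0, 0⟩ ⟨0, 0, 0, 0, 0, 0, 67402, 0, 0, 0, 0, 0, 0⟩ ⟨0, 0, 0, 0, 0, 0, 67402, 0, 0, 0, 0, 0, 0⟩ ⟨167, -1, -527, 6, -8, 79, 47570, 0, 0, 0, 0, 0, 0⟩))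
    (.leaf (.box ⟨2138, -2, -1861, 6, -7, 567, 405057, 0, 0, 0, 0, 0, 0⟩ ⟨0, 0, 0, 0, 0, 0, 121364, 0, 0, 0, 0, 0, 0⟩ ⟨0, 0, 0, 0, 0, 0, 121364, 0, 0, 0, 0, 0, 0⟩ ⟨0, 0, 0, 0, 0, 0, 71375, 0, 0, 0, 0, 0, 0⟩ ⟨0, 0, 0, 0, 0, 0, 71375, 0, 0, 0, 0, 0, 0⟩ ⟨312, -3, -512, 8, -8, 93, 50552, 0, 0, 0, 0, 0, 0⟩)))
    (.s1
    (.leaf (.box ⟨2456, -1, -2896, 6, -6, 799, 427348, 0, 0, 0, 0, 0, 0⟩ ⟨0, 0, 0, 0, 0, 0, 122955, 0, 0, 0, 0, 0, 0⟩ ⟨0, 0, 0, 0, 0, 0, 122955, 0, 0, 0, 0, 0, 0⟩ ⟨0, 0, 0, 0, 0, 0, 71808, 0, 0, 0, 0, 0, 0⟩ ⟨0, 0, 0, 0, 0, 0, 71808, 0, 0, 0, 0, 0, 0⟩ ⟨371, -1, -623, 6, -6, 112, 50712, 0, 0, 0, 0, 0, 0⟩))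
    (.leaf (.box ⟨1263, -2, -4803, 6, -8, 1024, 435701, 0, 0, 0, 0, 0, 0⟩ ⟨0, 0, 0, 0, 0, 0, 132212, 0, 0, 0, 0, 0, 0⟩ ⟨0, 0, 0, 0, 0, 0, 132212, 0, 0, 0, 0, 0, 0⟩ ⟨0, 0, 0, 0, 0, 0, 77930, 0, 0, 0, 0, 0, 0⟩ ⟨0, 0, 0, 0, 0, 0, 77930, 0, 0, 0, 0, 0, 0⟩ ⟨223, -2, -973, 6, -6, 151, 55247, 0, 0, 0, 0, 0, 0⟩))))))
    (.s0
    (.s1
    (.leaf (.box ⟨1558, -1, -2578, 6, -7, 632, 516970, 0, 0, 0, 0, 0, 0⟩ ⟨0, 0, 0, 0, 0, 0, 120411, 0, 0, 0, 0, 0, 0⟩ ⟨0, 0, 0, 0, 0, 0, 120411, 0, 0, 0, 0, 0, 0⟩ ⟨0, 0, 0, 0, 0, 0, 68142, 0, 0, 0, 0, 0, 0⟩ ⟨0, 0, 0, 0, 0, 0, 68142, 0, 0, 0, 0, 0, 0⟩ ⟨178, -1, -544, 6, -9, 83, 47515, 0, 0, 0, 0, 0, 0⟩))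
    (.leaf (.box ⟨1902, -2, -1574, 6, -6, 519, 508405, 0, 0, 0, 0, 0, 0⟩ ⟨0, 0, 0, 0, 0, 0, 126582, 0, 0, 0, 0, 0, 0⟩ ⟨0, 0, 0, 0, 0, 0, 126582, 0, 0, 0, 0, 0, 0⟩ ⟨0, 0, 0, 0, 0, 0, 72290, 0, 0, 0, 0, 0, 0⟩ ⟨0, 0, 0, 0, 0, 0, 72290, 0, 0, 0, 0, 0, 0⟩ ⟨313, -3, -512, 8, -9, 96, 50591, 0, 0, 0, 0, 0, 0⟩)))
    (.s1
    (.leaf (.box ⟨2558, -1, -3318, 6, -6, 908, 542961, 0, 0, 0, 0, 0, 0⟩ ⟨0, 0, 0, 0, 0, 0, 128127, 0, 0, 0, 0, 0, 0⟩ ⟨0, 0, 0, 0, 0, 0, 128127, 0, 0, 0, 0, 0, 0⟩ ⟨0, 0, 0, 0, 0, 0, 72634, 0, 0, 0, 0, 0, 0⟩ ⟨0, 0, 0, 0, 0, 0, 72634, 0, 0, 0, 0, 0, 0⟩ ⟨345, -1, -613, 6, -6, 109, 50682, 0, 0, 0, 0, 0, 0⟩))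
    (.leaf (.box ⟨1128, -2, -4921, 6, -8, 1089, 544908, 0, 0, 0, 0, 0, 0⟩ ⟨0, 0, 0, 0, 0, 0, 137934, 0, 0, 0, 0, 0, 0⟩ ⟨0, 0, 0, 0, 0, 0, 137934, 0, 0, 0, 0, 0, 0⟩ ⟨0, 0, 0, 0, 0, 0, 78961, 0, 0, 0, 0, 0, 0⟩ ⟨0, 0, 0, 0, 0, 0, 78961, 0, 0, 0, 0, 0, 0⟩ ⟨182, -2, -927, 6, -8, 148, 55312, 0, 0, 0, 0, 0, 0⟩))))

/-- A piece of the tree. -/
noncomputable def tree44 : Tree LeafX :=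
  .s2
    (.s0
    (.s1
    (.leaf (.box ⟨1075, -1, -1835, 6, -6, 420, 334667, 0, 0, 0, 0, 0, 0⟩ ⟨0, 0, 0, 0, 0, 0, 108486, 0, 0, 0, 0, 0, 0⟩ ⟨0, 0, 0, 0, 0, 0, 108486, 0, 0, 0, 0, 0, 0⟩ ⟨0, 0, 0, 0, 0, 0, 64735, 0, 0, 0, 0, 0, 0⟩ ⟨0, 0, 0, 0, 0, 0, 64735, 0, 0, 0, 0, 0, 0⟩ ⟨171, -1, -512, 7, -7, 75, 46131, 0, 0, 0, 0, 0, 0⟩))
    (.leaf (.box ⟨1561, -2, -1392, 6, -5, 395, 336002, 0, 0, 0, 0, 0, 0⟩ ⟨0, 0, 0, 0, 0, 0, 113999, 0, 0, 0, 0, 0, 0⟩ ⟨0, 0, 0, 0, 0, 0, 113999, 0, 0, 0, 0, 0, 0⟩ ⟨0, 0, 0, 0, 0, 0, 68645, 0, 0, 0, 0, 0, 0⟩ ⟨0, 0, 0, 0, 0, 0, 68645, 0, 0, 0, 0, 0, 0⟩ ⟨308, -4, -512, 10, -6, 89, 49107, 0, 0, 0, 0, 0, 0⟩)))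
    (.s1
    (.leaf (.box ⟨2032, -1, -2040, 6, -4, 568, 353484, 0, 0, 0, 0, 0, 0⟩ ⟨0, 0, 0, 0, 0, 0, 115684, 0, 0, 0, 0, 0, 0⟩ ⟨0, 0, 0, 0, 0, 0, 115684, 0, 0, 0, 0, 0, 0⟩ ⟨0, 0, 0, 0, 0, 0, 69159, 0, 0, 0, 0, 0, 0⟩ ⟨0, 0, 0, 0, 0, 0, 69159, 0, 0, 0, 0, 0, 0⟩ ⟨373, -1, -530, 6, -4, 96, 49322, 0, 0, 0, 0, 0, 0⟩))
    (.leaf (.box ⟨814, -2, -2813, 6, -4, 583, 363814, 0, 0, 0, 0, 0, 0⟩ ⟨0, 0, 0, 0, 0, 0, 124713, 0, 0, 0, 0, 0, 0⟩ ⟨0, 0, 0, 0, 0, 0, 124713, 0, 0, 0, 0, 0, 0⟩ ⟨0, 0, 0, 0, 0, 0, 75255, 0, 0, 0, 0, 0, 0⟩ ⟨0, 0, 0, 0, 0, 0, 75255, 0, 0, 0, 0, 0, 0⟩ ⟨149, -2, -602, 6, -3, 92, 53885, 0, 0, 0, 0, 0, 0⟩))))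
    (.s0
    (.leaf (.box ⟨1338, -2, -1356, 6, -3, 313, 327128, 0, 0, 0, 0, 0, 0⟩ ⟨0, 0, 0, 0, 0, 0, 105978, 0, 0, 0, 0, 0, 0⟩ ⟨0, 0, 0, 0, 0, 0, 105978, 0, 0, 0, 0, 0, 0⟩ ⟨0, 0, 0, 0, 0, 0, 63231, 0, 0, 0, 0, 0, 0⟩ ⟨0, 0, 0, 0, 0, 0, 63231, 0, 0, 0, 0, 0, 0⟩ ⟨292, -4, -512, 11, -5, 77, 45057, 0, 0, 0, 0, 0, 0⟩))
    (.s1
    (.leaf (.box ⟨1868, -1, -1632, 6, -2, 463, 345963, 0, 0, 0, 0, 0, 0⟩ ⟨0, 0, 0, 0, 0, 0, 113241, 0, 0, 0, 0, 0, 0⟩ ⟨0, 0, 0, 0, 0, 0, 113241, 0, 0, 0, 0, 0, 0⟩ ⟨0, 0, 0, 0, 0, 0, 67701, 0, 0, 0, 0, 0, 0⟩ ⟨0, 0, 0, 0, 0, 0, 67701, 0, 0, 0, 0, 0, 0⟩ ⟨409, -2, -512, 8, -3, 95, 48283, 0, 0, 0, 0, 0, 0⟩))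
    (.leaf (.box ⟨968, -2, -2947, 6, -2, 575, 356543, 0, 0, 0, 0, 0, 0⟩ ⟨0, 0, 0, 0, 0, 0, 122547, 0, 0, 0, 0, 0, 0⟩ ⟨0, 0, 0, 0, 0, 0, 122547, 0, 0, 0, 0, 0, 0⟩ ⟨0, 0, 0, 0, 0, 0, 73989, 0, 0, 0, 0, 0, 0⟩ ⟨0, 0, 0, 0, 0, 0, 73989, 0, 0, 0, 0, 0, 0⟩ ⟨157, -2, -554, 6, -1, 81, 52991, 0, 0, 0, 0, 0, 0⟩))))

theorem parts1 :
    (runPathS conQ supQ (fun n Qs i d x => leafR conQ seg n Qs i d x) [.d0 false, .d1 false, .d2 false, .d0 true, .d1 true, .d0 false, .d1 false, .d0 true, .d1 true, .d3 true] tree24 0 0 0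
      (joinS (lay.B * lay.size) rootQ) = true) ∧
    (runPathS conQ supQ (fun n Qs i d x => leafR conQ seg n Qs i d x) [.d0 false, .d1 false, .d2 false, .d0 true, .d1 true, .d0 false, .d1 true, .d0 false] tree25 0 0 0
      (joinS (lay.B * lay.size) rootQ) = true) ∧
    (runPathS conQ supQ (fun n Qs i d x => leafR conQ seg n Qs i d x) [.d0 false, .d1 false, .d2 false, .d0 true, .d1 true, .d0 false, .d1 true, .d0 true, .d1 false] tree26 0 0 0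
      (joinS (lay.B * lay.size) rootQ) = true) ∧
    (runPathS conQ supQ (fun n Qs i d x => leafR conQ seg n Qs i d x) [.d0 false, .d1 false, .d2 false, .d0 true, .d1 true, .d0 false, .d1 true, .d0 true, .d1 true] tree27 0 0 0
      (joinS (lay.B * lay.size) rootQ) = true) ∧
    (runPathS conQ supQ (fun n Qs i d x => leafR conQ seg n Qs i d x) [.d0 false, .d1 false, .d2 false, .d0 true, .d1 true, .d0 true, .d1 false] tree28 0 0 0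
      (joinS (lay.B * lay.size) rootQ) = true) ∧
    (runPathS conQ supQ (fun n Qs i d x => leafR conQ seg n Qs i d x) [.d0 false, .d1 false, .d2 false, .d0 true, .d1 true, .d0 true, .d1 true, .d0 false, .d2 false, .d1 false] tree29 0 0 0
      (joinS (lay.B * lay.size) rootQ) = true) ∧
    (runPathS conQ supQ (fun n Qs i d x => leafR conQ seg n Qs i d x) [.d0 false, .d1 false, .d2 false, .d0 true, .d1 true, .d0 true, .d1 true, .d0 false, .d2 false, .d1 true, .d0 false] tree30 0 0 0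
      (joinS (lay.B * lay.size) rootQ) = true) ∧
    (runPathS conQ supQ (fun n Qs i d x => leafR conQ seg n Qs i d x) [.d0 false, .d1 false, .d2 false, .d0 true, .d1 true, .d0 true, .d1 true, .d0 false, .d2 false, .d1 true, .d0 true] tree31 0 0 0
      (joinS (lay.B * lay.size) rootQ) = true) ∧
    (runPathS conQ supQ (fun n Qs i d x => leafR conQ seg n Qs i d x) [.d0 false, .d1 false, .d2 false, .d0 true, .d1 true, .d0 true, .d1 true, .d0 false, .d2 true] tree32 0 0 0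
      (joinS (lay.B * lay.size) rootQ) = true) ∧
    (runPathS conQ supQ (fun n Qs i d x => leafR conQ seg n Qs i d x) [.d0 false, .d1 false, .d2 false, .d0 true, .d1 true, .d0 true, .d1 true, .d0 true, .d2 false] tree33 0 0 0
      (joinS (lay.B * lay.size) rootQ) = true) ∧
    (runPathS conQ supQ (fun n Qs i d x => leafR conQ seg n Qs i d x) [.d0 false, .d1 false, .d2 false, .d0 true, .d1 true, .d0 true, .d1 true, .d0 true, .d2 true] tree34 0 0 0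
      (joinS (lay.B * lay.size) rootQ) = true) ∧
    (runPathS conQ supQ (fun n Qs i d x => leafR conQ seg n Qs i d x) [.d0 false, .d1 false, .d2 true, .d0 false, .d1 false, .d0 false, .d1 false, .d2 false] tree35 0 0 0
      (joinS (lay.B * lay.size) rootQ) = true) ∧
    (runPathS conQ supQ (fun n Qs i d x => leafR conQ seg n Qs i d x) [.d0 false, .d1 false, .d2 true, .d0 false, .d1 false, .d0 false, .d1 false, .d2 true, .d2 false, .d3 false] tree36 0 0 0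
      (joinS (lay.B * lay.size) rootQ) = true) ∧
    (runPathS conQ supQ (fun n Qs i d x => leafR conQ seg n Qs i d x) [.d0 false, .d1 false, .d2 true, .d0 false, .d1 false, .d0 false, .d1 false, .d2 true, .d2 false, .d3 true, .d2 false, .d2 false, .d2 false, .d2 false] tree37 0 0 0
      (joinS (lay.B * lay.size) rootQ) = true) ∧
    (runPathS conQ supQ (fun n Qs i d x => leafR conQ seg n Qs i d x) [.d0 false, .d1 false, .d2 true, .d0 false, .d1 false, .d0 false, .d1 false, .d2 true, .d2 false, .d3 true, .d2 false, .d2 false, .d2 false, .d2 true] tree38 0 0 0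
      (joinS (lay.B * lay.size) rootQ) = true) ∧
    (runPathS conQ supQ (fun n Qs i d x => leafR conQ seg n Qs i d x) [.d0 false, .d1 false, .d2 true, .d0 false, .d1 false, .d0 false, .d1 false, .d2 true, .d2 false, .d3 true, .d2 false, .d2 false, .d2 true, .d3 false] tree39 0 0 0
      (joinS (lay.B * lay.size) rootQ) = true) ∧
    (runPathS conQ supQ (fun n Qs i d x => leafR conQ seg n Qs i d x) [.d0 false, .d1 false, .d2 true, .d0 false, .d1 false, .d0 false, .d1 false, .d2 true, .d2 false, .d3 true, .d2 false, .d2 false, .d2 true, .d3 true] tree40 0 0 0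
      (joinS (lay.B * lay.size) rootQ) = true) ∧
    (runPathS conQ supQ (fun n Qs i d x => leafR conQ seg n Qs i d x) [.d0 false, .d1 false, .d2 true, .d0 false, .d1 false, .d0 false, .d1 false, .d2 true, .d2 false, .d3 true, .d2 false, .d2 true, .d2 false, .d3 false] tree41 0 0 0
      (joinS (lay.B * lay.size) rootQ) = true) ∧
    (runPathS conQ supQ (fun n Qs i d x => leafR conQ seg n Qs i d x) [.d0 false, .d1 false, .d2 true, .d0 false, .d1 false, .d0 false, .d1 false, .d2 true, .d2 false, .d3 true, .d2 false, .d2 true, .d2 false, .d3 true] tree42 0 0 0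
      (joinS (lay.B * lay.size) rootQ) = true) ∧
    (runPathS conQ supQ (fun n Qs i d x => leafR conQ seg n Qs i d x) [.d0 false, .d1 false, .d2 true, .d0 false, .d1 false, .d0 false, .d1 false, .d2 true, .d2 false, .d3 true, .d2 false, .d2 true, .d2 true] tree43 0 0 0
      (joinS (lay.B * lay.size) rootQ) = true) ∧
    (runPathS conQ supQ (fun n Qs i d x => leafR conQ seg n Qs i d x) [.d0 false, .d1 false, .d2 true, .d0 false, .d1 false, .d0 false, .d1 false, .d2 true, .d2 false, .d3 true, .d2 true] tree44 0 0 0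
      (joinS (lay.B * lay.size) rootQ) = true) :=
  ⟨by decide +kernel,
  by decide +kernel,
  by decide +kernel,
  by decide +kernel,
  by decide +kernel,
  by decide +kernel,
  by decide +kernel,
  by decide +kernel,
  by decide +kernel,
  by decide +kernel,
  by decide +kernel,
  by decide +kernel,
  by decide +kernel,
  by decide +kernel,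
  by decide +kernel,
  by decide +kernel,
  by decide +kernel,
  by decide +kernel,
  by decide +kernel,
  by decide +kernel,
  by decide +kernel⟩

end Vale.Agent.P098.Six.S5
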