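import Vale.Agent.P098.Six.S5.Root

/-!
# P098, six dimensions: checked pieces of the tree
-/

namespace Vale.Agent.P098.Six.S5

/-- A piece of the tree. -/
noncomputable def tree45 : Tree LeafX :=
  .s2
    (.s0
    (.leaf (.box ⟨521, -2, -585, 6, -1, 109, 182646, 0, 0, 0, 0, 0, 0⟩ ⟨0, 0, 0, 0, 0, 0, 86673, 0, 0, 0, 0, 0, 0⟩ ⟨0, 0, 0, 0, 0, 0, 86673, 0, 0, 0, 0, 0, 0⟩ ⟨0, 0, 0, 0, 0, 0, 56817, 0, 0, 0, 0, 0, 0⟩ ⟨0, 0, 0, 0, 0, 0, 56817, 0, 0, 0, 0, 0, 0⟩ ⟨279, -6, -512, 16, -1, 67, 42260, 0, 0, 0, 0, 0, 0⟩))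
    (.s1
    (.leaf (.box ⟨1363, -1, -772, 6, 0, 228, 194532, 0, 0, 0, 0, 0, 0⟩ ⟨0, 0, 0, 0, 0, 0, 92984, 0, 0, 0, 0, 0, 0⟩ ⟨0, 0, 0, 0, 0, 0, 92984, 0, 0, 0, 0, 0, 0⟩ ⟨0, 0, 0, 0, 0, 0, 61093, 0, 0, 0, 0, 0, 0⟩ ⟨0, 0, 0, 0, 0, 0, 61093, 0, 0, 0, 0, 0, 0⟩ ⟨512, -2, -399, 9, 1, 77, 45490, 0, 0, 0, 0, 0, 0⟩))
    (.leaf (.box ⟨408, -3, -939, 6, 1, 160, 205859, 0, 0, 0, 0, 0, 0⟩ ⟨0, 0, 0, 0, 0, 0, 101003, 0, 0, 0, 0, 0, 0⟩ ⟨0, 0, 0, 0, 0, 0, 101003, 0, 0, 0, 0, 0, 0⟩ ⟨0, 0, 0, 0, 0, 0, 66918, 0, 0, 0, 0, 0, 0⟩ ⟨0, 0, 0, 0, 0, 0, 66918, 0, 0, 0, 0, 0, 0⟩ ⟨196, -4, -512, 10, 3, 69, 50033, 0, 0, 0, 0, 0, 0⟩))))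
    (.s1
    (.s1
    (.s0
    (.leaf (.box ⟨517, -1, -998, 6, -1, 183, 174404, 0, 0, 0, 0, 0, 0⟩ ⟨0, 0, 0, 0, 0, 0, 82679, 0, 0, 0, 0, 0, 0⟩ ⟨0, 0, 0, 0, 0, 0, 82679, 0, 0, 0, 0, 0, 0⟩ ⟨0, 0, 0, 0, 0, 0, 54182, 0, 0, 0, 0, 0, 0⟩ ⟨0, 0, 0, 0, 0, 0, 54182, 0, 0, 0, 0, 0, 0⟩ ⟨191, -1, -512, 10, -2, 65, 40294, 0, 0, 0, 0, 0, 0⟩))
    (.s0
    (.leaf (.box ⟨1072, -1, -852, 6, 3, 254, 186161, 0, 0, 0, 0, 0, 0⟩ ⟨0, 0, 0, 0, 0, 0, 89008, 0, 0, 0, 0, 0, 0⟩ ⟨0, 0, 0, 0, 0, 0, 89008, 0, 0, 0, 0, 0, 0⟩ ⟨0, 0, 0, 0, 0, 0, 58486, 0, 0, 0, 0, 0, 0⟩ ⟨0, 0, 0, 0, 0, 0, 58486, 0, 0, 0, 0, 0, 0⟩ ⟨431, -1, -512, 8, 5, 96, 43551, 0, 0, 0, 0, 587045911, 2245017368⟩))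
    (.leaf (.box ⟨1098, -1, -158, 6, 3, 231, 196430, 0, 0, 0, 0, 10574801627, 9570042186⟩ ⟨0, 0, 0, 0, 0, 0, 94157, 0, 0, 0, 0, 0, 0⟩ ⟨0, 0, 0, 0, 0, 0, 94157, 0, 0, 0, 0, 0, 0⟩ ⟨0, 0, 0, 0, 0, 0, 61918, 0, 0, 0, 0, 0, 0⟩ ⟨0, 0, 0, 0, 0, 0, 61918, 0, 0, 0, 0, 0, 0⟩ ⟨512, -2, -232, 11, 7, 102, 46125, 0, 0, 0, 0, 2255449809, 2161502983⟩))))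
    (.leaf (.box ⟨700, -2, -735, 6, 1, 136, 176743, 0, 0, 0, 0, 0, 0⟩ ⟨0, 0, 0, 0, 0, 0, 85673, 0, 0, 0, 0, 0, 0⟩ ⟨0, 0, 0, 0, 0, 0, 85673, 0, 0, 0, 0, 0, 0⟩ ⟨0, 0, 0, 0, 0, 0, 56540, 0, 0, 0, 0, 0, 0⟩ ⟨0, 0, 0, 0, 0, 0, 56540, 0, 0, 0, 0, 0, 0⟩ ⟨426, -5, -512, 14, 3, 70, 42192, 0, 0, 0, 0, 0, 0⟩)))
    (.leaf (.box ⟨475, -3, -665, 6, 2, 99, 177690, 0, 0, 0, 0, 0, 0⟩ ⟨0, 0, 0, 0, 0, 0, 87131, 0, 0, 0, 0, 0, 0⟩ ⟨0, 0, 0, 0, 0, 0, 87131, 0, 0, 0, 0, 0, 0⟩ ⟨0, 0, 0, 0, 0, 0, 57716, 0, 0, 0, 0, 0, 0⟩ ⟨0, 0, 0, 0, 0, 0, 57716, 0, 0, 0, 0, 0, 0⟩ ⟨237, -7, -512, 15, 7, 61, 43149, 0, 0, 0, 0, 0, 0⟩)))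

/-- A piece of the tree. -/
noncomputable def tree46 : Tree LeafX :=
  .s1
    (.s2
    (.s0
    (.leaf (.box ⟨657, -1, 75, 6, -6, 127, 215000, 0, 0, 0, 0, 0, 0⟩ ⟨0, 0, 0, 0, 0, 0, 103476, 0, 0, 0, 0, 0, 0⟩ ⟨0, 0, 0, 0, 0, 0, 103476, 0, 0, 0, 0, 0, 0⟩ ⟨0, 0, 0, 0, 0, 0, 68134, 0, 0, 0, 0, 0, 0⟩ ⟨0, 0, 0, 0, 0, 0, 68134, 0, 0, 0, 0, 0, 0⟩ ⟨512, -4, -113, 19, -20, 100, 50787, 0, 0, 0, 0, 0, 0⟩))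
    (.s2
    (.leaf (.box ⟨1010, -1, -803, 6, -17, 412, 255030, 0, 0, 0, 0, 0, 0⟩ ⟨0, 0, 0, 0, 0, 0, 123800, 0, 0, 0, 0, 0, 0⟩ ⟨0, 0, 0, 0, 0, 0, 123800, 0, 0, 0, 0, 0, 0⟩ ⟨0, 0, 0, 0, 0, 0, 81740, 0, 0, 0, 0, 0, 0⟩ ⟨0, 0, 0, 0, 0, 0, 81740, 0, 0, 0, 0, 0, 0⟩ ⟨399, -3, -512, 11, -25, 155, 61011, 0, 0, 0, 0, 0, 0⟩))
    (.leaf (.box ⟨730, -2, -770, 6, -6, 247, 236341, 0, 0, 0, 0, 0, 0⟩ ⟨0, 0, 0, 0, 0, 0, 115360, 0, 0, 0, 0, 0, 0⟩ ⟨0, 0, 0, 0, 0, 0, 115360, 0, 0, 0, 0, 0, 0⟩ ⟨0, 0, 0, 0, 0, 0, 76302, 0, 0, 0, 0, 0, 0⟩ ⟨0, 0, 0, 0, 0, 0, 76302, 0, 0, 0, 0, 0, 0⟩ ⟨309, -3, -512, 10, -10, 109, 57002, 0, 0, 0, 0, 0, 0⟩))))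
    (.s3
    (.s1
    (.s0
    (.leaf (.box ⟨512, -4, -312, 7, 0, 76, 170503, 0, 0, 0, 0, 0, 0⟩ ⟨0, 0, 0, 0, 0, 0, 85738, 0, 0, 0, 0, 0, 0⟩ ⟨0, 0, 0, 0, 0, 0, 85738, 0, 0, 0, 0, 0, 0⟩ ⟨0, 0, 0, 0, 0, 0, 57267, 0, 0, 0, 0, 0, 0⟩ ⟨0, 0, 0, 0, 0, 0, 57267, 0, 0, 0, 0, 0, 0⟩ ⟨512, -13, -472, 27, 4, 78, 42991, 0, 0, 0, 0, 0, 0⟩))
    (.s2
    (.leaf (.box ⟨508, -3, -1109, 6, 0, 210, 213693, 0, 0, 0, 0, 0, 0⟩ ⟨0, 0, 0, 0, 0, 0, 107189, 0, 0, 0, 0, 0, 0⟩ ⟨0, 0, 0, 0, 0, 0, 107189, 0, 0, 0, 0, 0, 0⟩ ⟨0, 0, 0, 0, 0, 0, 71536, 0, 0, 0, 0, 0, 0⟩ ⟨0, 0, 0, 0, 0, 0, 71536, 0, 0, 0, 0, 0, 0⟩ ⟨172, -4, -512, 9, 1, 74, 53680, 0, 0, 0, 0, 0, 0⟩))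
    (.leaf (.box ⟨312, -3, -882, 6, 4, 120, 199373, 0, 0, 0, 0, 0, 0⟩ ⟨0, 0, 0, 0, 0, 0, 100786, 0, 0, 0, 0, 0, 0⟩ ⟨0, 0, 0, 0, 0, 0, 100786, 0, 0, 0, 0, 0, 0⟩ ⟨0, 0, 0, 0, 0, 0, 67439, 0, 0, 0, 0, 0, 0⟩ ⟨0, 0, 0, 0, 0, 0, 67439, 0, 0, 0, 0, 0, 0⟩ ⟨143, -5, -512, 10, 9, 58, 50672, 0, 0, 0, 0, 0, 0⟩))))
    (.s0
    (.leaf (.box ⟨512, -3, -216, 7, 1, 72, 168518, 0, 0, 0, 0, 0, 0⟩ ⟨0, 0, 0, 0, 0, 0, 84465, 0, 0, 0, 0, 0, 0⟩ ⟨0, 0, 0, 0, 0, 0, 84465, 0, 0, 0, 0, 0, 0⟩ ⟨0, 0, 0, 0, 0, 0, 56356, 0, 0, 0, 0, 0, 0⟩ ⟨0, 0, 0, 0, 0, 0, 56356, 0, 0, 0, 0, 0, 0⟩ ⟨512, -12, -364, 28, 6, 74, 42284, 0, 0, 0, 0, 0, 0⟩))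
    (.leaf (.box ⟨360, -2, -532, 6, 2, 85, 201064, 0, 0, 0, 0, 0, 0⟩ ⟨0, 0, 0, 0, 0, 0, 101553, 0, 0, 0, 0, 0, 0⟩ ⟨0, 0, 0, 0, 0, 0, 101553, 0, 0, 0, 0, 0, 0⟩ ⟨0, 0, 0, 0, 0, 0, 67932, 0, 0, 0, 0, 0, 0⟩ ⟨0, 0, 0, 0, 0, 0, 67932, 0, 0, 0, 0, 0, 0⟩ ⟨257, -7, -512, 18, 8, 67, 51035, 0, 0, 0, 0, 0, 0⟩))))
    (.s2
    (.s0
    (.leaf (.box ⟨1216, -2, -351, 6, -2, 227, 324768, 0, 0, 0, 0, 0, 0⟩ ⟨0, 0, 0, 0, 0, 0, 109794, 0, 0, 0, 0, 0, 0⟩ ⟨0, 0, 0, 0, 0, 0, 109794, 0, 0, 0, 0, 0, 0⟩ ⟨0, 0, 0, 0, 0, 0, 66064, 0, 0, 0, 0, 0, 0⟩ ⟨0, 0, 0, 0, 0, 0, 66064, 0, 0, 0, 0, 0, 0⟩ ⟨512, -6, -374, 18, -5, 102, 47246, 0, 0, 0, 0, 0, 0⟩))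
    (.leaf (.box ⟨931, -2, -1429, 6, -1, 319, 364843, 0, 0, 0, 0, 0, 0⟩ ⟨0, 0, 0, 0, 0, 0, 126535, 0, 0, 0, 0, 0, 0⟩ ⟨0, 0, 0, 0, 0, 0, 126535, 0, 0, 0, 0, 0, 0⟩ ⟨0, 0, 0, 0, 0, 0, 76540, 0, 0, 0, 0, 0, 0⟩ ⟨0, 0, 0, 0, 0, 0, 76540, 0, 0, 0, 0, 0, 0⟩ ⟨224, -4, -512, 10, 0, 84, 54863, 0, 0, 0, 0, 0, 0⟩)))
    (.leaf (.box ⟨1073, -3, -752, 6, 2, 136, 287916, 0, 0, 0, 0, 0, 0⟩ ⟨0, 0, 0, 0, 0, 0, 99697, 0, 0, 0, 0, 0, 0⟩ ⟨0, 0, 0, 0, 0, 0, 99697, 0, 0, 0, 0, 0, 0⟩ ⟨0, 0, 0, 0, 0, 0, 60286, 0, 0, 0, 0, 0, 0⟩ ⟨0, 0, 0, 0, 0, 0, 60286, 0, 0, 0, 0, 0, 0⟩ ⟨489, -9, -512, 20, 10, 72, 43206, 0, 0, 0, 0, 0, 0⟩)))))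
    (.s2
    (.leaf (.box ⟨732, 0, 58, 6, -4, 111, 212387, 0, 0, 0, 0, 0, 0⟩ ⟨0, 0, 0, 0, 0, 0, 100970, 0, 0, 0, 0, 0, 0⟩ ⟨0, 0, 0, 0, 0, 0, 100970, 0, 0, 0, 0, 0, 0⟩ ⟨0, 0, 0, 0, 0, 0, 66228, 0, 0, 0, 0, 0, 0⟩ ⟨0, 0, 0, 0, 0, 0, 66228, 0, 0, 0, 0, 0, 0⟩ ⟨512, -2, -86, 21, -14, 81, 49273, 0, 0, 0, 0, 0, 0⟩))
    (.s0
    (.leaf (.box ⟨512, -2, -59, 7, 2, 63, 168952, 0, 0, 0, 0, 0, 0⟩ ⟨0, 0, 0, 0, 0, 0, 82132, 0, 0, 0, 0, 0, 0⟩ ⟨0, 0, 0, 0, 0, 0, 82132, 0, 0, 0, 0, 0, 0⟩ ⟨0, 0, 0, 0, 0, 0, 54253, 0, 0, 0, 0, 0, 0⟩ ⟨0, 0, 0, 0, 0, 0, 54253, 0, 0, 0, 0, 0, 0⟩ ⟨512, -9, -190, 32, 8, 67, 40504, 0, 0, 0, 0, 0, 0⟩))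
    (.leaf (.box ⟨512, -3, -503, 9, 3, 98, 208700, 0, 0, 0, 0, 0, 0⟩ ⟨0, 0, 0, 0, 0, 0, 102327, 0, 0, 0, 0, 0, 0⟩ ⟨0, 0, 0, 0, 0, 0, 102327, 0, 0, 0, 0, 0, 0⟩ ⟨0, 0, 0, 0, 0, 0, 67780, 0, 0, 0, 0, 0, 0⟩ ⟨0, 0, 0, 0, 0, 0, 67780, 0, 0, 0, 0, 0, 0⟩ ⟨373, -8, -512, 26, 12, 79, 50672, 0, 0, 0, 0, 0, 0⟩))))

/-- A piece of the tree. -/
noncomputable def tree47 : Tree LeafX :=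
  .s1
    (.s2
    (.leaf (.box ⟨512, 0, -50, 9, -6, 127, 246059, 0, 0, 0, 0, 0, 0⟩ ⟨0, 0, 0, 0, 0, 0, 117416, 0, 0, 0, 0, 0, 0⟩ ⟨0, 0, 0, 0, 0, 0, 117416, 0, 0, 0, 0, 0, 0⟩ ⟨0, 0, 0, 0, 0, 0, 77105, 0, 0, 0, 0, 0, 0⟩ ⟨0, 0, 0, 0, 0, 0, 77105, 0, 0, 0, 0, 0, 0⟩ ⟨512, 0, -141, 31, -23, 112, 57398, 0, 0, 0, 4959504, 0, 0⟩))
    (.s2
    (.leaf (.box ⟨512, -1, 100, 8, -2, 114, 228568, 0, 0, 0, 0, 0, 0⟩ ⟨0, 0, 0, 0, 0, 0, 109487, 0, 0, 0, 0, 0, 0⟩ ⟨0, 0, 0, 0, 0, 0, 109487, 0, 0, 0, 0, 0, 0⟩ ⟨0, 0, 0, 0, 0, 0, 71984, 0, 0, 0, 0, 0, 0⟩ ⟨0, 0, 0, 0, 0, 0, 71984, 0, 0, 0, 0, 0, 0⟩ ⟨512, -3, 8, 28, -7, 95, 53618, 0, 0, 0, 0, 0, 0⟩))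
    (.s0
    (.s2
    (.leaf (.box ⟨708, -1, 67, 6, 0, 140, 219983, 0, 0, 0, 0, 0, 0⟩ ⟨0, 0, 0, 0, 0, 0, 105571, 0, 0, 0, 0, 0, 0⟩ ⟨0, 0, 0, 0, 0, 0, 105571, 0, 0, 0, 0, 0, 0⟩ ⟨0, 0, 0, 0, 0, 0, 69450, 0, 0, 0, 0, 0, 0⟩ ⟨0, 0, 0, 0, 0, 0, 69450, 0, 0, 0, 0, 0, 0⟩ ⟨512, -3, -59, 17, -1, 94, 51745, 0, 0, 0, 0, 0, 0⟩))
    (.s2
    (.leaf (.box ⟨794, -1, 151, 6, 1, 152, 215725, 0, 0, 0, 0, 0, 0⟩ ⟨0, 0, 0, 0, 0, 0, 103636, 0, 0, 0, 0, 0, 0⟩ ⟨0, 0, 0, 0, 0, 0, 103636, 0, 0, 0, 0, 0, 0⟩ ⟨0, 0, 0, 0, 0, 0, 68200, 0, 0, 0, 0, 0, 0⟩ ⟨0, 0, 0, 0, 0, 0, 68200, 0, 0, 0, 0, 0, 0⟩ ⟨512, -3, -5, 16, 3, 93, 50822, 0, 0, 0, 0, 0, 0⟩))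
    (.s3
    (.leaf (.box ⟨682, -1, 223, 6, 1, 129, 205604, 0, 0, 0, 0, 7563225235, 0⟩ ⟨0, 0, 0, 0, 0, 0, 101021, 0, 0, 0, 0, 0, 0⟩ ⟨0, 0, 0, 0, 0, 0, 101021, 0, 0, 0, 0, 0, 0⟩ ⟨0, 0, 0, 0, 0, 0, 66960, 0, 0, 0, 0, 0, 0⟩ ⟨0, 0, 0, 0, 0, 0, 66960, 0, 0, 0, 0, 0, 0⟩ ⟨512, -4, 69, 17, 5, 91, 50076, 0, 0, 0, 0, 4457554032, 0⟩))
    (.leaf (.box ⟨1139, -1, 235, 6, 1, 231, 358126, 0, 0, 0, 0, 21503821169, 0⟩ ⟨0, 0, 0, 0, 0, 0, 118764, 0, 0, 0, 0, 0, 0⟩ ⟨0, 0, 0, 0, 0, 0, 118764, 0, 0, 0, 0, 0, 0⟩ ⟨0, 0, 0, 0, 0, 0, 71185, 0, 0, 0, 0, 0, 0⟩ ⟨0, 0, 0, 0, 0, 0, 71185, 0, 0, 0, 0, 0, 0⟩ ⟨512, -4, -5, 17, 5, 100, 50824, 0, 0, 0, 0, 4853384037, 0⟩)))))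
    (.leaf (.box ⟨512, -2, 349, 8, 0, 118, 298508, 0, 0, 0, 0, 5386930561, 0⟩ ⟨512, -3, 330, 17, 1, 119, 127455, 0, 0, 0, 0, 6094324787, 0⟩ ⟨512, -3, 330, 17, 1, 119, 127455, 0, 0, 0, 0, 6094324787, 0⟩ ⟨512, -5, 305, 25, 2, 117, 83457, 0, 0, 0, 0, 6444057799, 0⟩ ⟨512, -5, 305, 25, 2, 117, 83457, 0, 0, 0, 0, 6444057799, 0⟩ ⟨512, -6, 282, 31, 3, 116, 64338, 0, 0, 0, 0, 6876647712, 0⟩)))))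
    (.s0
    (.s2
    (.leaf (.box ⟨472, -1, -526, 6, -9, 189, 254038, 0, 0, 0, 0, 0, 0⟩ ⟨0, 0, 0, 0, 0, 0, 123699, 0, 0, 0, 0, 0, 0⟩ ⟨0, 0, 0, 0, 0, 0, 123699, 0, 0, 0, 0, 0, 0⟩ ⟨0, 0, 0, 0, 0, 0, 81753, 0, 0, 0, 0, 0, 0⟩ ⟨0, 0, 0, 0, 0, 0, 81753, 0, 0, 0, 0, 0, 0⟩ ⟨368, -5, -512, 20, -24, 129, 61051, 0, 0, 0, 0, 0, 0⟩))
    (.s1
    (.s0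
    (.leaf (.box ⟨387, -2, -521, 6, -2, 160, 225085, 0, 0, 0, 0, 0, 0⟩ ⟨0, 0, 0, 0, 0, 0, 110780, 0, 0, 0, 0, 0, 0⟩ ⟨0, 0, 0, 0, 0, 0, 110780, 0, 0, 0, 0, 0, 0⟩ ⟨0, 0, 0, 0, 0, 0, 73470, 0, 0, 0, 0, 0, 0⟩ ⟨0, 0, 0, 0, 0, 0, 73470, 0, 0, 0, 0, 0, 0⟩ ⟨323, -6, -512, 17, -5, 113, 54959, 0, 0, 0, 0, 0, 0⟩))
    (.s2
    (.leaf (.box ⟨750, -2, -650, 6, -11, 350, 257523, 0, 0, 0, 0, 0, 0⟩ ⟨0, 0, 0, 0, 0, 0, 125978, 0, 0, 0, 0, 0, 0⟩ ⟨0, 0, 0, 0, 0, 0, 125978, 0, 0, 0, 0, 0, 0⟩ ⟨0, 0, 0, 0, 0, 0, 83384, 0, 0, 0, 0, 0, 0⟩ ⟨0, 0, 0, 0, 0, 0, 83384, 0, 0, 0, 0, 0, 0⟩ ⟨433, -3, -512, 12, -20, 175, 62315, 0, 0, 0, 0, 0, 0⟩))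
    (.leaf (.box ⟨751, -2, -459, 6, -4, 293, 244709, 0, 0, 0, 0, 12938631245, 0⟩ ⟨0, 0, 0, 0, 0, 0, 120522, 0, 0, 0, 0, 0, 0⟩ ⟨0, 0, 0, 0, 0, 0, 120522, 0, 0, 0, 0, 0, 0⟩ ⟨0, 0, 0, 0, 0, 0, 79949, 0, 0, 0, 0, 0, 0⟩ ⟨0, 0, 0, 0, 0, 0, 79949, 0, 0, 0, 0, 0, 0⟩ ⟨512, -4, -446, 15, -9, 179, 59813, 0, 0, 0, 0, 6203790623, 0⟩))))
    (.leaf (.box ⟨497, -2, -512, 7, -2, 142, 229433, 0, 0, 0, 0, 0, 0⟩ ⟨0, 0, 0, 0, 0, 0, 113328, 0, 0, 0, 0, 0, 0⟩ ⟨0, 0, 0, 0, 0, 0, 113328, 0, 0, 0, 0, 0, 0⟩ ⟨0, 0, 0, 0, 0, 0, 75249, 0, 0, 0, 0, 0, 0⟩ ⟨0, 0, 0, 0, 0, 0, 75249, 0, 0, 0, 0, 0, 0⟩ ⟨368, -8, -512, 23, -6, 108, 56323, 0, 0, 0, 0, 0, 0⟩))))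
    (.s2
    (.leaf (.box ⟨512, -1, -249, 8, -12, 203, 293845, 0, 0, 0, 0, 0, 0⟩ ⟨0, 0, 0, 0, 0, 0, 142925, 0, 0, 0, 0, 0, 0⟩ ⟨0, 0, 0, 0, 0, 0, 142925, 0, 0, 0, 0, 0, 0⟩ ⟨0, 0, 0, 0, 0, 0, 94427, 0, 0, 0, 0, 0, 0⟩ ⟨0, 0, 0, 0, 0, 0, 94427, 0, 0, 0, 0, 0, 0⟩ ⟨512, -4, -343, 30, -42, 176, 70503, 0, 0, 0, 0, 0, 0⟩))
    (.s2
    (.leaf (.box ⟨636, -1, -187, 6, -9, 230, 281577, 0, 0, 0, 0, 0, 0⟩ ⟨0, 0, 0, 0, 0, 0, 137765, 0, 0, 0, 0, 0, 0⟩ ⟨0, 0, 0, 0, 0, 0, 137765, 0, 0, 0, 0, 0, 0⟩ ⟨0, 0, 0, 0, 0, 0, 91190, 0, 0, 0, 0, 0, 0⟩ ⟨0, 0, 0, 0, 0, 0, 91190, 0, 0, 0, 0, 0, 0⟩ ⟨512, -4, -244, 19, -26, 163, 68150, 0, 0, 0, 0, 0, 0⟩))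
    (.s2
    (.leaf (.box ⟨737, -1, -140, 6, -8, 257, 275666, 0, 0, 0, 0, 0, 0⟩ ⟨0, 0, 0, 0, 0, 0, 135408, 0, 0, 0, 0, 0, 0⟩ ⟨0, 0, 0, 0, 0, 0, 135408, 0, 0, 0, 0, 0, 0⟩ ⟨0, 0, 0, 0, 0, 0, 89745, 0, 0, 0, 0, 0, 0⟩ ⟨0, 0, 0, 0, 0, 0, 89745, 0, 0, 0, 0, 0, 0⟩ ⟨512, -3, -186, 14, -19, 160, 67113, 0, 0, 0, 0, 0, 0⟩))
    (.s2
    (.leaf (.box ⟨794, -2, -109, 6, -7, 271, 272815, 0, 0, 0, 0, 0, 0⟩ ⟨0, 0, 0, 0, 0, 0, 134291, 0, 0, 0, 0, 0, 0⟩ ⟨0, 0, 0, 0, 0, 0, 134291, 0, 0, 0, 0, 0, 0⟩ ⟨0, 0, 0, 0, 0, 0, 89066, 0, 0, 0, 0, 0, 0⟩ ⟨0, 0, 0, 0, 0, 0, 89066, 0, 0, 0, 0, 0, 0⟩ ⟨512, -3, -154, 13, -15, 158, 66628, 0, 0, 0, 0, 0, 0⟩))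
    (.leaf (.box ⟨773, -2, -76, 6, -5, 251, 270033, 0, 0, 0, 0, 45118031538, 0⟩ ⟨0, 0, 0, 0, 0, 0, 133215, 0, 0, 0, 0, 0, 0⟩ ⟨0, 0, 0, 0, 0, 0, 133215, 0, 0, 0, 0, 0, 0⟩ ⟨0, 0, 0, 0, 0, 0, 88417, 0, 0, 0, 0, 0, 0⟩ ⟨0, 0, 0, 0, 0, 0, 88417, 0, 0, 0, 0, 0, 0⟩ ⟨512, -3, -129, 13, -12, 152, 66166, 0, 0, 0, 0, 17078901402, 0⟩)))))))

/-- A piece of the tree. -/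
noncomputable def tree48 : Tree LeafX :=
  .s0
    (.s0
    (.s1
    (.s2
    (.leaf (.box ⟨518, -2, -1343, 6, -18, 454, 275014, 0, 0, 0, 0, 0, 0⟩ ⟨0, 0, 0, 0, 0, 0, 133448, 0, 0, 0, 0, 0, 0⟩ ⟨0, 0, 0, 0, 0, 0, 133448, 0, 0, 0, 0, 0, 0⟩ ⟨0, 0, 0, 0, 0, 0, 88098, 0, 0, 0, 0, 0, 0⟩ ⟨0, 0, 0, 0, 0, 0, 88098, 0, 0, 0, 0, 0, 0⟩ ⟨143, -2, -512, 7, -20, 123, 65753, 0, 0, 0, 0, 0, 0⟩))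
    (.leaf (.box ⟨318, -2, -964, 6, -7, 260, 258799, 0, 0, 0, 0, 0, 0⟩ ⟨0, 0, 0, 0, 0, 0, 126281, 0, 0, 0, 0, 0, 0⟩ ⟨0, 0, 0, 0, 0, 0, 126281, 0, 0, 0, 0, 0, 0⟩ ⟨0, 0, 0, 0, 0, 0, 83516, 0, 0, 0, 0, 0, 0⟩ ⟨0, 0, 0, 0, 0, 0, 83516, 0, 0, 0, 0, 0, 0⟩ ⟨114, -3, -512, 9, -11, 101, 62388, 0, 0, 0, 0, 0, 0⟩)))
    (.leaf (.box ⟨385, -1, -517, 6, -5, 181, 260500, 0, 0, 0, 0, 0, 0⟩ ⟨0, 0, 0, 0, 0, 0, 125767, 0, 0, 0, 0, 0, 0⟩ ⟨0, 0, 0, 0, 0, 0, 125767, 0, 0, 0, 0, 0, 0⟩ ⟨0, 0, 0, 0, 0, 0, 82893, 0, 0, 0, 0, 0, 0⟩ ⟨0, 0, 0, 0, 0, 0, 82893, 0, 0, 0, 0, 0, 0⟩ ⟨272, -3, -512, 17, -14, 123, 61819, 0, 0, 0, 0, 0, 0⟩)))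
    (.s1
    (.s2
    (.leaf (.box ⟨283, -1, -1012, 6, -15, 340, 286984, 0, 0, 0, 0, 0, 0⟩ ⟨0, 0, 0, 0, 0, 0, 139127, 0, 0, 0, 0, 0, 0⟩ ⟨0, 0, 0, 0, 0, 0, 139127, 0, 0, 0, 0, 0, 0⟩ ⟨0, 0, 0, 0, 0, 0, 91820, 0, 0, 0, 0, 0, 0⟩ ⟨0, 0, 0, 0, 0, 0, 91820, 0, 0, 0, 0, 0, 0⟩ ⟨137, -2, -512, 9, -23, 127, 68521, 0, 0, 0, 0, 0, 0⟩))
    (.leaf (.box ⟨320, -2, -942, 6, -10, 277, 273180, 0, 0, 0, 0, 0, 0⟩ ⟨0, 0, 0, 0, 0, 0, 132878, 0, 0, 0, 0, 0, 0⟩ ⟨0, 0, 0, 0, 0, 0, 132878, 0, 0, 0, 0, 0, 0⟩ ⟨0, 0, 0, 0, 0, 0, 87790, 0, 0, 0, 0, 0, 0⟩ ⟨0, 0, 0, 0, 0, 0, 87790, 0, 0, 0, 0, 0, 0⟩ ⟨162, -3, -512, 10, -15, 112, 65548, 0, 0, 0, 0, 0, 0⟩)))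
    (.s2
    (.leaf (.box ⟨422, -1, -1123, 6, -14, 381, 285814, 0, 0, 0, 0, 0, 0⟩ ⟨0, 0, 0, 0, 0, 0, 137639, 0, 0, 0, 0, 0, 0⟩ ⟨0, 0, 0, 0, 0, 0, 137639, 0, 0, 0, 0, 0, 0⟩ ⟨0, 0, 0, 0, 0, 0, 90646, 0, 0, 0, 0, 0, 0⟩ ⟨0, 0, 0, 0, 0, 0, 90646, 0, 0, 0, 0, 0, 0⟩ ⟨136, -1, -512, 8, -20, 126, 67574, 0, 0, 0, 0, 0, 0⟩))
    (.leaf (.box ⟨310, -1, -952, 6, -6, 257, 271935, 0, 0, 0, 0, 0, 0⟩ ⟨0, 0, 0, 0, 0, 0, 131300, 0, 0, 0, 0, 0, 0⟩ ⟨0, 0, 0, 0, 0, 0, 131300, 0, 0, 0, 0, 0, 0⟩ ⟨0, 0, 0, 0, 0, 0, 86543, 0, 0, 0, 0, 0, 0⟩ ⟨0, 0, 0, 0, 0, 0, 86543, 0, 0, 0, 0, 0, 0⟩ ⟨107, -2, -512, 10, -10, 103, 64542, 0, 0, 0, 0, 0, 0⟩)))))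
    (.s1
    (.s3
    (.leaf (.box ⟨362, -1, -512, 7, -11, 228, 332536, 0, 0, 0, 0, 0, 0⟩ ⟨344, -3, -512, 15, -23, 205, 142002, 0, 0, 0, 0, 0, 0⟩ ⟨344, -3, -512, 15, -23, 205, 142002, 0, 0, 0, 0, 0, 0⟩ ⟨331, -4, -512, 20, -32, 185, 92994, 0, 0, 0, 0, 0, 0⟩ ⟨331, -4, -512, 20, -32, 185, 92994, 0, 0, 0, 0, 0, 0⟩ ⟨321, -4, -512, 23, -37, 169, 72454, 0, 0, 0, 0, 0, 0⟩))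
    (.leaf (.box ⟨467, -1, -878, 6, -11, 333, 485719, 0, 0, 0, 0, 0, 0⟩ ⟨0, 0, 0, 0, 0, 0, 164840, 0, 0, 0, 0, 0, 0⟩ ⟨0, 0, 0, 0, 0, 0, 164840, 0, 0, 0, 0, 0, 0⟩ ⟨0, 0, 0, 0, 0, 0, 99264, 0, 0, 0, 0, 0, 0⟩ ⟨0, 0, 0, 0, 0, 0, 99264, 0, 0, 0, 0, 0, 0⟩ ⟨245, -3, -512, 18, -31, 146, 71013, 0, 0, 0, 0, 0, 0⟩)))
    (.s3
    (.s0
    (.leaf (.box ⟨231, -1, -699, 6, -8, 207, 278122, 0, 0, 0, 0, 0, 0⟩ ⟨0, 0, 0, 0, 0, 0, 137165, 0, 0, 0, 0, 0, 0⟩ ⟨0, 0, 0, 0, 0, 0, 137165, 0, 0, 0, 0, 0, 0⟩ ⟨0, 0, 0, 0, 0, 0, 91030, 0, 0, 0, 0, 0, 0⟩ ⟨0, 0, 0, 0, 0, 0, 91030, 0, 0, 0, 0, 0, 0⟩ ⟨141, -2, -512, 14, -19, 117, 68118, 0, 0, 0, 0, 0, 0⟩))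
    (.leaf (.box ⟨243, -1, -661, 6, -11, 217, 295712, 0, 0, 0, 0, 0, 0⟩ ⟨0, 0, 0, 0, 0, 0, 145856, 0, 0, 0, 0, 0, 0⟩ ⟨0, 0, 0, 0, 0, 0, 145856, 0, 0, 0, 0, 0, 0⟩ ⟨0, 0, 0, 0, 0, 0, 96801, 0, 0, 0, 0, 0, 0⟩ ⟨0, 0, 0, 0, 0, 0, 96801, 0, 0, 0, 0, 0, 0⟩ ⟨183, -2, -512, 14, -26, 132, 72438, 0, 0, 0, 0, 0, 0⟩)))
    (.s3
    (.s0
    (.s2
    (.leaf (.box ⟨290, -1, -2127, 6, -17, 671, 497144, 0, 0, 0, 0, 0, 0⟩ ⟨0, 0, 0, 0, 0, 0, 167693, 0, 0, 0, 0, 0, 0⟩ ⟨0, 0, 0, 0, 0, 0, 167693, 0, 0, 0, 0, 0, 0⟩ ⟨0, 0, 0, 0, 0, 0, 100857, 0, 0, 0, 0, 0, 0⟩ ⟨0, 0, 0, 0, 0, 0, 100857, 0, 0, 0, 0, 0, 0⟩ ⟨76, -1, -512, 8, -21, 123, 72114, 0, 0, 0, 0, 0, 0⟩))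
    (.leaf (.box ⟨308, -1, -1690, 6, -9, 467, 476918, 0, 0, 0, 0, 0, 0⟩ ⟨0, 0, 0, 0, 0, 0, 161376, 0, 0, 0, 0, 0, 0⟩ ⟨0, 0, 0, 0, 0, 0, 161376, 0, 0, 0, 0, 0, 0⟩ ⟨0, 0, 0, 0, 0, 0, 97120, 0, 0, 0, 0, 0, 0⟩ ⟨0, 0, 0, 0, 0, 0, 97120, 0, 0, 0, 0, 0, 0⟩ ⟨94, -1, -512, 9, -14, 108, 69461, 0, 0, 0, 0, 0, 0⟩)))
    (.s2
    (.leaf (.box ⟨430, -1, -1996, 6, -19, 644, 522768, 0, 0, 0, 0, 0, 0⟩ ⟨0, 0, 0, 0, 0, 0, 176633, 0, 0, 0, 0, 0, 0⟩ ⟨0, 0, 0, 0, 0, 0, 176633, 0, 0, 0, 0, 0, 0⟩ ⟨0, 0, 0, 0, 0, 0, 106270, 0, 0, 0, 0, 0, 0⟩ ⟨0, 0, 0, 0, 0, 0, 106270, 0, 0, 0, 0, 0, 0⟩ ⟨112, -1, -512, 8, -26, 129, 75996, 0, 0, 0, 0, 0, 0⟩))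
    (.leaf (.box ⟨411, -1, -1698, 6, -13, 507, 507027, 0, 0, 0, 0, 0, 0⟩ ⟨0, 0, 0, 0, 0, 0, 171603, 0, 0, 0, 0, 0, 0⟩ ⟨0, 0, 0, 0, 0, 0, 171603, 0, 0, 0, 0, 0, 0⟩ ⟨0, 0, 0, 0, 0, 0, 103279, 0, 0, 0, 0, 0, 0⟩ ⟨0, 0, 0, 0, 0, 0, 103279, 0, 0, 0, 0, 0, 0⟩ ⟨120, -1, -512, 9, -20, 119, 73868, 0, 0, 0, 0, 0, 0⟩))))
    (.s0
    (.s1
    (.leaf (.box ⟨411, -1, -2067, 6, -10, 613, 716061, 0, 0, 0, 0, 0, 0⟩ ⟨0, 0, 0, 0, 0, 0, 177151, 0, 0, 0, 0, 0, 0⟩ ⟨0, 0, 0, 0, 0, 0, 177151, 0, 0, 0, 0, 0, 0⟩ ⟨0, 0, 0, 0, 0, 0, 101079, 0, 0, 0, 0, 0, 0⟩ ⟨0, 0, 0, 0, 0, 0, 101079, 0, 0, 0, 0, 0, 0⟩ ⟨99, -2, -512, 11, -19, 116, 70713, 0, 0, 0, 0, 0, 0⟩))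
    (.leaf (.box ⟨527, -1, -2357, 6, -10, 676, 716959, 0, 0, 0, 0, 0, 0⟩ ⟨0, 0, 0, 0, 0, 0, 175155, 0, 0, 0, 0, 0, 0⟩ ⟨0, 0, 0, 0, 0, 0, 175155, 0, 0, 0, 0, 0, 0⟩ ⟨0, 0, 0, 0, 0, 0, 99764, 0, 0, 0, 0, 0, 0⟩ ⟨0, 0, 0, 0, 0, 0, 99764, 0, 0, 0, 0, 0, 0⟩ ⟨95, -1, -512, 10, -16, 111, 69744, 0, 0, 0, 0, 0, 0⟩)))
    (.s2
    (.leaf (.box ⟨587, -1, -3289, 6, -20, 1023, 786551, 0, 0, 0, 0, 0, 0⟩ ⟨0, 0, 0, 0, 0, 0, 191701, 0, 0, 0, 0, 0, 0⟩ ⟨0, 0, 0, 0, 0, 0, 191701, 0, 0, 0, 0, 0, 0⟩ ⟨0, 0, 0, 0, 0, 0, 109152, 0, 0, 0, 0, 0, 0⟩ ⟨0, 0, 0, 0, 0, 0, 109152, 0, 0, 0, 0, 0, 0⟩ ⟨95, -1, -512, 8, -24, 125, 76297, 0, 0, 0, 0, 0, 0⟩))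
    (.leaf (.box ⟨469, -1, -2240, 6, -11, 648, 762120, 0, 0, 0, 0, 0, 0⟩ ⟨0, 0, 0, 0, 0, 0, 186259, 0, 0, 0, 0, 0, 0⟩ ⟨0, 0, 0, 0, 0, 0, 186259, 0, 0, 0, 0, 0, 0⟩ ⟨0, 0, 0, 0, 0, 0, 106094, 0, 0, 0, 0, 0, 0⟩ ⟨0, 0, 0, 0, 0, 0, 106094, 0, 0, 0, 0, 0, 0⟩ ⟨102, -1, -512, 8, -19, 116, 74171, 0, 0, 0, 0, 0, 0⟩)))))))

/-- A piece of the tree. -/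
noncomputable def tree49 : Tree LeafX :=
  .s0
    (.s2
    (.s1
    (.s2
    (.leaf (.box ⟨331, -2, -814, 6, -4, 200, 251171, 0, 0, 0, 0, 0, 0⟩ ⟨0, 0, 0, 0, 0, 0, 123030, 0, 0, 0, 0, 0, 0⟩ ⟨0, 0, 0, 0, 0, 0, 123030, 0, 0, 0, 0, 0, 0⟩ ⟨0, 0, 0, 0, 0, 0, 81467, 0, 0, 0, 0, 0, 0⟩ ⟨0, 0, 0, 0, 0, 0, 81467, 0, 0, 0, 0, 0, 0⟩ ⟨190, -3, -512, 11, -7, 96, 60895, 0, 0, 0, 0, 0, 0⟩))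
    (.leaf (.box ⟨379, -2, -832, 6, -2, 185, 244474, 0, 0, 0, 0, 0, 0⟩ ⟨0, 0, 0, 0, 0, 0, 120077, 0, 0, 0, 0, 0, 0⟩ ⟨0, 0, 0, 0, 0, 0, 120077, 0, 0, 0, 0, 0, 0⟩ ⟨0, 0, 0, 0, 0, 0, 79582, 0, 0, 0, 0, 0, 0⟩ ⟨0, 0, 0, 0, 0, 0, 79582, 0, 0, 0, 0, 0, 0⟩ ⟨213, -4, -512, 13, -3, 90, 59512, 0, 0, 0, 0, 0, 0⟩)))
    (.leaf (.box ⟨298, -1, -740, 6, 0, 156, 247413, 0, 0, 0, 0, 0, 0⟩ ⟨0, 0, 0, 0, 0, 0, 120000, 0, 0, 0, 0, 0, 0⟩ ⟨0, 0, 0, 0, 0, 0, 120000, 0, 0, 0, 0, 0, 0⟩ ⟨0, 0, 0, 0, 0, 0, 79209, 0, 0, 0, 0, 0, 0⟩ ⟨0, 0, 0, 0, 0, 0, 79209, 0, 0, 0, 0, 0, 0⟩ ⟨154, -3, -512, 15, 0, 85, 59114, 0, 0, 0, 0, 0, 0⟩)))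
    (.leaf (.box ⟨289, -2, -512, 6, 2, 90, 234659, 0, 0, 0, 0, 0, 0⟩ ⟨0, 0, 0, 0, 0, 0, 115153, 0, 0, 0, 0, 0, 0⟩ ⟨0, 0, 0, 0, 0, 0, 115153, 0, 0, 0, 0, 0, 0⟩ ⟨0, 0, 0, 0, 0, 0, 76297, 0, 0, 0, 0, 0, 0⟩ ⟨0, 0, 0, 0, 0, 0, 76297, 0, 0, 0, 0, 0, 0⟩ ⟨257, -6, -512, 23, 6, 76, 57047, 0, 0, 0, 0, 0, 0⟩)))
    (.s1
    (.s2
    (.leaf (.box ⟨418, -1, -512, 7, -8, 194, 280357, 0, 0, 0, 0, 0, 0⟩ ⟨0, 0, 0, 0, 0, 0, 136779, 0, 0, 0, 0, 0, 0⟩ ⟨0, 0, 0, 0, 0, 0, 136779, 0, 0, 0, 0, 0, 0⟩ ⟨0, 0, 0, 0, 0, 0, 90455, 0, 0, 0, 0, 0, 0⟩ ⟨0, 0, 0, 0, 0, 0, 90455, 0, 0, 0, 0, 0, 0⟩ ⟨364, -4, -512, 19, -23, 148, 67570, 0, 0, 0, 0, 0, 0⟩))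
    (.s2
    (.leaf (.box ⟨433, -1, -512, 6, -5, 185, 276587, 0, 0, 0, 0, 0, 0⟩ ⟨0, 0, 0, 0, 0, 0, 135185, 0, 0, 0, 0, 0, 0⟩ ⟨0, 0, 0, 0, 0, 0, 135185, 0, 0, 0, 0, 0, 0⟩ ⟨0, 0, 0, 0, 0, 0, 89453, 0, 0, 0, 0, 0, 0⟩ ⟨0, 0, 0, 0, 0, 0, 89453, 0, 0, 0, 0, 0, 0⟩ ⟨379, -4, -512, 18, -16, 146, 66841, 0, 0, 0, 0, 0, 0⟩))
    (.s0
    (.leaf (.box ⟨451, -2, -731, 6, -2, 211, 314850, 0, 0, 0, 0, 0, 0⟩ ⟨295, -2, -512, 8, -4, 138, 134875, 0, 0, 0, 0, 0, 0⟩ ⟨295, -2, -512, 8, -4, 138, 134875, 0, 0, 0, 0, 0, 0⟩ ⟨287, -3, -512, 12, -5, 129, 88550, 0, 0, 0, 0, 0, 0⟩ ⟨287, -3, -512, 12, -5, 129, 88550, 0, 0, 0, 0, 0, 0⟩ ⟨281, -3, -512, 13, -6, 121, 68441, 0, 0, 0, 0, 0, 0⟩))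
    (.leaf (.box ⟨560, -1, -689, 6, -8, 287, 299608, 0, 0, 0, 0, 26345305638, 0⟩ ⟨0, 0, 0, 0, 0, 0, 146620, 0, 0, 0, 0, 0, 0⟩ ⟨0, 0, 0, 0, 0, 0, 146620, 0, 0, 0, 0, 0, 0⟩ ⟨0, 0, 0, 0, 0, 0, 97059, 0, 0, 0, 0, 0, 0⟩ ⟨0, 0, 0, 0, 0, 0, 97059, 0, 0, 0, 0, 0, 0⟩ ⟨376, -3, -512, 14, -18, 171, 72539, 0, 0, 0, 0, 9063359807, 0⟩)))))
    (.leaf (.box ⟨309, -1, -512, 7, -2, 124, 271081, 0, 0, 0, 0, 0, 0⟩ ⟨0, 0, 0, 0, 0, 0, 131297, 0, 0, 0, 0, 0, 0⟩ ⟨0, 0, 0, 0, 0, 0, 131297, 0, 0, 0, 0, 0, 0⟩ ⟨0, 0, 0, 0, 0, 0, 86627, 0, 0, 0, 0, 0, 0⟩ ⟨0, 0, 0, 0, 0, 0, 86627, 0, 0, 0, 0, 0, 0⟩ ⟨241, -4, -512, 25, -8, 102, 64636, 0, 0, 0, 0, 0, 0⟩)))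

/-- A piece of the tree. -/
noncomputable def tree50 : Tree LeafX :=
  .s0
    (.s0
    (.leaf (.box ⟨512, 0, 185, 7, 0, 37, 163540, 0, 0, 0, 0, 0, 0⟩ ⟨0, 0, 0, 0, 0, 0, 77810, 0, 0, 0, 0, 0, 0⟩ ⟨0, 0, 0, 0, 0, 0, 77810, 0, 0, 0, 0, 0, 0⟩ ⟨0, 0, 0, 0, 0, 0, 51049, 0, 0, 0, 0, 0, 0⟩ ⟨0, 0, 0, 0, 0, 0, 51049, 0, 0, 0, 0, 0, 0⟩ ⟨512, 0, 116, 32, -1, 38, 37985, 0, 0, 0, 0, 0, 0⟩))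
    (.leaf (.box ⟨512, -1, -11, 8, 1, 58, 210347, 0, 0, 0, 0, 0, 0⟩ ⟨0, 0, 0, 0, 0, 0, 101844, 0, 0, 0, 0, 0, 0⟩ ⟨0, 0, 0, 0, 0, 0, 101844, 0, 0, 0, 0, 0, 0⟩ ⟨0, 0, 0, 0, 0, 0, 67187, 0, 0, 0, 0, 0, 0⟩ ⟨0, 0, 0, 0, 0, 0, 67187, 0, 0, 0, 0, 0, 0⟩ ⟨512, -3, -94, 36, 3, 62, 50128, 0, 0, 0, 0, 0, 0⟩)))
    (.s1
    (.s0
    (.s2
    (.leaf (.box ⟨536, 0, -330, 6, -3, 161, 260554, 0, 0, 0, 0, 0, 0⟩ ⟨0, 0, 0, 0, 0, 0, 124601, 0, 0, 0, 0, 0, 0⟩ ⟨0, 0, 0, 0, 0, 0, 124601, 0, 0, 0, 0, 0, 0⟩ ⟨0, 0, 0, 0, 0, 0, 81878, 0, 0, 0, 0, 0, 0⟩ ⟨0, 0, 0, 0, 0, 0, 81878, 0, 0, 0, 0, 0, 0⟩ ⟨512, 0, -496, 22, -13, 144, 60972, 0, 0, 0, 0, 0, 0⟩))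
    (.leaf (.box ⟨470, -1, -512, 8, 4, 96, 237920, 0, 0, 0, 0, 0, 0⟩ ⟨0, 0, 0, 0, 0, 0, 114731, 0, 0, 0, 0, 0, 0⟩ ⟨0, 0, 0, 0, 0, 0, 114731, 0, 0, 0, 0, 0, 0⟩ ⟨0, 0, 0, 0, 0, 0, 75591, 0, 0, 0, 0, 0, 0⟩ ⟨0, 0, 0, 0, 0, 0, 75591, 0, 0, 0, 0, 0, 0⟩ ⟨346, -2, -512, 27, 13, 79, 56363, 0, 0, 0, 0, 0, 0⟩)))
    (.s2
    (.s0
    (.s2
    (.leaf (.box ⟨505, 0, -931, 6, -10, 306, 292037, 0, 0, 0, 0, 0, 0⟩ ⟨0, 0, 0, 0, 0, 0, 139542, 0, 0, 0, 0, 0, 0⟩ ⟨0, 0, 0, 0, 0, 0, 139542, 0, 0, 0, 0, 0, 0⟩ ⟨0, 0, 0, 0, 0, 0, 91673, 0, 0, 0, 0, 0, 0⟩ ⟨0, 0, 0, 0, 0, 0, 91673, 0, 0, 0, 0, 0, 0⟩ ⟨173, 0, -512, 9, -17, 121, 68257, 0, 0, 0, 0, 0, 0⟩))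
    (.leaf (.box ⟨366, 0, -816, 6, -4, 214, 279977, 0, 0, 0, 0, 0, 0⟩ ⟨0, 0, 0, 0, 0, 0, 133712, 0, 0, 0, 0, 0, 0⟩ ⟨0, 0, 0, 0, 0, 0, 133712, 0, 0, 0, 0, 0, 0⟩ ⟨0, 0, 0, 0, 0, 0, 87829, 0, 0, 0, 0, 0, 0⟩ ⟨0, 0, 0, 0, 0, 0, 87829, 0, 0, 0, 0, 0, 0⟩ ⟨138, 0, -512, 10, -8, 100, 65390, 0, 0, 0, 0, 0, 0⟩)))
    (.s1
    (.s2
    (.leaf (.box ⟨221, -1, -1273, 6, -15, 359, 307414, 0, 0, 0, 0, 0, 0⟩ ⟨0, 0, 0, 0, 0, 0, 147579, 0, 0, 0, 0, 0, 0⟩ ⟨0, 0, 0, 0, 0, 0, 147579, 0, 0, 0, 0, 0, 0⟩ ⟨0, 0, 0, 0, 0, 0, 97096, 0, 0, 0, 0, 0, 0⟩ ⟨0, 0, 0, 0, 0, 0, 97096, 0, 0, 0, 0, 0, 0⟩ ⟨99, -1, -512, 8, -19, 113, 72347, 0, 0, 0, 0, 0, 0⟩))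
    (.leaf (.box ⟨225, 0, -1138, 6, -9, 287, 298103, 0, 0, 0, 0, 0, 0⟩ ⟨0, 0, 0, 0, 0, 0, 142987, 0, 0, 0, 0, 0, 0⟩ ⟨0, 0, 0, 0, 0, 0, 142987, 0, 0, 0, 0, 0, 0⟩ ⟨0, 0, 0, 0, 0, 0, 94050, 0, 0, 0, 0, 0, 0⟩ ⟨0, 0, 0, 0, 0, 0, 94050, 0, 0, 0, 0, 0, 0⟩ ⟨103, -1, -512, 9, -13, 102, 70068, 0, 0, 0, 0, 0, 0⟩)))
    (.leaf (.box ⟨289, 0, -888, 6, -7, 222, 293347, 0, 0, 0, 0, 0, 0⟩ ⟨0, 0, 0, 0, 0, 0, 140119, 0, 0, 0, 0, 0, 0⟩ ⟨0, 0, 0, 0, 0, 0, 140119, 0, 0, 0, 0, 0, 0⟩ ⟨0, 0, 0, 0, 0, 0, 92042, 0, 0, 0, 0, 0, 0⟩ ⟨0, 0, 0, 0, 0, 0, 92042, 0, 0, 0, 0, 0, 0⟩ ⟨117, 0, -512, 10, -12, 99, 68528, 0, 0, 0, 0, 0, 0⟩))))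
    (.s2
    (.leaf (.box ⟨200, 0, -665, 6, -1, 140, 271321, 0, 0, 0, 0, 0, 0⟩ ⟨0, 0, 0, 0, 0, 0, 129304, 0, 0, 0, 0, 0, 0⟩ ⟨0, 0, 0, 0, 0, 0, 129304, 0, 0, 0, 0, 0, 0⟩ ⟨0, 0, 0, 0, 0, 0, 84877, 0, 0, 0, 0, 0, 0⟩ ⟨0, 0, 0, 0, 0, 0, 84877, 0, 0, 0, 0, 0, 0⟩ ⟨143, 0, -512, 16, -2, 87, 63172, 0, 0, 0, 0, 0, 0⟩))
    (.leaf (.box ⟨239, 0, -601, 6, 2, 107, 266080, 0, 0, 0, 0, 0, 0⟩ ⟨0, 0, 0, 0, 0, 0, 126322, 0, 0, 0, 0, 0, 0⟩ ⟨0, 0, 0, 0, 0, 0, 126322, 0, 0, 0, 0, 0, 0⟩ ⟨0, 0, 0, 0, 0, 0, 82820, 0, 0, 0, 0, 0, 0⟩ ⟨0, 0, 0, 0, 0, 0, 82820, 0, 0, 0, 0, 0, 0⟩ ⟨169, 0, -512, 20, 5, 79, 61605, 0, 0, 0, 0, 0, 0⟩)))))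
    (.leaf (.box ⟨512, 0, -274, 9, 0, 73, 238684, 0, 0, 0, 0, 0, 0⟩ ⟨0, 0, 0, 0, 0, 0, 115037, 0, 0, 0, 0, 0, 0⟩ ⟨0, 0, 0, 0, 0, 0, 115037, 0, 0, 0, 0, 0, 0⟩ ⟨0, 0, 0, 0, 0, 0, 75780, 0, 0, 0, 0, 0, 0⟩ ⟨0, 0, 0, 0, 0, 0, 75780, 0, 0, 0, 0, 0, 0⟩ ⟨512, -1, -386, 38, 1, 75, 56499, 0, 0, 0, 0, 0, 0⟩)))

/-- A piece of the tree. -/
noncomputable def tree51 : Tree LeafX :=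
  .s1
    (.leaf (.box ⟨512, 8, 183, 60, -4, 156, 348958, 0, 0, 0, 0, 0, 0⟩ ⟨0, 0, 0, 0, 0, 0, 169902, 0, 0, 0, 0, 0, 0⟩ ⟨0, 0, 0, 0, 0, 0, 169902, 0, 0, 0, 0, 0, 0⟩ ⟨0, 0, 0, 0, 0, 0, 112286, 0, 0, 0, 0, 0, 0⟩ ⟨0, 0, 0, 0, 0, 0, 112286, 0, 0, 0, 0, 0, 0⟩ ⟨512, 28, 180, 177, -11, 107, 83851, 0, 0, 0, 0, 0, 0⟩))
    (.s0
    (.s1
    (.leaf (.box ⟨512, 0, -264, 15, -20, 256, 337875, 0, 0, 0, 0, 0, 0⟩ ⟨0, 0, 0, 0, 0, 0, 164157, 0, 0, 0, 0, 0, 0⟩ ⟨0, 0, 0, 0, 0, 0, 164157, 0, 0, 0, 0, 0, 0⟩ ⟨0, 0, 0, 0, 0, 0, 108415, 0, 0, 0, 0, 0, 0⟩ ⟨0, 0, 0, 0, 0, 0, 108415, 0, 0, 0, 0, 0, 0⟩ ⟨512, -2, -262, 51, -63, 199, 80933, 0, 0, 0, 0, 0, 0⟩))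
    (.s0
    (.s3
    (.leaf (.box ⟨293, -1, -512, 8, -14, 213, 318411, 0, 0, 0, 0, 0, 0⟩ ⟨0, 0, 0, 0, 0, 0, 157090, 0, 0, 0, 0, 0, 0⟩ ⟨0, 0, 0, 0, 0, 0, 157090, 0, 0, 0, 0, 0, 0⟩ ⟨0, 0, 0, 0, 0, 0, 104265, 0, 0, 0, 0, 0, 0⟩ ⟨0, 0, 0, 0, 0, 0, 104265, 0, 0, 0, 0, 0, 0⟩ ⟨284, -2, -512, 24, -44, 170, 78026, 0, 0, 0, 0, 0, 0⟩))
    (.s0
    (.leaf (.box ⟨449, -1, -1325, 6, -14, 442, 552340, 0, 0, 0, 0, 0, 0⟩ ⟨0, 0, 0, 0, 0, 0, 184830, 0, 0, 0, 0, 0, 0⟩ ⟨0, 0, 0, 0, 0, 0, 184830, 0, 0, 0, 0, 0, 0⟩ ⟨0, 0, 0, 0, 0, 0, 110985, 0, 0, 0, 0, 0, 0⟩ ⟨0, 0, 0, 0, 0, 0, 110985, 0, 0, 0, 0, 0, 0⟩ ⟨164, -1, -512, 12, -29, 136, 79301, 0, 0, 0, 0, 0, 0⟩))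
    (.leaf (.box ⟨563, 0, -1442, 6, -19, 542, 602411, 0, 0, 0, 0, 0, 0⟩ ⟨0, 0, 0, 0, 0, 0, 201713, 0, 0, 0, 0, 0, 0⟩ ⟨0, 0, 0, 0, 0, 0, 201713, 0, 0, 0, 0, 0, 0⟩ ⟨0, 0, 0, 0, 0, 0, 121137, 0, 0, 0, 0, 0, 0⟩ ⟨0, 0, 0, 0, 0, 0, 121137, 0, 0, 0, 0, 0, 0⟩ ⟨202, -1, -512, 14, -38, 156, 86560, 0, 0, 0, 0, 0, 0⟩))))
    (.leaf (.box ⟨377, 0, -512, 9, -19, 263, 393776, 0, 0, 0, 0, 0, 0⟩ ⟨0, 0, 0, 0, 0, 0, 189955, 0, 0, 0, 0, 0, 0⟩ ⟨0, 0, 0, 0, 0, 0, 189955, 0, 0, 0, 0, 0, 0⟩ ⟨0, 0, 0, 0, 0, 0, 125168, 0, 0, 0, 0, 0, 0⟩ ⟨0, 0, 0, 0, 0, 0, 125168, 0, 0, 0, 0, 0, 0⟩ ⟨374, -1, -512, 32, -66, 220, 93334, 0, 0, 0, 0, 0, 0⟩))))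
    (.leaf (.box ⟨512, 1, -173, 22, -16, 239, 491300, 0, 0, 0, 0, 0, 0⟩ ⟨0, 0, 0, 0, 0, 0, 233841, 0, 0, 0, 0, 0, 0⟩ ⟨0, 0, 0, 0, 0, 0, 233841, 0, 0, 0, 0, 0, 0⟩ ⟨0, 0, 0, 0, 0, 0, 153436, 0, 0, 0, 0, 0, 0⟩ ⟨0, 0, 0, 0, 0, 0, 153436, 0, 0, 0, 0, 0, 0⟩ ⟨512, 6, -125, 79, -56, 194, 114176, 0, 0, 0, 0, 0, 0⟩)))

/-- A piece of the tree. -/
noncomputable def tree52 : Tree LeafX :=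
  .s2
    (.s1
    (.leaf (.box ⟨512, -3, 245, 68, 6, 145, 342488, 0, 0, 0, 0, 0, 0⟩ ⟨0, 0, 0, 0, 0, 0, 167974, 0, 0, 0, 0, 0, 0⟩ ⟨0, 0, 0, 0, 0, 0, 167974, 0, 0, 0, 0, 0, 0⟩ ⟨0, 0, 0, 0, 0, 0, 111274, 0, 0, 0, 0, 0, 0⟩ ⟨0, 0, 0, 0, 0, 0, 111274, 0, 0, 0, 0, 0, 0⟩ ⟨512, -9, 238, 192, 17, 100, 83192, 0, 0, 0, 0, 0, 0⟩))
    (.s0
    (.leaf (.box ⟨512, -1, -351, 9, -12, 203, 324458, 0, 0, 0, 0, 0, 0⟩ ⟨0, 0, 0, 0, 0, 0, 156786, 0, 0, 0, 0, 0, 0⟩ ⟨0, 0, 0, 0, 0, 0, 156786, 0, 0, 0, 0, 0, 0⟩ ⟨0, 0, 0, 0, 0, 0, 103368, 0, 0, 0, 0, 0, 0⟩ ⟨0, 0, 0, 0, 0, 0, 103368, 0, 0, 0, 0, 0, 0⟩ ⟨512, -3, -341, 28, -42, 166, 77099, 0, 0, 0, 0, 0, 0⟩))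
    (.leaf (.box ⟨512, -2, -310, 31, -10, 271, 496051, 0, 0, 0, 0, 0, 0⟩ ⟨0, 0, 0, 0, 0, 0, 239538, 0, 0, 0, 0, 0, 0⟩ ⟨0, 0, 0, 0, 0, 0, 239538, 0, 0, 0, 0, 0, 0⟩ ⟨0, 0, 0, 0, 0, 0, 157891, 0, 0, 0, 0, 0, 0⟩ ⟨0, 0, 0, 0, 0, 0, 157891, 0, 0, 0, 0, 0, 0⟩ ⟨512, -6, -190, 101, -35, 213, 117754, 0, 0, 0, 0, 0, 0⟩))))
    (.s2
    (.s1
    (.s0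
    (.leaf (.box ⟨512, -4, 275, 23, 1, 130, 340197, 0, 0, 0, 0, 0, 0⟩ ⟨0, 0, 0, 0, 0, 0, 167473, 0, 0, 0, 0, 0, 0⟩ ⟨0, 0, 0, 0, 0, 0, 167473, 0, 0, 0, 0, 0, 0⟩ ⟨0, 0, 0, 0, 0, 0, 111077, 0, 0, 0, 0, 0, 0⟩ ⟨0, 0, 0, 0, 0, 0, 111077, 0, 0, 0, 0, 0, 0⟩ ⟨512, -14, 258, 80, 2, 114, 83095, 0, 0, 0, 0, 0, 0⟩))
    (.leaf (.box ⟨512, -7, 342, 44, 15, 163, 553817, 0, 0, 0, 0, 28324812310, 0⟩ ⟨0, 0, 0, 0, 0, 0, 271897, 0, 0, 0, 0, 0, 0⟩ ⟨0, 0, 0, 0, 0, 0, 271897, 0, 0, 0, 0, 0, 0⟩ ⟨0, 0, 0, 0, 0, 0, 180178, 0, 0, 0, 0, 0, 0⟩ ⟨0, 0, 0, 0, 0, 0, 180178, 0, 0, 0, 0, 0, 0⟩ ⟨512, -20, 384, 132, 43, 121, 134729, 0, 0, 0, 0, 0, 0⟩)))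
    (.s0
    (.leaf (.box ⟨512, -1, -349, 8, -10, 194, 324184, 0, 0, 0, 0, 0, 0⟩ ⟨0, 0, 0, 0, 0, 0, 156666, 0, 0, 0, 0, 0, 0⟩ ⟨0, 0, 0, 0, 0, 0, 156666, 0, 0, 0, 0, 0, 0⟩ ⟨0, 0, 0, 0, 0, 0, 103291, 0, 0, 0, 0, 0, 0⟩ ⟨0, 0, 0, 0, 0, 0, 103291, 0, 0, 0, 0, 0, 0⟩ ⟨512, -4, -316, 27, -33, 154, 77043, 0, 0, 0, 0, 0, 0⟩))
    (.s0
    (.leaf (.box ⟨512, -2, -378, 17, -9, 277, 507257, 0, 0, 0, 0, 32089670634, 0⟩ ⟨0, 0, 0, 0, 0, 0, 246330, 0, 0, 0, 0, 0, 0⟩ ⟨0, 0, 0, 0, 0, 0, 246330, 0, 0, 0, 0, 0, 0⟩ ⟨0, 0, 0, 0, 0, 0, 162660, 0, 0, 0, 0, 0, 0⟩ ⟨0, 0, 0, 0, 0, 0, 162660, 0, 0, 0, 0, 0, 0⟩ ⟨512, -8, -285, 60, -35, 241, 121418, 0, 0, 0, 0, 25287294181, 0⟩))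
    (.leaf (.box ⟨512, -3, -401, 26, -2, 291, 654032, 0, 0, 0, 0, 77824975115, 0⟩ ⟨0, 0, 0, 0, 0, 0, 318212, 0, 0, 0, 0, 0, 0⟩ ⟨0, 0, 0, 0, 0, 0, 318212, 0, 0, 0, 0, 0, 0⟩ ⟨0, 0, 0, 0, 0, 0, 210254, 0, 0, 0, 0, 0, 0⟩ ⟨0, 0, 0, 0, 0, 0, 210254, 0, 0, 0, 0, 0, 0⟩ ⟨512, -10, -192, 80, -7, 222, 156992, 0, 0, 0, 0, 50138457556, 0⟩)))))
    (.s0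
    (.s2
    (.s0
    (.s1
    (.leaf (.box ⟨512, -3, 277, 12, 0, 120, 340893, 0, 0, 0, 0, 0, 0⟩ ⟨0, 0, 0, 0, 0, 0, 167387, 0, 0, 0, 0, 0, 0⟩ ⟨0, 0, 0, 0, 0, 0, 167387, 0, 0, 0, 0, 0, 0⟩ ⟨0, 0, 0, 0, 0, 0, 110928, 0, 0, 0, 0, 0, 0⟩ ⟨0, 0, 0, 0, 0, 0, 110928, 0, 0, 0, 0, 0, 0⟩ ⟨512, -10, 265, 48, 0, 121, 82949, 0, 0, 0, 0, 0, 0⟩))
    (.leaf (.box ⟨512, -1, -422, 7, -8, 193, 324212, 0, 0, 0, 0, 0, 0⟩ ⟨0, 0, 0, 0, 0, 0, 156685, 0, 0, 0, 0, 0, 0⟩ ⟨0, 0, 0, 0, 0, 0, 156685, 0, 0, 0, 0, 0, 0⟩ ⟨0, 0, 0, 0, 0, 0, 103305, 0, 0, 0, 0, 0, 0⟩ ⟨0, 0, 0, 0, 0, 0, 103305, 0, 0, 0, 0, 0, 0⟩ ⟨512, -3, -457, 22, -28, 175, 77054, 0, 0, 0, 0, 0, 0⟩)))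
    (.s2
    (.s1
    (.leaf (.box ⟨512, -4, 341, 18, 3, 141, 431118, 0, 0, 0, 0, 0, 0⟩ ⟨0, 0, 0, 0, 0, 0, 212908, 0, 0, 0, 0, 0, 0⟩ ⟨0, 0, 0, 0, 0, 0, 212908, 0, 0, 0, 0, 0, 0⟩ ⟨0, 0, 0, 0, 0, 0, 141359, 0, 0, 0, 0, 0, 0⟩ ⟨0, 0, 0, 0, 0, 0, 141359, 0, 0, 0, 0, 0, 0⟩ ⟨512, -15, 401, 72, 13, 146, 105803, 0, 0, 0, 0, 0, 0⟩))
    (.leaf (.box ⟨512, -1, -375, 10, -10, 238, 402615, 0, 0, 0, 0, 0, 0⟩ ⟨0, 0, 0, 0, 0, 0, 195104, 0, 0, 0, 0, 0, 0⟩ ⟨0, 0, 0, 0, 0, 0, 195104, 0, 0, 0, 0, 0, 0⟩ ⟨0, 0, 0, 0, 0, 0, 128746, 0, 0, 0, 0, 0, 0⟩ ⟨0, 0, 0, 0, 0, 0, 128746, 0, 0, 0, 0, 0, 0⟩ ⟨512, -4, -352, 30, -38, 210, 96071, 0, 0, 0, 0, 0, 0⟩)))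
    (.leaf (.box ⟨512, -3, 50, 18, -1, 90, 403725, 0, 0, 0, 0, 8283787212, 0⟩ ⟨0, 0, 0, 0, 0, 0, 195679, 0, 0, 0, 0, 0, 0⟩ ⟨0, 0, 0, 0, 0, 0, 195679, 0, 0, 0, 0, 0, 0⟩ ⟨0, 0, 0, 0, 0, 0, 129134, 0, 0, 0, 0, 0, 0⟩ ⟨0, 0, 0, 0, 0, 0, 129134, 0, 0, 0, 0, 0, 0⟩ ⟨512, -12, 62, 67, -2, 90, 96363, 0, 0, 0, 0, 9864183989, 0⟩))))
    (.s1
    (.leaf (.box ⟨512, -6, 292, 23, 2, 112, 337737, 0, 0, 0, 0, 20837720023, 0⟩ ⟨0, 0, 0, 0, 0, 0, 166396, 0, 0, 0, 0, 0, 0⟩ ⟨0, 0, 0, 0, 0, 0, 166396, 0, 0, 0, 0, 0, 0⟩ ⟨0, 0, 0, 0, 0, 0, 110392, 0, 0, 0, 0, 0, 0⟩ ⟨0, 0, 0, 0, 0, 0, 110392, 0, 0, 0, 0, 0, 0⟩ ⟨512, -20, 298, 84, 9, 108, 82593, 0, 0, 0, 0, 18868425379, 0⟩))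
    (.leaf (.box ⟨512, -2, -338, 10, -8, 184, 324404, 0, 0, 0, 0, 53870959035, 0⟩ ⟨0, 0, 0, 0, 0, 0, 156784, 0, 0, 0, 0, 0, 0⟩ ⟨0, 0, 0, 0, 0, 0, 156784, 0, 0, 0, 0, 0, 0⟩ ⟨0, 0, 0, 0, 0, 0, 103372, 0, 0, 0, 0, 0, 0⟩ ⟨0, 0, 0, 0, 0, 0, 103372, 0, 0, 0, 0, 0, 0⟩ ⟨512, -5, -309, 30, -27, 153, 77104, 134239430, 0, 0, 0, 40031581862, 0⟩))))
    (.s1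
    (.leaf (.box ⟨512, -11, 334, 42, 15, 139, 553631, 0, 0, 0, 0, 60993064945, 0⟩ ⟨0, 0, 0, 0, 0, 0, 274230, 0, 0, 0, 0, 0, 0⟩ ⟨0, 0, 0, 0, 0, 0, 274230, 0, 0, 0, 0, 0, 0⟩ ⟨0, 0, 0, 0, 0, 0, 182252, 0, 0, 0, 0, 0, 0⟩ ⟨0, 0, 0, 0, 0, 0, 182252, 0, 0, 0, 0, 0, 0⟩ ⟨512, -29, 357, 123, 43, 102, 136477, 0, 0, 0, 0, 31386959374, 0⟩))
    (.leaf (.box ⟨512, -6, -384, 38, -2, 251, 515052, 0, 0, 0, 0, 163095661129, 0⟩ ⟨0, 0, 0, 0, 0, 0, 250760, 0, 0, 0, 0, 0, 0⟩ ⟨0, 0, 0, 0, 0, 0, 250760, 0, 0, 0, 0, 0, 0⟩ ⟨0, 0, 0, 0, 0, 0, 165722, 0, 0, 0, 0, 0, 0⟩ ⟨0, 0, 0, 0, 0, 0, 165722, 0, 0, 0, 0, 0, 0⟩ ⟨512, -19, -200, 116, -9, 189, 123754, 0, 0, 0, 0, 131022125470, 0⟩)))))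

/-- A piece of the tree. -/
noncomputable def tree53 : Tree LeafX :=
  .s1
    (.s0
    (.s2
    (.s0
    (.s1
    (.leaf (.box ⟨265, -1, -1011, 6, -14, 287, 322737, 0, 0, 0, 0, 0, 0⟩ ⟨0, 0, 0, 0, 0, 0, 155377, 0, 0, 0, 0, 0, 0⟩ ⟨0, 0, 0, 0, 0, 0, 155377, 0, 0, 0, 0, 0, 0⟩ ⟨0, 0, 0, 0, 0, 0, 102318, 0, 0, 0, 0, 0, 0⟩ ⟨0, 0, 0, 0, 0, 0, 102318, 0, 0, 0, 0, 0, 0⟩ ⟨134, -1, -512, 10, -23, 118, 76272, 0, 0, 0, 0, 0, 0⟩))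
    (.leaf (.box ⟨240, 0, -1211, 6, -13, 312, 318424, 0, 0, 0, 0, 0, 0⟩ ⟨0, 0, 0, 0, 0, 0, 152846, 0, 0, 0, 0, 0, 0⟩ ⟨0, 0, 0, 0, 0, 0, 152846, 0, 0, 0, 0, 0, 0⟩ ⟨0, 0, 0, 0, 0, 0, 100557, 0, 0, 0, 0, 0, 0⟩ ⟨0, 0, 0, 0, 0, 0, 100557, 0, 0, 0, 0, 0, 0⟩ ⟨109, -1, -512, 9, -19, 107, 74925, 0, 0, 0, 0, 0, 0⟩)))
    (.s3
    (.leaf (.box ⟨290, 0, -871, 6, -15, 262, 335247, 0, 0, 0, 0, 0, 0⟩ ⟨0, 0, 0, 0, 0, 0, 164585, 0, 0, 0, 0, 0, 0⟩ ⟨0, 0, 0, 0, 0, 0, 164585, 0, 0, 0, 0, 0, 0⟩ ⟨0, 0, 0, 0, 0, 0, 109064, 0, 0, 0, 0, 0, 0⟩ ⟨0, 0, 0, 0, 0, 0, 109064, 0, 0, 0, 0, 0, 0⟩ ⟨166, -1, -512, 12, -29, 128, 81553, 0, 0, 0, 0, 0, 0⟩))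
    (.leaf (.box ⟨530, 0, -1987, 6, -17, 550, 584422, 0, 0, 0, 0, 0, 0⟩ ⟨0, 0, 0, 0, 0, 0, 193461, 0, 0, 0, 0, 0, 0⟩ ⟨0, 0, 0, 0, 0, 0, 193461, 0, 0, 0, 0, 0, 0⟩ ⟨0, 0, 0, 0, 0, 0, 115916, 0, 0, 0, 0, 0, 0⟩ ⟨0, 0, 0, 0, 0, 0, 115916, 0, 0, 0, 0, 0, 0⟩ ⟨135, -1, -512, 10, -25, 117, 82748, 0, 0, 0, 0, 0, 0⟩))))
    (.leaf (.box ⟨216, 0, -607, 6, -5, 150, 316135, 0, 0, 0, 0, 0, 0⟩ ⟨0, 0, 0, 0, 0, 0, 150973, 0, 0, 0, 0, 0, 0⟩ ⟨0, 0, 0, 0, 0, 0, 150973, 0, 0, 0, 0, 0, 0⟩ ⟨0, 0, 0, 0, 0, 0, 99165, 0, 0, 0, 0, 0, 0⟩ ⟨0, 0, 0, 0, 0, 0, 99165, 0, 0, 0, 0, 0, 0⟩ ⟨173, -1, -512, 20, -16, 108, 73829, 0, 0, 0, 0, 0, 0⟩)))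
    (.s2
    (.s3
    (.leaf (.box ⟨263, 0, -556, 6, -14, 195, 365930, 0, 0, 0, 0, 0, 0⟩ ⟨0, 0, 0, 0, 0, 0, 180086, 0, 0, 0, 0, 0, 0⟩ ⟨0, 0, 0, 0, 0, 0, 180086, 0, 0, 0, 0, 0, 0⟩ ⟨0, 0, 0, 0, 0, 0, 119431, 0, 0, 0, 0, 0, 0⟩ ⟨0, 0, 0, 0, 0, 0, 119431, 0, 0, 0, 0, 0, 0⟩ ⟨230, -1, -512, 20, -43, 152, 89340, 0, 0, 0, 0, 0, 0⟩))
    (.leaf (.box ⟨472, 0, -1247, 6, -15, 390, 636346, 0, 0, 0, 0, 0, 0⟩ ⟨0, 0, 0, 0, 0, 0, 211783, 0, 0, 0, 0, 0, 0⟩ ⟨0, 0, 0, 0, 0, 0, 211783, 0, 0, 0, 0, 0, 0⟩ ⟨0, 0, 0, 0, 0, 0, 127030, 0, 0, 0, 0, 0, 0⟩ ⟨0, 0, 0, 0, 0, 0, 127030, 0, 0, 0, 0, 0, 0⟩ ⟨193, -1, -512, 17, -35, 135, 90723, 0, 0, 0, 0, 0, 0⟩)))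
    (.s2
    (.leaf (.box ⟨314, 0, -891, 6, -16, 267, 378627, 0, 0, 0, 0, 0, 0⟩ ⟨0, 0, 0, 0, 0, 0, 182178, 0, 0, 0, 0, 0, 0⟩ ⟨0, 0, 0, 0, 0, 0, 182178, 0, 0, 0, 0, 0, 0⟩ ⟨0, 0, 0, 0, 0, 0, 119945, 0, 0, 0, 0, 0, 0⟩ ⟨0, 0, 0, 0, 0, 0, 119945, 0, 0, 0, 0, 0, 0⟩ ⟨186, -1, -512, 14, -33, 134, 89404, 0, 0, 0, 0, 0, 0⟩))
    (.s2
    (.leaf (.box ⟨286, 0, -975, 6, -15, 282, 385164, 0, 0, 0, 0, 0, 0⟩ ⟨0, 0, 0, 0, 0, 0, 184877, 0, 0, 0, 0, 0, 0⟩ ⟨0, 0, 0, 0, 0, 0, 184877, 0, 0, 0, 0, 0, 0⟩ ⟨0, 0, 0, 0, 0, 0, 121629, 0, 0, 0, 0, 0, 0⟩ ⟨0, 0, 0, 0, 0, 0, 121629, 0, 0, 0, 0, 0, 0⟩ ⟨174, -1, -512, 13, -30, 133, 90625, 0, 0, 0, 0, 0, 0⟩))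
    (.leaf (.box ⟨305, 0, -1024, 6, -14, 291, 390295, 0, 0, 0, 0, 35357618948, 0⟩ ⟨0, 0, 0, 0, 0, 0, 187042, 0, 0, 0, 0, 0, 0⟩ ⟨0, 0, 0, 0, 0, 0, 187042, 0, 0, 0, 0, 0, 0⟩ ⟨0, 0, 0, 0, 0, 0, 122992, 0, 0, 0, 0, 0, 0⟩ ⟨0, 0, 0, 0, 0, 0, 122992, 0, 0, 0, 0, 0, 0⟩ ⟨171, -1, -512, 13, -28, 132, 91618, 0, 0, 0, 0, 8274040674, 0⟩))))))
    (.s0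
    (.s0
    (.leaf (.box ⟨161, 0, -564, 6, -3, 119, 310919, 0, 0, 0, 0, 0, 0⟩ ⟨0, 0, 0, 0, 0, 0, 146203, 0, 0, 0, 0, 0, 0⟩ ⟨0, 0, 0, 0, 0, 0, 146203, 0, 0, 0, 0, 0, 0⟩ ⟨0, 0, 0, 0, 0, 0, 95572, 0, 0, 0, 0, 0, 0⟩ ⟨0, 0, 0, 0, 0, 0, 95572, 0, 0, 0, 0, 0, 0⟩ ⟨131, 0, -512, 19, -10, 91, 70988, 0, 0, 0, 0, 0, 0⟩))
    (.s1
    (.leaf (.box ⟨185, 0, -760, 6, -7, 175, 337777, 0, 0, 0, 0, 0, 0⟩ ⟨0, 0, 0, 0, 0, 0, 161843, 0, 0, 0, 0, 0, 0⟩ ⟨0, 0, 0, 0, 0, 0, 161843, 0, 0, 0, 0, 0, 0⟩ ⟨0, 0, 0, 0, 0, 0, 106416, 0, 0, 0, 0, 0, 0⟩ ⟨0, 0, 0, 0, 0, 0, 106416, 0, 0, 0, 0, 0, 0⟩ ⟨121, 0, -512, 14, -17, 100, 79268, 0, 0, 0, 0, 0, 0⟩))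
    (.leaf (.box ⟨158, 0, -796, 6, -6, 169, 334973, 0, 0, 0, 0, 0, 0⟩ ⟨0, 0, 0, 0, 0, 0, 159621, 0, 0, 0, 0, 0, 0⟩ ⟨0, 0, 0, 0, 0, 0, 159621, 0, 0, 0, 0, 0, 0⟩ ⟨0, 0, 0, 0, 0, 0, 104774, 0, 0, 0, 0, 0, 0⟩ ⟨0, 0, 0, 0, 0, 0, 104774, 0, 0, 0, 0, 0, 0⟩ ⟨101, 0, -512, 14, -14, 93, 77979, 0, 0, 0, 0, 0, 0⟩))))
    (.s3
    (.leaf (.box ⟨247, 0, -664, 6, -9, 164, 351565, 0, 0, 0, 0, 0, 0⟩ ⟨0, 0, 0, 0, 0, 0, 172939, 0, 0, 0, 0, 0, 0⟩ ⟨0, 0, 0, 0, 0, 0, 172939, 0, 0, 0, 0, 0, 0⟩ ⟨0, 0, 0, 0, 0, 0, 114674, 0, 0, 0, 0, 0, 0⟩ ⟨0, 0, 0, 0, 0, 0, 114674, 0, 0, 0, 0, 0, 0⟩ ⟨176, -1, -512, 18, -26, 112, 85775, 0, 0, 0, 0, 0, 0⟩))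
    (.leaf (.box ⟨408, 0, -1339, 6, -10, 313, 611643, 0, 0, 0, 0, 0, 0⟩ ⟨0, 0, 0, 0, 0, 0, 203357, 0, 0, 0, 0, 0, 0⟩ ⟨0, 0, 0, 0, 0, 0, 203357, 0, 0, 0, 0, 0, 0⟩ ⟨0, 0, 0, 0, 0, 0, 121952, 0, 0, 0, 0, 0, 0⟩ ⟨0, 0, 0, 0, 0, 0, 121952, 0, 0, 0, 0, 0, 0⟩ ⟨144, 0, -512, 14, -23, 104, 87089, 0, 0, 0, 0, 0, 0⟩))))

/-- A piece of the tree. -/
noncomputable def tree54 : Tree LeafX :=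
  .s2
    (.s3
    (.leaf (.box ⟨378, 0, -512, 12, -18, 202, 422557, 0, 0, 0, 0, 0, 0⟩ ⟨0, 0, 0, 0, 0, 0, 208681, 0, 0, 0, 0, 0, 0⟩ ⟨0, 0, 0, 0, 0, 0, 208681, 0, 0, 0, 0, 0, 0⟩ ⟨0, 0, 0, 0, 0, 0, 138553, 0, 0, 0, 0, 0, 0⟩ ⟨0, 0, 0, 0, 0, 0, 138553, 0, 0, 0, 0, 0, 0⟩ ⟨382, 0, -512, 46, -65, 180, 103703, 0, 0, 0, 0, 0, 0⟩))
    (.s0
    (.leaf (.box ⟨474, 0, -882, 6, -11, 283, 813896, 0, 0, 0, 0, 0, 0⟩ ⟨274, 0, -512, 10, -20, 157, 245263, 0, 0, 0, 0, 0, 0⟩ ⟨274, 0, -512, 10, -20, 157, 245263, 0, 0, 0, 0, 0, 0⟩ ⟨276, 0, -512, 15, -31, 149, 148225, 0, 0, 0, 0, 0, 0⟩ ⟨276, 0, -512, 15, -31, 149, 148225, 0, 0, 0, 0, 0, 0⟩ ⟨274, 0, -512, 21, -41, 143, 106975, 0, 0, 0, 0, 0, 0⟩))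
    (.leaf (.box ⟨517, 0, -852, 6, -14, 322, 924270, 0, 0, 0, 0, 0, 0⟩ ⟨0, 0, 0, 0, 0, 0, 306719, 0, 0, 0, 0, 0, 0⟩ ⟨0, 0, 0, 0, 0, 0, 306719, 0, 0, 0, 0, 0, 0⟩ ⟨0, 0, 0, 0, 0, 0, 183868, 0, 0, 0, 0, 0, 0⟩ ⟨0, 0, 0, 0, 0, 0, 183868, 0, 0, 0, 0, 0, 0⟩ ⟨318, 0, -512, 26, -51, 173, 131284, 0, 0, 0, 0, 0, 0⟩))))
    (.s2
    (.leaf (.box ⟨278, 0, -591, 6, -12, 178, 454742, 0, 0, 0, 0, 0, 0⟩ ⟨0, 0, 0, 0, 0, 0, 219257, 0, 0, 0, 0, 0, 0⟩ ⟨0, 0, 0, 0, 0, 0, 219257, 0, 0, 0, 0, 0, 0⟩ ⟨0, 0, 0, 0, 0, 0, 144453, 0, 0, 0, 0, 0, 0⟩ ⟨0, 0, 0, 0, 0, 0, 144453, 0, 0, 0, 0, 0, 0⟩ ⟨269, -1, -512, 19, -43, 146, 107706, 0, 0, 0, 0, 0, 0⟩))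
    (.s2
    (.s0
    (.leaf (.box ⟨455, 0, -1297, 6, -21, 359, 476198, 0, 0, 0, 0, 41222018875, 0⟩ ⟨0, 0, 0, 0, 0, 0, 228557, 0, 0, 0, 0, 0, 0⟩ ⟨0, 0, 0, 0, 0, 0, 228557, 0, 0, 0, 0, 0, 0⟩ ⟨0, 0, 0, 0, 0, 0, 150362, 0, 0, 0, 0, 0, 0⟩ ⟨0, 0, 0, 0, 0, 0, 150362, 0, 0, 0, 0, 0, 0⟩ ⟨209, -1, -512, 11, -33, 134, 112033, 0, 0, 0, 0, 5086385185, 0⟩))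
    (.s1
    (.leaf (.box ⟨169, 0, -646, 6, -9, 205, 634737, 0, 0, 0, 0, 29049168897, 0⟩ ⟨0, 0, 0, 0, 0, 0, 307361, 0, 0, 0, 0, 0, 0⟩ ⟨0, 0, 0, 0, 0, 0, 307361, 0, 0, 0, 0, 0, 0⟩ ⟨0, 0, 0, 0, 0, 0, 202776, 0, 0, 0, 0, 0, 0⟩ ⟨0, 0, 0, 0, 0, 0, 202776, 0, 0, 0, 0, 0, 0⟩ ⟨151, -1, -512, 17, -31, 168, 151295, 0, 0, 0, 0, 18670914788, 0⟩))
    (.leaf (.box ⟨301, 0, -1902, 6, -26, 480, 622268, 0, 0, 0, 0, 106531484055, 0⟩ ⟨0, 0, 0, 0, 0, 0, 300472, 0, 0, 0, 0, 0, 0⟩ ⟨0, 0, 0, 0, 0, 0, 300472, 0, 0, 0, 0, 0, 0⟩ ⟨0, 0, 0, 0, 0, 0, 198053, 0, 0, 0, 0, 0, 0⟩ ⟨0, 0, 0, 0, 0, 0, 198053, 0, 0, 0, 0, 0, 0⟩ ⟨97, 0, -512, 7, -29, 127, 147705, 0, 0, 0, 0, 8320432696, 0⟩))))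
    (.leaf (.skip 8 0))))

/-- A piece of the tree. -/
noncomputable def tree55 : Tree LeafX :=
  .s0
    (.s0
    (.leaf (.box ⟨219, 0, -512, 6, -2, 96, 305466, 0, 0, 0, 0, 0, 0⟩ ⟨0, 0, 0, 0, 0, 0, 142845, 0, 0, 0, 0, 0, 0⟩ ⟨0, 0, 0, 0, 0, 0, 142845, 0, 0, 0, 0, 0, 0⟩ ⟨0, 0, 0, 0, 0, 0, 93219, 0, 0, 0, 0, 0, 0⟩ ⟨0, 0, 0, 0, 0, 0, 93219, 0, 0, 0, 0, 0, 0⟩ ⟨173, -1, -512, 22, -9, 81, 69183, 0, 0, 0, 0, 0, 0⟩))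
    (.s2
    (.s0
    (.leaf (.box ⟨354, -1, -1577, 6, -14, 308, 348210, 0, 0, 0, 0, 0, 0⟩ ⟨0, 0, 0, 0, 0, 0, 169336, 0, 0, 0, 0, 0, 0⟩ ⟨0, 0, 0, 0, 0, 0, 169336, 0, 0, 0, 0, 0, 0⟩ ⟨0, 0, 0, 0, 0, 0, 111870, 0, 0, 0, 0, 0, 0⟩ ⟨0, 0, 0, 0, 0, 0, 111870, 0, 0, 0, 0, 0, 0⟩ ⟨116, -1, -512, 7, -16, 86, 83524, 0, 0, 0, 0, 0, 0⟩))
    (.s1
    (.leaf (.box ⟨343, -1, -1498, 6, -17, 320, 381506, 0, 0, 0, 0, 0, 0⟩ ⟨0, 0, 0, 0, 0, 0, 185785, 0, 0, 0, 0, 0, 0⟩ ⟨0, 0, 0, 0, 0, 0, 185785, 0, 0, 0, 0, 0, 0⟩ ⟨0, 0, 0, 0, 0, 0, 122791, 0, 0, 0, 0, 0, 0⟩ ⟨0, 0, 0, 0, 0, 0, 122791, 0, 0, 0, 0, 0, 0⟩ ⟨114, -1, -512, 7, -21, 95, 91698, 0, 0, 0, 0, 0, 0⟩))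
    (.leaf (.box ⟨361, -1, -2464, 6, -23, 462, 373165, 0, 0, 0, 0, 0, 0⟩ ⟨0, 0, 0, 0, 0, 0, 183472, 0, 0, 0, 0, 0, 0⟩ ⟨0, 0, 0, 0, 0, 0, 183472, 0, 0, 0, 0, 0, 0⟩ ⟨0, 0, 0, 0, 0, 0, 121638, 0, 0, 0, 0, 0, 0⟩ ⟨0, 0, 0, 0, 0, 0, 121638, 0, 0, 0, 0, 0, 0⟩ ⟨93, -1, -634, 6, -21, 104, 90977, 0, 0, 0, 0, 0, 0⟩))))
    (.leaf (.box ⟨208, 0, -938, 6, -8, 180, 352220, 0, 0, 0, 0, 0, 0⟩ ⟨0, 0, 0, 0, 0, 0, 170273, 0, 0, 0, 0, 0, 0⟩ ⟨0, 0, 0, 0, 0, 0, 170273, 0, 0, 0, 0, 0, 0⟩ ⟨0, 0, 0, 0, 0, 0, 112275, 0, 0, 0, 0, 0, 0⟩ ⟨0, 0, 0, 0, 0, 0, 112275, 0, 0, 0, 0, 0, 0⟩ ⟨120, 0, -512, 11, -16, 87, 83748, 0, 0, 0, 0, 0, 0⟩))))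
    (.s0
    (.s1
    (.s3
    (.leaf (.box ⟨379, 0, -1127, 6, -18, 256, 405005, 0, 0, 0, 0, 0, 0⟩ ⟨0, 0, 0, 0, 0, 0, 201804, 0, 0, 0, 0, 0, 0⟩ ⟨0, 0, 0, 0, 0, 0, 201804, 0, 0, 0, 0, 0, 0⟩ ⟨0, 0, 0, 0, 0, 0, 134382, 0, 0, 0, 0, 0, 0⟩ ⟨0, 0, 0, 0, 0, 0, 134382, 0, 0, 0, 0, 0, 0⟩ ⟨153, 0, -512, 9, -30, 106, 100728, 0, 0, 0, 0, 0, 0⟩))
    (.leaf (.box ⟨666, 0, -2224, 6, -19, 482, 695806, 0, 0, 0, 0, 0, 0⟩ ⟨0, 0, 0, 0, 0, 0, 237910, 0, 0, 0, 0, 0, 0⟩ ⟨0, 0, 0, 0, 0, 0, 237910, 0, 0, 0, 0, 0, 0⟩ ⟨0, 0, 0, 0, 0, 0, 143485, 0, 0, 0, 0, 0, 0⟩ ⟨0, 0, 0, 0, 0, 0, 143485, 0, 0, 0, 0, 0, 0⟩ ⟨132, 0, -512, 8, -26, 100, 102717, 0, 0, 0, 0, 0, 0⟩)))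
    (.leaf (.box ⟨238, 0, -956, 6, -12, 188, 404080, 0, 0, 0, 0, 0, 0⟩ ⟨0, 0, 0, 0, 0, 0, 199660, 0, 0, 0, 0, 0, 0⟩ ⟨0, 0, 0, 0, 0, 0, 199660, 0, 0, 0, 0, 0, 0⟩ ⟨0, 0, 0, 0, 0, 0, 132586, 0, 0, 0, 0, 0, 0⟩ ⟨0, 0, 0, 0, 0, 0, 132586, 0, 0, 0, 0, 0, 0⟩ ⟨116, -1, -512, 13, -24, 91, 99245, 0, 0, 0, 0, 0, 0⟩)))
    (.s2
    (.s1
    (.leaf (.box ⟨341, 0, -880, 6, -17, 232, 517356, 0, 0, 0, 0, 0, 0⟩ ⟨0, 0, 0, 0, 0, 0, 252181, 0, 0, 0, 0, 0, 0⟩ ⟨0, 0, 0, 0, 0, 0, 252181, 0, 0, 0, 0, 0, 0⟩ ⟨0, 0, 0, 0, 0, 0, 166725, 0, 0, 0, 0, 0, 0⟩ ⟨0, 0, 0, 0, 0, 0, 166725, 0, 0, 0, 0, 0, 0⟩ ⟨186, -1, -512, 16, -36, 120, 124526, 0, 0, 0, 0, 0, 0⟩))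
    (.leaf (.box ⟨258, -1, -835, 6, -13, 185, 497686, 0, 0, 0, 0, 0, 0⟩ ⟨0, 0, 0, 0, 0, 0, 246325, 0, 0, 0, 0, 0, 0⟩ ⟨0, 0, 0, 0, 0, 0, 246325, 0, 0, 0, 0, 0, 0⟩ ⟨0, 0, 0, 0, 0, 0, 163665, 0, 0, 0, 0, 0, 0⟩ ⟨0, 0, 0, 0, 0, 0, 163665, 0, 0, 0, 0, 0, 0⟩ ⟨143, -1, -512, 10, -29, 102, 122542, 0, 0, 0, 0, 0, 0⟩)))
    (.s2
    (.leaf (.box ⟨313, 0, -1345, 6, -19, 290, 568095, 0, 0, 0, 0, 0, 0⟩ ⟨0, 0, 0, 0, 0, 0, 276764, 0, 0, 0, 0, 0, 0⟩ ⟨0, 0, 0, 0, 0, 0, 276764, 0, 0, 0, 0, 0, 0⟩ ⟨0, 0, 0, 0, 0, 0, 182946, 0, 0, 0, 0, 0, 0⟩ ⟨0, 0, 0, 0, 0, 0, 182946, 0, 0, 0, 0, 0, 0⟩ ⟨129, -1, -512, 9, -28, 103, 136630, 0, 0, 0, 0, 0, 0⟩))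
    (.leaf (.box ⟨212, 0, -1382, 6, -18, 288, 616314, 0, 0, 0, 0, 19140160828, 0⟩ ⟨0, 0, 0, 0, 0, 0, 297571, 0, 0, 0, 0, 0, 0⟩ ⟨0, 0, 0, 0, 0, 0, 297571, 0, 0, 0, 0, 0, 0⟩ ⟨0, 0, 0, 0, 0, 0, 196135, 0, 0, 0, 0, 0, 0⟩ ⟨0, 0, 0, 0, 0, 0, 196135, 0, 0, 0, 0, 0, 0⟩ ⟨89, 0, -512, 9, -27, 102, 146273, 0, 0, 0, 0, 3488137902, 0⟩)))))

/-- A piece of the tree. -/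
noncomputable def tree56 : Tree LeafX :=
  .s1
    (.s2
    (.leaf (.box ⟨512, -5, 10, 15, -3, 92, 260486, 0, 0, 0, 0, 0, 0⟩ ⟨0, 0, 0, 0, 0, 0, 128891, 0, 0, 0, 0, 0, 0⟩ ⟨0, 0, 0, 0, 0, 0, 128891, 0, 0, 0, 0, 0, 0⟩ ⟨0, 0, 0, 0, 0, 0, 85631, 0, 0, 0, 0, 0, 0⟩ ⟨0, 0, 0, 0, 0, 0, 85631, 0, 0, 0, 0, 0, 0⟩ ⟨512, -21, -35, 57, -12, 80, 64112, 0, 0, 0, 0, 0, 0⟩))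
    (.leaf (.box ⟨512, -8, 98, 11, -4, 56, 275248, 0, 0, 0, 0, 0, 0⟩ ⟨512, -18, 75, 24, -8, 54, 117129, 0, 0, 0, 0, 0, 0⟩ ⟨512, -18, 75, 24, -8, 54, 117129, 0, 0, 0, 0, 0, 0⟩ ⟨512, -26, 50, 35, -11, 51, 76220, 0, 0, 0, 0, 0, 0⟩ ⟨512, -26, 50, 35, -11, 51, 76220, 0, 0, 0, 0, 0, 0⟩ ⟨512, -33, 26, 44, -13, 47, 58402, 0, 0, 0, 0, 0, 0⟩)))
    (.s1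
    (.s2
    (.leaf (.box ⟨512, -20, -46, 18, 4, 63, 255725, 0, 0, 0, 0, 0, 0⟩ ⟨0, 0, 0, 0, 0, 0, 129467, 0, 0, 0, 0, 0, 0⟩ ⟨0, 0, 0, 0, 0, 0, 129467, 0, 0, 0, 0, 0, 0⟩ ⟨0, 0, 0, 0, 0, 0, 86674, 0, 0, 0, 0, 0, 0⟩ ⟨0, 0, 0, 0, 0, 0, 86674, 0, 0, 0, 0, 0, 0⟩ ⟨512, -68, -128, 57, 14, 51, 65142, 0, 0, 0, 0, 0, 0⟩))
    (.leaf (.box ⟨512, -31, 66, 18, 1, 54, 287989, 0, 0, 0, 0, 0, 0⟩ ⟨512, -66, 17, 37, 3, 49, 125877, 0, 0, 0, 0, 0, 0⟩ ⟨512, -66, 17, 37, 3, 49, 125877, 0, 0, 0, 0, 0, 0⟩ ⟨512, -91, -28, 50, 6, 45, 83973, 0, 0, 0, 0, 0, 0⟩ ⟨512, -91, -28, 50, 6, 45, 83973, 0, 0, 0, 0, 0, 0⟩ ⟨512, -110, -70, 59, 9, 42, 65896, 0, 0, 0, 0, 0, 0⟩)))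
    (.s2
    (.s0
    (.s2
    (.s0
    (.s1
    (.leaf (.box ⟨512, -12, 436, 20, 21, 104, 281252, 0, 0, 0, 0, 0, 0⟩ ⟨0, 0, 0, 0, 0, 0, 133875, 0, 0, 0, 0, 0, 0⟩ ⟨0, 0, 0, 0, 0, 0, 133875, 0, 0, 0, 0, 0, 0⟩ ⟨0, 0, 0, 0, 0, 0, 87844, 0, 0, 0, 0, 0, 0⟩ ⟨0, 0, 0, 0, 0, 0, 87844, 0, 0, 0, 0, 0, 0⟩ ⟨512, -34, 204, 58, 62, 69, 65368, 0, 0, 0, 0, 0, 0⟩))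
    (.leaf (.box ⟨410, 3, 512, 20, 21, 74, 320286, 0, 0, 0, 0, 0, 0⟩ ⟨0, 0, 0, 0, 0, 0, 134445, 0, 0, 0, 0, 0, 0⟩ ⟨0, 0, 0, 0, 0, 0, 134445, 0, 0, 0, 0, 0, 0⟩ ⟨0, 0, 0, 0, 0, 0, 85079, 0, 0, 0, 0, 0, 0⟩ ⟨0, 0, 0, 0, 0, 0, 85079, 0, 0, 0, 0, 0, 0⟩ ⟨512, 12, 326, 80, 78, 54, 62229, 0, 0, 0, 0, 0, 0⟩)))
    (.leaf (.box ⟨512, -14, 69, 18, 14, 88, 303174, 0, 0, 0, 0, 0, 0⟩ ⟨0, 0, 0, 0, 0, 0, 141670, 0, 0, 0, 0, 0, 0⟩ ⟨0, 0, 0, 0, 0, 0, 141670, 0, 0, 0, 0, 0, 0⟩ ⟨0, 0, 0, 0, 0, 0, 92431, 0, 0, 0, 0, 0, 0⟩ ⟨0, 0, 0, 0, 0, 0, 92431, 0, 0, 0, 0, 0, 0⟩ ⟨512, -50, -80, 64, 55, 72, 68591, 0, 0, 0, 0, 0, 0⟩)))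
    (.s0
    (.s1
    (.leaf (.box ⟨512, -20, 459, 25, 28, 99, 272106, 0, 0, 0, 0, 0, 0⟩ ⟨0, 0, 0, 0, 0, 0, 133308, 0, 0, 0, 0, 0, 0⟩ ⟨0, 0, 0, 0, 0, 0, 133308, 0, 0, 0, 0, 0, 0⟩ ⟨0, 0, 0, 0, 0, 0, 88278, 0, 0, 0, 0, 0, 0⟩ ⟨0, 0, 0, 0, 0, 0, 88278, 0, 0, 0, 0, 0, 0⟩ ⟨512, -61, 114, 69, 87, 72, 65988, 0, 0, 0, 0, 0, 0⟩))
    (.s2
    (.leaf (.box ⟨385, -1, 512, 21, 26, 71, 310066, 0, 0, 0, 0, 0, 0⟩ ⟨0, 0, 0, 0, 0, 0, 133909, 0, 0, 0, 0, 0, 0⟩ ⟨0, 0, 0, 0, 0, 0, 133909, 0, 0, 0, 0, 0, 0⟩ ⟨0, 0, 0, 0, 0, 0, 85395, 0, 0, 0, 0, 0, 0⟩ ⟨0, 0, 0, 0, 0, 0, 85395, 0, 0, 0, 0, 0, 0⟩ ⟨512, -2, 261, 81, 105, 57, 62684, 0, 0, 0, 0, 0, 0⟩))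
    (.leaf (.box ⟨380, -3, 512, 22, 28, 70, 319672, 0, 0, 0, 0, 0, 0⟩ ⟨512, -8, 472, 54, 73, 76, 135251, 0, 0, 0, 0, 0, 0⟩ ⟨512, -8, 472, 54, 73, 76, 135251, 0, 0, 0, 0, 0, 0⟩ ⟨512, -11, 324, 72, 98, 64, 85534, 0, 0, 0, 0, 0, 0⟩ ⟨512, -11, 324, 72, 98, 64, 85534, 0, 0, 0, 0, 0, 0⟩ ⟨512, -12, 214, 83, 113, 55, 63479, 0, 0, 0, 0, 0, 0⟩))))
    (.leaf (.box ⟨512, -27, 145, 24, 19, 89, 299429, 0, 0, 0, 0, 0, 0⟩ ⟨0, 0, 0, 0, 0, 0, 143477, 0, 0, 0, 0, 0, 0⟩ ⟨0, 0, 0, 0, 0, 0, 143477, 0, 0, 0, 0, 0, 0⟩ ⟨0, 0, 0, 0, 0, 0, 94341, 0, 0, 0, 0, 0, 0⟩ ⟨0, 0, 0, 0, 0, 0, 94341, 0, 0, 0, 0, 0, 0⟩ ⟨512, -89, -165, 81, 74, 73, 70274, 0, 0, 0, 0, 0, 0⟩))))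
    (.leaf (.box ⟨512, -29, -258, 19, 10, 95, 306831, 0, 0, 0, 0, 0, 0⟩ ⟨0, 0, 0, 0, 0, 0, 151793, 0, 0, 0, 0, 0, 0⟩ ⟨0, 0, 0, 0, 0, 0, 151793, 0, 0, 0, 0, 0, 0⟩ ⟨0, 0, 0, 0, 0, 0, 100840, 0, 0, 0, 0, 0, 0⟩ ⟨0, 0, 0, 0, 0, 0, 100840, 0, 0, 0, 0, 0, 0⟩ ⟨512, -110, -488, 77, 49, 88, 75497, 0, 0, 0, 0, 0, 0⟩)))
    (.s0
    (.s0
    (.s0
    (.s1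
    (.leaf (.box ⟨348, -20, 512, 20, 28, 73, 268564, 0, 0, 0, 0, 0, 0⟩ ⟨0, 0, 0, 0, 0, 0, 133105, 0, 0, 0, 0, 0, 0⟩ ⟨0, 0, 0, 0, 0, 0, 133105, 0, 0, 0, 0, 0, 0⟩ ⟨0, 0, 0, 0, 0, 0, 88479, 0, 0, 0, 0, 0, 0⟩ ⟨0, 0, 0, 0, 0, 0, 88479, 0, 0, 0, 0, 0, 0⟩ ⟨512, -80, 238, 73, 115, 69, 66262, 0, 0, 0, 0, 0, 0⟩))
    (.s1
    (.leaf (.box ⟨271, -6, 512, 16, 33, 62, 285589, 0, 0, 0, 0, 0, 0⟩ ⟨0, 0, 0, 0, 0, 0, 134536, 0, 0, 0, 0, 0, 0⟩ ⟨0, 0, 0, 0, 0, 0, 134536, 0, 0, 0, 0, 0, 0⟩ ⟨0, 0, 0, 0, 0, 0, 87994, 0, 0, 0, 0, 0, 0⟩ ⟨0, 0, 0, 0, 0, 0, 87994, 0, 0, 0, 0, 0, 0⟩ ⟨512, -33, 340, 76, 171, 71, 65377, 0, 0, 0, 0, 0, 0⟩))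
    (.leaf (.box ⟨243, 1, 512, 16, 36, 55, 302048, 0, 0, 0, 0, 0, 0⟩ ⟨0, 0, 0, 0, 0, 0, 133468, 0, 0, 0, 0, 0, 0⟩ ⟨0, 0, 0, 0, 0, 0, 133468, 0, 0, 0, 0, 0, 0⟩ ⟨0, 0, 0, 0, 0, 0, 85660, 0, 0, 0, 0, 0, 0⟩ ⟨0, 0, 0, 0, 0, 0, 85660, 0, 0, 0, 0, 0, 0⟩ ⟨512, 7, 424, 95, 203, 65, 63068, 0, 0, 0, 0, 0, 0⟩))))
    (.leaf (.box ⟨470, -36, 512, 38, 34, 90, 294439, 0, 0, 0, 0, 0, 0⟩ ⟨0, 0, 0, 0, 0, 0, 138963, 0, 0, 0, 0, 0, 0⟩ ⟨0, 0, 0, 0, 0, 0, 138963, 0, 0, 0, 0, 0, 0⟩ ⟨0, 0, 0, 0, 0, 0, 90942, 0, 0, 0, 0, 0, 0⟩ ⟨0, 0, 0, 0, 0, 0, 90942, 0, 0, 0, 0, 0, 0⟩ ⟨512, -110, 68, 108, 107, 62, 67586, 0, 0, 0, 0, 0, 0⟩)))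
    (.leaf (.box ⟨512, -52, 287, 36, 24, 95, 296993, 0, 0, 0, 0, 0, 0⟩ ⟨0, 0, 0, 0, 0, 0, 144214, 0, 0, 0, 0, 0, 0⟩ ⟨0, 0, 0, 0, 0, 0, 144214, 0, 0, 0, 0, 0, 0⟩ ⟨0, 0, 0, 0, 0, 0, 95228, 0, 0, 0, 0, 0, 0⟩ ⟨0, 0, 0, 0, 0, 0, 95228, 0, 0, 0, 0, 0, 0⟩ ⟨512, -152, -151, 102, 84, 68, 71082, 0, 0, 0, 0, 0, 0⟩)))
    (.leaf (.box ⟨512, -60, -115, 29, 10, 96, 293714, 0, 0, 0, 0, 0, 0⟩ ⟨0, 0, 0, 0, 0, 0, 151053, 0, 0, 0, 0, 0, 0⟩ ⟨0, 0, 0, 0, 0, 0, 151053, 0, 0, 0, 0, 0, 0⟩ ⟨0, 0, 0, 0, 0, 0, 101671, 0, 0, 0, 0, 0, 0⟩ ⟨0, 0, 0, 0, 0, 0, 101671, 0, 0, 0, 0, 0, 0⟩ ⟨456, -181, -512, 93, 53, 84, 76621, 0, 0, 0, 0, 0, 0⟩)))))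

/-- A piece of the tree. -/
noncomputable def tree57 : Tree LeafX :=
  .s0
    (.leaf (.box ⟨268, -4, -650, 6, -5, 165, 355189, 0, 0, 0, 0, 0, 0⟩ ⟨0, 0, 0, 0, 0, 0, 171791, 0, 0, 0, 0, 0, 0⟩ ⟨0, 0, 0, 0, 0, 0, 171791, 0, 0, 0, 0, 0, 0⟩ ⟨0, 0, 0, 0, 0, 0, 113293, 0, 0, 0, 0, 0, 0⟩ ⟨0, 0, 0, 0, 0, 0, 113293, 0, 0, 0, 0, 0, 0⟩ ⟨277, -11, -512, 19, -13, 107, 84514, 0, 0, 0, 0, 0, 0⟩))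
    (.s1
    (.leaf (.box ⟨293, -2, -1411, 6, -10, 279, 371780, 0, 0, 0, 0, 0, 0⟩ ⟨0, 0, 0, 0, 0, 0, 181865, 0, 0, 0, 0, 0, 0⟩ ⟨0, 0, 0, 0, 0, 0, 181865, 0, 0, 0, 0, 0, 0⟩ ⟨0, 0, 0, 0, 0, 0, 120374, 0, 0, 0, 0, 0, 0⟩ ⟨0, 0, 0, 0, 0, 0, 120374, 0, 0, 0, 0, 0, 0⟩ ⟨134, -3, -512, 9, -13, 91, 89958, 0, 0, 0, 0, 0, 0⟩))
    (.leaf (.box ⟨226, -5, -1009, 6, -4, 187, 367506, 0, 0, 0, 0, 0, 0⟩ ⟨0, 0, 0, 0, 0, 0, 184219, 0, 0, 0, 0, 0, 0⟩ ⟨0, 0, 0, 0, 0, 0, 184219, 0, 0, 0, 0, 0, 0⟩ ⟨0, 0, 0, 0, 0, 0, 122917, 0, 0, 0, 0, 0, 0⟩ ⟨0, 0, 0, 0, 0, 0, 122917, 0, 0, 0, 0, 0, 0⟩ ⟨142, -8, -512, 10, -5, 80, 92226, 0, 0, 0, 0, 0, 0⟩)))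

/-- A piece of the tree. -/
noncomputable def tree58 : Tree LeafX :=
  .s1
    (.s0
    (.s2
    (.leaf (.box ⟨288, -1, -1578, 6, -13, 362, 432476, 0, 0, 0, 0, 0, 0⟩ ⟨0, 0, 0, 0, 0, 0, 210561, 0, 0, 0, 0, 0, 0⟩ ⟨0, 0, 0, 0, 0, 0, 210561, 0, 0, 0, 0, 0, 0⟩ ⟨0, 0, 0, 0, 0, 0, 139156, 0, 0, 0, 0, 0, 0⟩ ⟨0, 0, 0, 0, 0, 0, 139156, 0, 0, 0, 0, 0, 0⟩ ⟨96, -1, -512, 7, -16, 107, 103916, 0, 0, 0, 0, 0, 0⟩))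
    (.leaf (.box ⟨367, -1, -1976, 6, -15, 440, 483158, 0, 0, 0, 0, 0, 0⟩ ⟨175, -1, -925, 6, -16, 198, 207513, 0, 0, 0, 0, 0, 0⟩ ⟨175, -1, -925, 6, -16, 198, 207513, 0, 0, 0, 0, 0, 0⟩ ⟨118, -1, -591, 6, -15, 121, 136415, 0, 0, 0, 0, 0, 0⟩ ⟨118, -1, -591, 6, -15, 121, 136415, 0, 0, 0, 0, 0, 0⟩ ⟨100, -1, -512, 6, -16, 101, 105441, 0, 0, 0, 0, 0, 0⟩)))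
    (.s1
    (.s3
    (.s0
    (.leaf (.box ⟨313, 0, -2152, 6, -23, 562, 515634, 0, 0, 0, 0, 0, 0⟩ ⟨185, 0, -1203, 6, -28, 302, 220712, 0, 0, 0, 0, 0, 0⟩ ⟨185, 0, -1203, 6, -28, 302, 220712, 0, 0, 0, 0, 0, 0⟩ ⟨129, 0, -799, 6, -27, 192, 144819, 0, 0, 0, 0, 0, 0⟩ ⟨129, 0, -799, 6, -27, 192, 144819, 0, 0, 0, 0, 0, 0⟩ ⟨109, 0, -645, 6, -27, 149, 113041, 0, 0, 0, 0, 0, 0⟩))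
    (.leaf (.box ⟨368, 0, -2244, 6, -27, 628, 534404, 0, 0, 0, 0, 0, 0⟩ ⟨173, 0, -1046, 6, -28, 280, 228624, 0, 0, 0, 0, 0, 0⟩ ⟨173, 0, -1046, 6, -28, 280, 228624, 0, 0, 0, 0, 0, 0⟩ ⟨132, 0, -745, 6, -29, 191, 149945, 0, 0, 0, 0, 0, 0⟩ ⟨132, 0, -745, 6, -29, 191, 149945, 0, 0, 0, 0, 0, 0⟩ ⟨110, 0, -602, 6, -29, 148, 116993, 0, 0, 0, 0, 0, 0⟩)))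
    (.s0
    (.leaf (.box ⟨482, 0, -3951, 6, -24, 971, 747930, 0, 0, 0, 0, 0, 0⟩ ⟨0, 0, 0, 0, 0, 0, 256597, 0, 0, 0, 0, 0, 0⟩ ⟨0, 0, 0, 0, 0, 0, 256597, 0, 0, 0, 0, 0, 0⟩ ⟨0, 0, 0, 0, 0, 0, 154864, 0, 0, 0, 0, 0, 0⟩ ⟨0, 0, 0, 0, 0, 0, 154864, 0, 0, 0, 0, 0, 0⟩ ⟨99, 0, -681, 6, -24, 147, 110896, 0, 0, 0, 0, 0, 0⟩))
    (.s2
    (.leaf (.box ⟨336, 0, -2844, 6, -19, 753, 801460, 0, 0, 0, 0, 0, 0⟩ ⟨0, 0, 0, 0, 0, 0, 269425, 0, 0, 0, 0, 0, 0⟩ ⟨0, 0, 0, 0, 0, 0, 269425, 0, 0, 0, 0, 0, 0⟩ ⟨0, 0, 0, 0, 0, 0, 161931, 0, 0, 0, 0, 0, 0⟩ ⟨0, 0, 0, 0, 0, 0, 161931, 0, 0, 0, 0, 0, 0⟩ ⟨86, 0, -676, 6, -27, 157, 115749, 0, 0, 0, 0, 0, 0⟩))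
    (.leaf (.box ⟨339, 0, -2767, 6, -19, 710, 776353, 0, 0, 0, 0, 0, 0⟩ ⟨0, 0, 0, 0, 0, 0, 265705, 0, 0, 0, 0, 0, 0⟩ ⟨0, 0, 0, 0, 0, 0, 265705, 0, 0, 0, 0, 0, 0⟩ ⟨0, 0, 0, 0, 0, 0, 160280, 0, 0, 0, 0, 0, 0⟩ ⟨0, 0, 0, 0, 0, 0, 160280, 0, 0, 0, 0, 0, 0⟩ ⟨88, -1, -681, 6, -27, 150, 114750, 0, 0, 0, 0, 0, 0⟩)))))
    (.s3
    (.s2
    (.s2
    (.leaf (.box ⟨294, 0, -2086, 6, -19, 534, 529296, 0, 0, 0, 0, 0, 0⟩ ⟨137, 0, -944, 6, -19, 233, 225868, 0, 0, 0, 0, 0, 0⟩ ⟨137, 0, -944, 6, -19, 233, 225868, 0, 0, 0, 0, 0, 0⟩ ⟨95, 0, -667, 6, -20, 159, 147836, 0, 0, 0, 0, 0, 0⟩ ⟨95, 0, -667, 6, -20, 159, 147836, 0, 0, 0, 0, 0, 0⟩ ⟨87, 0, -593, 6, -22, 136, 115117, 0, 0, 0, 0, 0, 0⟩))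
    (.leaf (.box ⟨308, -1, -2151, 6, -20, 543, 522335, 0, 0, 0, 0, 0, 0⟩ ⟨148, -1, -1032, 6, -22, 250, 223395, 0, 0, 0, 0, 0, 0⟩ ⟨148, -1, -1032, 6, -22, 250, 223395, 0, 0, 0, 0, 0, 0⟩ ⟨94, -1, -636, 6, -19, 148, 146489, 0, 0, 0, 0, 0, 0⟩ ⟨94, -1, -636, 6, -19, 148, 146489, 0, 0, 0, 0, 0, 0⟩ ⟨80, -1, -514, 6, -19, 115, 114258, 0, 0, 0, 0, 0, 0⟩)))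
    (.leaf (.box ⟨341, -1, -2250, 6, -22, 553, 510801, 0, 0, 0, 0, 0, 0⟩ ⟨159, -1, -1031, 6, -22, 242, 219358, 0, 0, 0, 0, 0, 0⟩ ⟨159, -1, -1031, 6, -22, 242, 219358, 0, 0, 0, 0, 0, 0⟩ ⟨120, -1, -763, 6, -24, 171, 144338, 0, 0, 0, 0, 0, 0⟩ ⟨120, -1, -763, 6, -24, 171, 144338, 0, 0, 0, 0, 0, 0⟩ ⟨104, -1, -634, 6, -24, 136, 112911, 0, 0, 0, 0, 0, 0⟩)))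
    (.s2
    (.leaf (.box ⟨381, 0, -2978, 6, -16, 716, 761614, 0, 0, 0, 0, 0, 0⟩ ⟨0, 0, 0, 0, 0, 0, 259579, 0, 0, 0, 0, 0, 0⟩ ⟨0, 0, 0, 0, 0, 0, 259579, 0, 0, 0, 0, 0, 0⟩ ⟨0, 0, 0, 0, 0, 0, 156451, 0, 0, 0, 0, 0, 0⟩ ⟨0, 0, 0, 0, 0, 0, 156451, 0, 0, 0, 0, 0, 0⟩ ⟨74, -1, -529, 6, -17, 112, 111967, 0, 0, 0, 0, 0, 0⟩))
    (.leaf (.box ⟨529, -1, -3992, 6, -23, 930, 737506, 0, 0, 0, 0, 0, 0⟩ ⟨0, 0, 0, 0, 0, 0, 255549, 0, 0, 0, 0, 0, 0⟩ ⟨0, 0, 0, 0, 0, 0, 255549, 0, 0, 0, 0, 0, 0⟩ ⟨0, 0, 0, 0, 0, 0, 154551, 0, 0, 0, 0, 0, 0⟩ ⟨0, 0, 0, 0, 0, 0, 154551, 0, 0, 0, 0, 0, 0⟩ ⟨93, -1, -653, 6, -21, 131, 110771, 0, 0, 0, 0, 0, 0⟩))))))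
    (.s0
    (.leaf (.box ⟨268, -2, -1806, 6, -11, 367, 418067, 0, 0, 0, 0, 0, 0⟩ ⟨0, 0, 0, 0, 0, 0, 205950, 0, 0, 0, 0, 0, 0⟩ ⟨0, 0, 0, 0, 0, 0, 205950, 0, 0, 0, 0, 0, 0⟩ ⟨0, 0, 0, 0, 0, 0, 136629, 0, 0, 0, 0, 0, 0⟩ ⟨0, 0, 0, 0, 0, 0, 136629, 0, 0, 0, 0, 0, 0⟩ ⟨93, -2, -512, 6, -11, 93, 102221, 0, 0, 0, 0, 0, 0⟩))
    (.s3
    (.s1
    (.s2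
    (.leaf (.box ⟨311, -1, -2328, 6, -18, 552, 519275, 0, 0, 0, 0, 0, 0⟩ ⟨154, -1, -1105, 6, -19, 252, 222828, 0, 0, 0, 0, 0, 0⟩ ⟨154, -1, -1105, 6, -19, 252, 222828, 0, 0, 0, 0, 0, 0⟩ ⟨112, -1, -792, 6, -20, 174, 146415, 0, 0, 0, 0, 0, 0⟩ ⟨112, -1, -792, 6, -20, 174, 146415, 0, 0, 0, 0, 0, 0⟩ ⟨85, -1, -564, 6, -17, 119, 114271, 0, 0, 0, 0, 0, 0⟩))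
    (.leaf (.box ⟨312, -1, -2245, 6, -18, 514, 507648, 0, 0, 0, 0, 0, 0⟩ ⟨153, -1, -1097, 6, -20, 240, 218859, 0, 0, 0, 0, 0, 0⟩ ⟨153, -1, -1097, 6, -20, 240, 218859, 0, 0, 0, 0, 0, 0⟩ ⟨99, -2, -657, 6, -17, 137, 144280, 0, 0, 0, 0, 0, 0⟩ ⟨99, -2, -657, 6, -17, 137, 144280, 0, 0, 0, 0, 0, 0⟩ ⟨91, -2, -609, 6, -19, 121, 112940, 0, 0, 0, 0, 0, 0⟩)))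
    (.s2
    (.leaf (.box ⟨268, -1, -2211, 6, -17, 495, 437741, 0, 0, 0, 0, 0, 0⟩ ⟨0, 0, 0, 0, 0, 0, 219653, 0, 0, 0, 0, 0, 0⟩ ⟨0, 0, 0, 0, 0, 0, 219653, 0, 0, 0, 0, 0, 0⟩ ⟨0, 0, 0, 0, 0, 0, 146610, 0, 0, 0, 0, 0, 0⟩ ⟨0, 0, 0, 0, 0, 0, 146610, 0, 0, 0, 0, 0, 0⟩ ⟨78, -1, -583, 6, -15, 116, 110023, 0, 0, 0, 0, 0, 0⟩))
    (.leaf (.box ⟨269, -2, -2111, 6, -17, 455, 426277, 0, 0, 0, 0, 0, 0⟩ ⟨0, 0, 0, 0, 0, 0, 215918, 0, 0, 0, 0, 0, 0⟩ ⟨0, 0, 0, 0, 0, 0, 215918, 0, 0, 0, 0, 0, 0⟩ ⟨0, 0, 0, 0, 0, 0, 144574, 0, 0, 0, 0, 0, 0⟩ ⟨0, 0, 0, 0, 0, 0, 144574, 0, 0, 0, 0, 0, 0⟩ ⟨88, -2, -655, 6, -17, 123, 108667, 0, 0, 0, 0, 0, 0⟩))))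
    (.leaf (.box ⟨433, -1, -2871, 6, -12, 626, 730773, 0, 0, 0, 0, 0, 0⟩ ⟨0, 0, 0, 0, 0, 0, 255274, 0, 0, 0, 0, 0, 0⟩ ⟨0, 0, 0, 0, 0, 0, 255274, 0, 0, 0, 0, 0, 0⟩ ⟨0, 0, 0, 0, 0, 0, 154648, 0, 0, 0, 0, 0, 0⟩ ⟨0, 0, 0, 0, 0, 0, 154648, 0, 0, 0, 0, 0, 0⟩ ⟨94, -1, -547, 6, -13, 104, 110923, 0, 0, 0, 0, 0, 0⟩))))

/-- A piece of the tree. -/
noncomputable def tree59 : Tree LeafX :=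
  .s1
    (.s0
    (.s2
    (.leaf (.box ⟨377, -2, -1955, 6, -16, 420, 473190, 0, 0, 0, 0, 0, 0⟩ ⟨150, -2, -791, 6, -14, 162, 203887, 0, 0, 0, 0, 0, 0⟩ ⟨150, -2, -791, 6, -14, 162, 203887, 0, 0, 0, 0, 0, 0⟩ ⟨113, -2, -586, 6, -15, 115, 134347, 0, 0, 0, 0, 0, 0⟩ ⟨113, -2, -586, 6, -15, 115, 134347, 0, 0, 0, 0, 0, 0⟩ ⟨100, -2, -512, 7, -15, 96, 104033, 0, 0, 0, 0, 0, 0⟩))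
    (.leaf (.box ⟨342, -2, -1888, 6, -18, 390, 404059, 0, 0, 0, 0, 0, 0⟩ ⟨0, 0, 0, 0, 0, 0, 200143, 0, 0, 0, 0, 0, 0⟩ ⟨0, 0, 0, 0, 0, 0, 200143, 0, 0, 0, 0, 0, 0⟩ ⟨0, 0, 0, 0, 0, 0, 133015, 0, 0, 0, 0, 0, 0⟩ ⟨0, 0, 0, 0, 0, 0, 133015, 0, 0, 0, 0, 0, 0⟩ ⟨98, -2, -512, 6, -16, 91, 99606, 0, 0, 0, 0, 0, 0⟩)))
    (.s3
    (.s2
    (.leaf (.box ⟨397, -1, -2000, 6, -22, 491, 502445, 0, 0, 0, 0, 0, 0⟩ ⟨161, -1, -787, 6, -19, 184, 216531, 0, 0, 0, 0, 0, 0⟩ ⟨161, -1, -787, 6, -19, 184, 216531, 0, 0, 0, 0, 0, 0⟩ ⟨113, -1, -547, 6, -18, 121, 142900, 0, 0, 0, 0, 0, 0⟩ ⟨113, -1, -547, 6, -18, 121, 142900, 0, 0, 0, 0, 0, 0⟩ ⟨105, -1, -512, 7, -21, 108, 112017, 0, 0, 0, 0, 0, 0⟩))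
    (.leaf (.box ⟨274, -2, -1402, 6, -18, 328, 418745, 0, 0, 0, 0, 0, 0⟩ ⟨0, 0, 0, 0, 0, 0, 212508, 0, 0, 0, 0, 0, 0⟩ ⟨0, 0, 0, 0, 0, 0, 212508, 0, 0, 0, 0, 0, 0⟩ ⟨0, 0, 0, 0, 0, 0, 142383, 0, 0, 0, 0, 0, 0⟩ ⟨0, 0, 0, 0, 0, 0, 142383, 0, 0, 0, 0, 0, 0⟩ ⟨107, -2, -512, 8, -21, 102, 107055, 0, 0, 0, 0, 0, 0⟩)))
    (.s0
    (.leaf (.box ⟨597, -1, -3719, 6, -23, 822, 710627, 0, 0, 0, 0, 0, 0⟩ ⟨0, 0, 0, 0, 0, 0, 251369, 0, 0, 0, 0, 0, 0⟩ ⟨0, 0, 0, 0, 0, 0, 251369, 0, 0, 0, 0, 0, 0⟩ ⟨0, 0, 0, 0, 0, 0, 152690, 0, 0, 0, 0, 0, 0⟩ ⟨0, 0, 0, 0, 0, 0, 152690, 0, 0, 0, 0, 0, 0⟩ ⟨114, -1, -666, 6, -21, 125, 109646, 0, 0, 0, 0, 0, 0⟩))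
    (.s2
    (.leaf (.box ⟨589, -1, -3860, 6, -26, 919, 745769, 0, 0, 0, 0, 0, 0⟩ ⟨0, 0, 0, 0, 0, 0, 262005, 0, 0, 0, 0, 0, 0⟩ ⟨0, 0, 0, 0, 0, 0, 262005, 0, 0, 0, 0, 0, 0⟩ ⟨0, 0, 0, 0, 0, 0, 158918, 0, 0, 0, 0, 0, 0⟩ ⟨0, 0, 0, 0, 0, 0, 158918, 0, 0, 0, 0, 0, 0⟩ ⟨96, -1, -606, 6, -22, 122, 114046, 0, 0, 0, 0, 0, 0⟩))
    (.leaf (.box ⟨389, -1, -2523, 6, -17, 574, 738829, 0, 0, 0, 0, 0, 0⟩ ⟨0, 0, 0, 0, 0, 0, 261274, 0, 0, 0, 0, 0, 0⟩ ⟨0, 0, 0, 0, 0, 0, 261274, 0, 0, 0, 0, 0, 0⟩ ⟨0, 0, 0, 0, 0, 0, 158697, 0, 0, 0, 0, 0, 0⟩ ⟨0, 0, 0, 0, 0, 0, 158697, 0, 0, 0, 0, 0, 0⟩ ⟨104, -1, -689, 6, -24, 132, 113957, 0, 0, 0, 0, 0, 0⟩))))))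
    (.s0
    (.leaf (.box ⟨329, -3, -2194, 6, -16, 415, 400980, 0, 0, 0, 0, 0, 0⟩ ⟨0, 0, 0, 0, 0, 0, 199950, 0, 0, 0, 0, 0, 0⟩ ⟨0, 0, 0, 0, 0, 0, 199950, 0, 0, 0, 0, 0, 0⟩ ⟨0, 0, 0, 0, 0, 0, 133180, 0, 0, 0, 0, 0, 0⟩ ⟨0, 0, 0, 0, 0, 0, 133180, 0, 0, 0, 0, 0, 0⟩ ⟨91, -3, -556, 6, -12, 91, 99840, 0, 0, 0, 0, 0, 0⟩))
    (.s3
    (.s1
    (.leaf (.box ⟨332, -2, -2057, 6, -18, 440, 494397, 0, 0, 0, 0, 0, 0⟩ ⟨170, -2, -1059, 6, -20, 215, 214662, 0, 0, 0, 0, 0, 0⟩ ⟨170, -2, -1059, 6, -20, 215, 214662, 0, 0, 0, 0, 0, 0⟩ ⟨148, -2, -892, 6, -23, 172, 142113, 0, 0, 0, 0, 0, 0⟩ ⟨148, -2, -892, 6, -23, 172, 142113, 0, 0, 0, 0, 0, 0⟩ ⟨119, -2, -719, 6, -22, 132, 111752, 0, 0, 0, 0, 0,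 0⟩))
    (.leaf (.box ⟨285, -3, -1946, 6, -17, 392, 413157, 0, 0, 0, 0, 0, 0⟩ ⟨0, 0, 0, 0, 0, 0, 212113, 0, 0, 0, 0, 0, 0⟩ ⟨0, 0, 0, 0, 0, 0, 212113, 0, 0, 0, 0, 0, 0⟩ ⟨0, 0, 0, 0, 0, 0, 142683, 0, 0, 0, 0, 0, 0⟩ ⟨0, 0, 0, 0, 0, 0, 142683, 0, 0, 0, 0, 0, 0⟩ ⟨101, -3, -645, 6, -17, 111, 107496, 0, 0, 0, 0, 0, 0⟩)))
    (.leaf (.box ⟨398, -2, -2497, 6, -13, 503, 702047, 0, 0, 0, 0, 0, 0⟩ ⟨0, 0, 0, 0, 0, 0, 251273, 0, 0, 0, 0, 0, 0⟩ ⟨0, 0, 0, 0, 0, 0, 251273, 0, 0, 0, 0, 0, 0⟩ ⟨0, 0, 0, 0, 0, 0, 153021, 0, 0, 0, 0, 0, 0⟩ ⟨0, 0, 0, 0, 0, 0, 153021, 0, 0, 0, 0, 0, 0⟩ ⟨94, -2, -563, 6, -14, 96, 110006, 0, 0, 0, 0, 0, 0⟩))))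

/-- A piece of the tree. -/
noncomputable def tree60 : Tree LeafX :=
  .s0
    (.leaf (.box ⟨167, -5, -1030, 6, -4, 186, 397232, 0, 0, 0, 0, 0, 0⟩ ⟨0, 0, 0, 0, 0, 0, 201148, 0, 0, 0, 0, 0, 0⟩ ⟨0, 0, 0, 0, 0, 0, 201148, 0, 0, 0, 0, 0, 0⟩ ⟨0, 0, 0, 0, 0, 0, 134671, 0, 0, 0, 0, 0, 0⟩ ⟨0, 0, 0, 0, 0, 0, 134671, 0, 0, 0, 0, 0, 0⟩ ⟨108, -6, -512, 9, -5, 79, 101219, 0, 0, 0, 0, 0, 0⟩))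
    (.s0
    (.s2
    (.leaf (.box ⟨193, -3, -1410, 6, -5, 274, 435324, 0, 0, 0, 0, 0, 0⟩ ⟨0, 0, 0, 0, 0, 0, 217680, 0, 0, 0, 0, 0, 0⟩ ⟨0, 0, 0, 0, 0, 0, 217680, 0, 0, 0, 0, 0, 0⟩ ⟨0, 0, 0, 0, 0, 0, 145124, 0, 0, 0, 0, 0, 0⟩ ⟨0, 0, 0, 0, 0, 0, 145124, 0, 0, 0, 0, 0, 0⟩ ⟨90, -4, -512, 8, -5, 86, 108844, 0, 0, 0, 0, 0, 0⟩))
    (.leaf (.box ⟨243, -5, -1701, 6, -9, 305, 422205, 0, 0, 0, 0, 0, 0⟩ ⟨0, 0, 0, 0, 0, 0, 214170, 0, 0, 0, 0, 0, 0⟩ ⟨0, 0, 0, 0, 0, 0, 214170, 0, 0, 0, 0, 0, 0⟩ ⟨0, 0, 0, 0, 0, 0, 143475, 0, 0, 0, 0, 0, 0⟩ ⟨0, 0, 0, 0, 0, 0, 143475, 0, 0, 0, 0, 0, 0⟩ ⟨85, -5, -512, 7, -7, 77, 107868, 0, 0, 0, 0, 0, 0⟩)))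
    (.s1
    (.s2
    (.leaf (.box ⟨218, -2, -1602, 6, -9, 333, 448648, 0, 0, 0, 0, 0, 0⟩ ⟨0, 0, 0, 0, 0, 0, 224424, 0, 0, 0, 0, 0, 0⟩ ⟨0, 0, 0, 0, 0, 0, 224424, 0, 0, 0, 0, 0, 0⟩ ⟨0, 0, 0, 0, 0, 0, 149639, 0, 0, 0, 0, 0, 0⟩ ⟨0, 0, 0, 0, 0, 0, 149639, 0, 0, 0, 0, 0, 0⟩ ⟨84, -2, -512, 6, -9, 92, 112237, 0, 0, 0, 0, 0, 0⟩))
    (.leaf (.box ⟨295, -4, -2141, 6, -15, 408, 438639, 0, 0, 0, 0, 0, 0⟩ ⟨0, 0, 0, 0, 0, 0, 222039, 0, 0, 0, 0, 0, 0⟩ ⟨0, 0, 0, 0, 0, 0, 222039, 0, 0, 0, 0, 0, 0⟩ ⟨0, 0, 0, 0, 0, 0, 148641, 0, 0, 0, 0, 0, 0⟩ ⟨0, 0, 0, 0, 0, 0, 148641, 0, 0, 0, 0, 0, 0⟩ ⟨92, -4, -578, 6, -11, 93, 111712, 0, 0, 0, 0, 0, 0⟩)))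
    (.leaf (.box ⟨171, -4, -1162, 6, -5, 218, 437385, 0, 0, 0, 0, 0, 0⟩ ⟨0, 0, 0, 0, 0, 0, 224470, 0, 0, 0, 0, 0, 0⟩ ⟨0, 0, 0, 0, 0, 0, 224470, 0, 0, 0, 0, 0, 0⟩ ⟨0, 0, 0, 0, 0, 0, 150976, 0, 0, 0, 0, 0, 0⟩ ⟨0, 0, 0, 0, 0, 0, 150976, 0, 0, 0, 0, 0, 0⟩ ⟨97, -5, -512, 7, -5, 81, 113737, 0, 0, 0, 0, 0, 0⟩))))

/-- A piece of the tree. -/
noncomputable def tree61 : Tree LeafX :=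
  .s0
    (.s1
    (.s2
    (.s3
    (.leaf (.box ⟨349, 0, -1724, 6, -27, 552, 556192, 0, 0, 0, 0, 0, 0⟩ ⟨167, 0, -791, 6, -28, 242, 237747, 0, 0, 0, 0, 0, 0⟩ ⟨167, 0, -791, 6, -28, 242, 237747, 0, 0, 0, 0, 0, 0⟩ ⟨114, 0, -524, 6, -27, 153, 155826, 0, 0, 0, 0, 0, 0⟩ ⟨114, 0, -524, 6, -27, 153, 155826, 0, 0, 0, 0, 0, 0⟩ ⟨114, 0, -512, 7, -32, 143, 122146, 0, 0, 0, 0, 0, 0⟩))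
    (.leaf (.box ⟨425, 0, -2223, 6, -26, 680, 690327, 0, 0, 0, 0, 0, 0⟩ ⟨170, 0, -861, 6, -26, 251, 255293, 0, 0, 0, 0, 0, 0⟩ ⟨170, 0, -861, 6, -26, 251, 255293, 0, 0, 0, 0, 0, 0⟩ ⟨117, 0, -586, 6, -26, 162, 161311, 0, 0, 0, 0, 0, 0⟩ ⟨117, 0, -586, 6, -26, 162, 161311, 0, 0, 0, 0, 0, 0⟩ ⟨105, 0, -512, 7, -29, 135, 121925, 0, 0, 0, 0, 0, 0⟩)))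
    (.leaf (.box ⟨307, -1, -1358, 6, -24, 387, 461522, 0, 0, 0, 0, 0, 0⟩ ⟨0, 0, 0, 0, 0, 0, 231979, 0, 0, 0, 0, 0, 0⟩ ⟨0, 0, 0, 0, 0, 0, 231979, 0, 0, 0, 0, 0, 0⟩ ⟨0, 0, 0, 0, 0, 0, 154925, 0, 0, 0, 0, 0, 0⟩ ⟨0, 0, 0, 0, 0, 0, 154925, 0, 0, 0, 0, 0, 0⟩ ⟨115, -1, -512, 8, -29, 123, 116296, 0, 0, 0, 0, 0, 0⟩)))
    (.s2
    (.s0
    (.leaf (.box ⟨346, 0, -2249, 6, -26, 620, 548636, 0, 0, 0, 0, 0, 0⟩ ⟨166, 0, -1004, 6, -26, 264, 235394, 0, 0, 0, 0, 0, 0⟩ ⟨166, 0, -1004, 6, -26, 264, 235394, 0, 0, 0, 0, 0, 0⟩ ⟨121, 0, -695, 6, -26, 175, 154748, 0, 0, 0, 0, 0, 0⟩ ⟨121, 0, -695, 6, -26, 175, 154748, 0, 0, 0, 0, 0, 0⟩ ⟨101, -1, -536, 6, -24, 128, 121012, 0, 0, 0, 0, 0, 0⟩))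
    (.leaf (.box ⟨317, 0, -1881, 6, -25, 557, 572114, 0, 0, 0, 0, 0, 0⟩ ⟨155, 0, -862, 6, -25, 243, 245249, 0, 0, 0, 0, 0, 0⟩ ⟨155, 0, -862, 6, -25, 243, 245249, 0, 0, 0, 0, 0, 0⟩ ⟨116, 0, -634, 6, -27, 170, 161110, 0, 0, 0, 0, 0, 0⟩ ⟨116, 0, -634, 6, -27, 170, 161110, 0, 0, 0, 0, 0, 0⟩ ⟨105, 0, -541, 6, -28, 138, 125900, 0, 0, 0, 0, 0, 0⟩)))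
    (.leaf (.box ⟨427, -1, -2109, 6, -27, 548, 539609, 0, 0, 0, 0, 0, 0⟩ ⟨169, -1, -829, 6, -23, 204, 232988, 0, 0, 0, 0, 0, 0⟩ ⟨169, -1, -829, 6, -23, 204, 232988, 0, 0, 0, 0, 0, 0⟩ ⟨123, -1, -602, 6, -23, 140, 153849, 0, 0, 0, 0, 0, 0⟩ ⟨123, -1, -602, 6, -23, 140, 153849, 0, 0, 0, 0, 0, 0⟩ ⟨107, -1, -512, 6, -24, 113, 120698, 0, 0, 0, 0, 0, 0⟩))))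
    (.s1
    (.leaf (.box ⟨351, 0, -1076, 6, -21, 370, 603096, 0, 0, 0, 0, 0, 0⟩ ⟨163, 0, -512, 6, -22, 166, 258580, 0, 0, 0, 0, 0, 0⟩ ⟨163, 0, -512, 6, -22, 166, 258580, 0, 0, 0, 0, 0, 0⟩ ⟨168, 0, -512, 8, -31, 157, 169447, 0, 0, 0, 0, 0, 0⟩ ⟨168, 0, -512, 8, -31, 157, 169447, 0, 0, 0, 0, 0, 0⟩ ⟨170, 0, -512, 10, -38, 148, 132063, 0, 0, 0, 0, 0, 0⟩))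
    (.s2
    (.leaf (.box ⟨264, 0, -1183, 6, -23, 391, 506771, 0, 0, 0, 0, 0, 0⟩ ⟨0, 0, 0, 0, 0, 0, 252921, 0, 0, 0, 0, 0, 0⟩ ⟨0, 0, 0, 0, 0, 0, 252921, 0, 0, 0, 0, 0, 0⟩ ⟨0, 0, 0, 0, 0, 0, 168511, 0, 0, 0, 0, 0, 0⟩ ⟨0, 0, 0, 0, 0, 0, 168511, 0, 0, 0, 0, 0, 0⟩ ⟨123, 0, -512, 9, -34, 144, 126344, 0, 0, 0, 0, 0, 0⟩))
    (.leaf (.box ⟨292, -1, -1293, 6, -25, 384, 502589, 0, 0, 0, 0, 0, 0⟩ ⟨0, 0, 0, 0, 0, 0, 252188, 0, 0, 0, 0, 0, 0⟩ ⟨0, 0, 0, 0, 0, 0, 252188, 0, 0, 0, 0, 0, 0⟩ ⟨0, 0, 0, 0, 0, 0, 168325, 0, 0, 0, 0, 0, 0⟩ ⟨0, 0, 0, 0, 0, 0, 168325, 0, 0, 0, 0, 0, 0⟩ ⟨118, -1, -512, 8, -32, 127, 126318, 0, 0, 0, 0, 0, 0⟩))))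

/-- A piece of the tree. -/
noncomputable def tree62 : Tree LeafX :=
  .s0
    (.s1
    (.s2
    (.s0
    (.s2
    (.leaf (.box ⟨412, 0, -3277, 6, -25, 925, 835434, 0, 0, 0, 0, 0, 0⟩ ⟨0, 0, 0, 0, 0, 0, 279460, 0, 0, 0, 0, 0, 0⟩ ⟨0, 0, 0, 0, 0, 0, 279460, 0, 0, 0, 0, 0, 0⟩ ⟨0, 0, 0, 0, 0, 0, 167794, 0, 0, 0, 0, 0, 0⟩ ⟨0, 0, 0, 0, 0, 0, 167794, 0, 0, 0, 0, 0, 0⟩ ⟨88, 0, -642, 6, -29, 157, 119889, 0, 0, 0, 0, 0, 0⟩))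
    (.leaf (.box ⟨513, 0, -3971, 6, -31, 1085, 809985, 0, 0, 0, 0, 0, 0⟩ ⟨0, 0, 0, 0, 0, 0, 276161, 0, 0, 0, 0, 0, 0⟩ ⟨0, 0, 0, 0, 0, 0, 276161, 0, 0, 0, 0, 0, 0⟩ ⟨0, 0, 0, 0, 0, 0, 166457, 0, 0, 0, 0, 0, 0⟩ ⟨0, 0, 0, 0, 0, 0, 166457, 0, 0, 0, 0, 0, 0⟩ ⟨97, 0, -691, 6, -31, 160, 119132, 0, 0, 0, 0, 0, 0⟩)))
    (.s2
    (.leaf (.box ⟨450, 0, -3357, 6, -29, 1013, 875422, 0, 0, 0, 0, 0, 0⟩ ⟨0, 0, 0, 0, 0, 0, 290963, 0, 0, 0, 0, 0, 0⟩ ⟨0, 0, 0, 0, 0, 0, 290963, 0, 0, 0, 0, 0, 0⟩ ⟨0, 0, 0, 0, 0, 0, 174477, 0, 0, 0, 0, 0, 0⟩ ⟨0, 0, 0, 0, 0, 0, 174477, 0, 0, 0, 0, 0, 0⟩ ⟨83, 0, -555, 6, -29, 144, 124595, 0, 0, 0, 0, 0, 0⟩))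
    (.leaf (.box ⟨503, 0, -3638, 6, -32, 1061, 849690, 0, 0, 0, 0, 0, 0⟩ ⟨0, 0, 0, 0, 0, 0, 288100, 0, 0, 0, 0, 0, 0⟩ ⟨0, 0, 0, 0, 0, 0, 288100, 0, 0, 0, 0, 0, 0⟩ ⟨0, 0, 0, 0, 0, 0, 173457, 0, 0, 0, 0, 0, 0⟩ ⟨0, 0, 0, 0, 0, 0, 173457, 0, 0, 0, 0, 0, 0⟩ ⟨91, 0, -613, 6, -31, 150, 124081, 0, 0, 0, 0, 0, 0⟩))))
    (.s3
    (.leaf (.box ⟨541, -1, -2962, 6, -27, 795, 780240, 0, 0, 0, 0, 0, 0⟩ ⟨0, 0, 0, 0, 0, 0, 273916, 0, 0, 0, 0, 0, 0⟩ ⟨0, 0, 0, 0, 0, 0, 273916, 0, 0, 0, 0, 0, 0⟩ ⟨0, 0, 0, 0, 0, 0, 166117, 0, 0, 0, 0, 0, 0⟩ ⟨0, 0, 0, 0, 0, 0, 166117, 0, 0, 0, 0, 0, 0⟩ ⟨95, -1, -512, 7, -25, 114, 119204, 0, 0, 0, 0, 0, 0⟩))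
    (.leaf (.box ⟨819, -1, -4737, 6, -27, 1227, 1154983, 0, 0, 0, 0, 0, 0⟩ ⟨0, 0, 0, 0, 0, 0, 297998, 0, 0, 0, 0, 0, 0⟩ ⟨0, 0, 0, 0, 0, 0, 297998, 0, 0, 0, 0, 0, 0⟩ ⟨0, 0, 0, 0, 0, 0, 171068, 0, 0, 0, 0, 0, 0⟩ ⟨0, 0, 0, 0, 0, 0, 171068, 0, 0, 0, 0, 0, 0⟩ ⟨86, -1, -521, 6, -23, 112, 119968, 0, 0, 0, 0, 0, 0⟩))))
    (.s2
    (.s2
    (.s0
    (.leaf (.box ⟨356, 0, -3155, 6, -20, 827, 816233, 0, 0, 0, 0, 0, 0⟩ ⟨0, 0, 0, 0, 0, 0, 277221, 0, 0, 0, 0, 0, 0⟩ ⟨0, 0, 0, 0, 0, 0, 277221, 0, 0, 0, 0, 0, 0⟩ ⟨0, 0, 0, 0, 0, 0, 166964, 0, 0, 0, 0, 0, 0⟩ ⟨0, 0, 0, 0, 0, 0, 166964, 0, 0, 0, 0, 0, 0⟩ ⟨87, 0, -685, 6, -26, 156, 119454, 0, 0, 0, 0, 0, 0⟩))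
    (.leaf (.box ⟨365, 0, -2994, 6, -22, 836, 852277, 0, 0, 0, 0, 0, 0⟩ ⟨0, 0, 0, 0, 0, 0, 288055, 0, 0, 0, 0, 0, 0⟩ ⟨0, 0, 0, 0, 0, 0, 288055, 0, 0, 0, 0, 0, 0⟩ ⟨0, 0, 0, 0, 0, 0, 173317, 0, 0, 0, 0, 0, 0⟩ ⟨0, 0, 0, 0, 0, 0, 173317, 0, 0, 0, 0, 0, 0⟩ ⟨89, 0, -656, 6, -28, 157, 123946, 0, 0, 0, 0, 0, 0⟩)))
    (.s2
    (.leaf (.box ⟨384, -1, -2707, 6, -20, 715, 802667, 0, 0, 0, 0, 0, 0⟩ ⟨0, 0, 0, 0, 0, 0, 275449, 0, 0, 0, 0, 0, 0⟩ ⟨0, 0, 0, 0, 0, 0, 275449, 0, 0, 0, 0, 0, 0⟩ ⟨0, 0, 0, 0, 0, 0, 166251, 0, 0, 0, 0, 0, 0⟩ ⟨0, 0, 0, 0, 0, 0, 166251, 0, 0, 0, 0, 0, 0⟩ ⟨76, -1, -512, 7, -21, 115, 119053, 0, 0, 0, 0, 0, 0⟩))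
    (.leaf (.box ⟨438, -1, -3063, 6, -23, 793, 791321, 0, 0, 0, 0, 0, 0⟩ ⟨0, 0, 0, 0, 0, 0, 274075, 0, 0, 0, 0, 0, 0⟩ ⟨0, 0, 0, 0, 0, 0, 274075, 0, 0, 0, 0, 0, 0⟩ ⟨0, 0, 0, 0, 0, 0, 165740, 0, 0, 0, 0, 0, 0⟩ ⟨0, 0, 0, 0, 0, 0, 165740, 0, 0, 0, 0, 0, 0⟩ ⟨75, -1, -512, 7, -21, 112, 118786, 0, 0, 0, 0, 0, 0⟩))))
    (.s2
    (.leaf (.box ⟨355, -1, -2371, 6, -16, 594, 883722, 0, 0, 0, 0, 0, 0⟩ ⟨162, -1, -1054, 6, -21, 248, 271371, 0, 0, 0, 0, 0, 0⟩ ⟨162, -1, -1054, 6, -21, 248, 271371, 0, 0, 0, 0, 0, 0⟩ ⟨123, -1, -799, 6, -25, 177, 166081, 0, 0, 0, 0, 0, 0⟩ ⟨123, -1, -799, 6, -25, 177, 166081, 0, 0, 0, 0, 0, 0⟩ ⟨85, -1, -560, 6, -22, 117, 120893, 0, 0, 0, 0, 0, 0⟩))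
    (.leaf (.box ⟨508, -1, -3466, 6, -26, 825, 772286, 0, 0, 0, 0, 0, 0⟩ ⟨0, 0, 0, 0, 0, 0, 272286, 0, 0, 0, 0, 0, 0⟩ ⟨0, 0, 0, 0, 0, 0, 272286, 0, 0, 0, 0, 0, 0⟩ ⟨0, 0, 0, 0, 0, 0, 165279, 0, 0, 0, 0, 0, 0⟩ ⟨0, 0, 0, 0, 0, 0, 165279, 0, 0, 0, 0, 0, 0⟩ ⟨92, -1, -621, 6, -24, 123, 118650, 0, 0, 0, 0, 0, 0⟩)))))
    (.s0
    (.s2
    (.s1
    (.leaf (.box ⟨447, 0, -2580, 6, -26, 819, 898591, 0, 0, 0, 0, 0, 0⟩ ⟨0, 0, 0, 0, 0, 0, 301664, 0, 0, 0, 0, 0, 0⟩ ⟨0, 0, 0, 0, 0, 0, 301664, 0, 0, 0, 0, 0, 0⟩ ⟨0, 0, 0, 0, 0, 0, 181257, 0, 0, 0, 0, 0, 0⟩ ⟨0, 0, 0, 0, 0, 0, 181257, 0, 0, 0, 0, 0, 0⟩ ⟨100, 0, -512, 7, -30, 137, 129548, 0, 0, 0, 0, 0, 0⟩))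
    (.s2
    (.leaf (.box ⟨368, 0, -2783, 6, -23, 829, 894684, 0, 0, 0, 0, 0, 0⟩ ⟨0, 0, 0, 0, 0, 0, 300413, 0, 0, 0, 0, 0, 0⟩ ⟨0, 0, 0, 0, 0, 0, 300413, 0, 0, 0, 0, 0, 0⟩ ⟨0, 0, 0, 0, 0, 0, 180512, 0, 0, 0, 0, 0, 0⟩ ⟨0, 0, 0, 0, 0, 0, 180512, 0, 0, 0, 0, 0, 0⟩ ⟨84, 0, -563, 6, -28, 143, 129018, 0, 0, 0, 0, 0, 0⟩))
    (.leaf (.box ⟨460, 0, -3465, 6, -30, 995, 872716, 0, 0, 0, 0, 0, 0⟩ ⟨0, 0, 0, 0, 0, 0, 298247, 0, 0, 0, 0, 0, 0⟩ ⟨0, 0, 0, 0, 0, 0, 298247, 0, 0, 0, 0, 0, 0⟩ ⟨0, 0, 0, 0, 0, 0, 179856, 0, 0, 0, 0, 0, 0⟩ ⟨0, 0, 0, 0, 0, 0, 179856, 0, 0, 0, 0, 0, 0⟩ ⟨93, 0, -634, 6, -31, 152, 128748, 0, 0, 0, 0, 0, 0⟩))))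
    (.s2
    (.leaf (.box ⟨440, -1, -2433, 6, -21, 694, 970402, 0, 0, 0, 0, 0, 0⟩ ⟨160, -1, -841, 6, -22, 225, 296985, 0, 0, 0, 0, 0, 0⟩ ⟨160, -1, -841, 6, -22, 225, 296985, 0, 0, 0, 0, 0, 0⟩ ⟨108, -1, -556, 6, -22, 139, 180757, 0, 0, 0, 0, 0, 0⟩ ⟨108, -1, -556, 6, -22, 139, 180757, 0, 0, 0, 0, 0, 0⟩ ⟨96, -1, -512, 7, -26, 120, 131139, 0, 0, 0, 0, 0, 0⟩))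
    (.leaf (.box ⟨492, -1, -2686, 6, -25, 724, 851692, 0, 0, 0, 0, 0, 0⟩ ⟨0, 0, 0, 0, 0, 0, 297995, 0, 0, 0, 0, 0, 0⟩ ⟨0, 0, 0, 0, 0, 0, 297995, 0, 0, 0, 0, 0, 0⟩ ⟨0, 0, 0, 0, 0, 0, 180591, 0, 0, 0, 0, 0, 0⟩ ⟨0, 0, 0, 0, 0, 0, 180591, 0, 0, 0, 0, 0, 0⟩ ⟨93, -1, -512, 7, -25, 113, 129550, 0, 0, 0, 0, 0, 0⟩))))
    (.s1
    (.leaf (.box ⟨558, 0, -2256, 6, -25, 729, 950751, 0, 0, 0, 0, 0, 0⟩ ⟨0, 0, 0, 0, 0, 0, 315819, 0, 0, 0, 0, 0, 0⟩ ⟨0, 0, 0, 0, 0, 0, 315819, 0, 0, 0, 0, 0, 0⟩ ⟨0, 0, 0, 0, 0, 0, 189360, 0, 0, 0, 0, 0, 0⟩ ⟨0, 0, 0, 0, 0, 0, 189360, 0, 0, 0, 0, 0, 0⟩ ⟨135, 0, -512, 8, -33, 136, 135217, 0, 0, 0, 0, 0, 0⟩))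
    (.s2
    (.leaf (.box ⟨440, 0, -2694, 6, -26, 841, 930226, 0, 0, 0, 0, 0, 0⟩ ⟨0, 0, 0, 0, 0, 0, 312794, 0, 0, 0, 0, 0, 0⟩ ⟨0, 0, 0, 0, 0, 0, 312794, 0, 0, 0, 0, 0, 0⟩ ⟨0, 0, 0, 0, 0, 0, 188006, 0, 0, 0, 0, 0, 0⟩ ⟨0, 0, 0, 0, 0, 0, 188006, 0, 0, 0, 0, 0, 0⟩ ⟨94, 0, -512, 6, -28, 133, 134391, 0, 0, 0, 0, 0, 0⟩))
    (.leaf (.box ⟨537, -1, -3146, 6, -30, 889, 913509, 0, 0, 0, 0, 0, 0⟩ ⟨0, 0, 0, 0, 0, 0, 312554, 0, 0, 0, 0, 0, 0⟩ ⟨0, 0, 0, 0, 0, 0, 312554, 0, 0, 0, 0, 0, 0⟩ ⟨0, 0, 0, 0, 0, 0, 188529, 0, 0, 0, 0, 0, 0⟩ ⟨0, 0, 0, 0, 0, 0, 188529, 0, 0, 0, 0, 0, 0⟩ ⟨94, -1, -522, 6, -27, 120, 134971, 0, 0, 0, 0, 0, 0⟩)))))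

/-- A piece of the tree. -/
noncomputable def tree63 : Tree LeafX :=
  .s2
    (.s3
    (.s1
    (.s2
    (.leaf (.box ⟨257, 0, -1725, 6, -21, 470, 474791, 0, 0, 0, 0, 0, 0⟩ ⟨0, 0, 0, 0, 0, 0, 236117, 0, 0, 0, 0, 0, 0⟩ ⟨0, 0, 0, 0, 0, 0, 236117, 0, 0, 0, 0, 0, 0⟩ ⟨0, 0, 0, 0, 0, 0, 157129, 0, 0, 0, 0, 0, 0⟩ ⟨0, 0, 0, 0, 0, 0, 157129, 0, 0, 0, 0, 0, 0⟩ ⟨80, 0, -512, 7, -21, 123, 117741, 0, 0, 0, 0, 0, 0⟩))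
    (.leaf (.box ⟨290, -1, -1963, 6, -21, 526, 553668, 0, 0, 0, 0, 0, 0⟩ ⟨127, -1, -845, 6, -20, 216, 237305, 0, 0, 0, 0, 0, 0⟩ ⟨127, -1, -845, 6, -20, 216, 237305, 0, 0, 0, 0, 0, 0⟩ ⟨87, -1, -571, 6, -19, 139, 155912, 0, 0, 0, 0, 0, 0⟩ ⟨87, -1, -571, 6, -19, 139, 155912, 0, 0, 0, 0, 0, 0⟩ ⟨82, -1, -512, 7, -21, 119, 121763, 0, 0, 0, 0, 0, 0⟩)))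
    (.s2
    (.leaf (.box ⟨237, -1, -1753, 6, -15, 447, 557068, 0, 0, 0, 0, 0, 0⟩ ⟨129, -1, -957, 6, -18, 234, 239018, 0, 0, 0, 0, 0, 0⟩ ⟨129, -1, -957, 6, -18, 234, 239018, 0, 0, 0, 0, 0, 0⟩ ⟨87, -1, -633, 6, -17, 148, 156958, 0, 0, 0, 0, 0, 0⟩ ⟨87, -1, -633, 6, -17, 148, 156958, 0, 0, 0, 0, 0, 0⟩ ⟨72, -1, -512, 6, -17, 115, 122420, 0, 0, 0, 0, 0, 0⟩))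
    (.leaf (.box ⟨245, -1, -1805, 6, -16, 452, 550248, 0, 0, 0, 0, 0, 0⟩ ⟨130, -1, -946, 6, -18, 226, 236811, 0, 0, 0, 0, 0, 0⟩ ⟨130, -1, -946, 6, -18, 226, 236811, 0, 0, 0, 0, 0, 0⟩ ⟨91, -1, -661, 6, -18, 151, 155853, 0, 0, 0, 0, 0, 0⟩ ⟨91, -1, -661, 6, -18, 151, 155853, 0, 0, 0, 0, 0, 0⟩ ⟨75, -1, -528, 6, -18, 115, 121804, 0, 0, 0, 0, 0, 0⟩))))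
    (.s0
    (.leaf (.box ⟨305, -1, -2370, 6, -12, 567, 801882, 0, 0, 0, 0, 0, 0⟩ ⟨0, 0, 0, 0, 0, 0, 275881, 0, 0, 0, 0, 0, 0⟩ ⟨0, 0, 0, 0, 0, 0, 275881, 0, 0, 0, 0, 0, 0⟩ ⟨0, 0, 0, 0, 0, 0, 166599, 0, 0, 0, 0, 0, 0⟩ ⟨0, 0, 0, 0, 0, 0, 166599, 0, 0, 0, 0, 0, 0⟩ ⟨80, -1, -568, 6, -16, 118, 119330, 0, 0, 0, 0, 0, 0⟩))
    (.s1
    (.leaf (.box ⟨389, 0, -3481, 6, -22, 908, 835991, 0, 0, 0, 0, 0, 0⟩ ⟨0, 0, 0, 0, 0, 0, 286402, 0, 0, 0, 0, 0, 0⟩ ⟨0, 0, 0, 0, 0, 0, 286402, 0, 0, 0, 0, 0, 0⟩ ⟨0, 0, 0, 0, 0, 0, 172801, 0, 0, 0, 0, 0, 0⟩ ⟨0, 0, 0, 0, 0, 0, 172801, 0, 0, 0, 0, 0, 0⟩ ⟨83, 0, -674, 6, -24, 151, 123725, 0, 0, 0, 0, 0, 0⟩))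
    (.leaf (.box ⟨296, -1, -3007, 6, -16, 740, 827555, 0, 0, 0, 0, 0, 0⟩ ⟨0, 0, 0, 0, 0, 0, 285893, 0, 0, 0, 0, 0, 0⟩ ⟨0, 0, 0, 0, 0, 0, 285893, 0, 0, 0, 0, 0, 0⟩ ⟨0, 0, 0, 0, 0, 0, 172794, 0, 0, 0, 0, 0, 0⟩ ⟨0, 0, 0, 0, 0, 0, 172794, 0, 0, 0, 0, 0, 0⟩ ⟨78, -1, -689, 6, -20, 146, 123813, 0, 0, 0, 0, 0, 0⟩)))))
    (.s3
    (.s0
    (.s1
    (.leaf (.box ⟨290, -1, -2354, 6, -28, 591, 457942, 0, 0, 0, 0, 0, 0⟩ ⟨0, 0, 0, 0, 0, 0, 231130, 0, 0, 0, 0, 0, 0⟩ ⟨0, 0, 0, 0, 0, 0, 231130, 0, 0, 0, 0, 0, 0⟩ ⟨0, 0, 0, 0, 0, 0, 154572, 0, 0, 0, 0, 0, 0⟩ ⟨0, 0, 0, 0, 0, 0, 154572, 0, 0, 0, 0, 0, 0⟩ ⟨97, -1, -717, 6, -28, 155, 116112, 0, 0, 0, 0, 0, 0⟩))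
    (.leaf (.box ⟨259, -2, -2280, 6, -23, 536, 455489, 0, 0, 0, 0, 0, 0⟩ ⟨0, 0, 0, 0, 0, 0, 230803, 0, 0, 0, 0, 0, 0⟩ ⟨0, 0, 0, 0, 0, 0, 230803, 0, 0, 0, 0, 0, 0⟩ ⟨0, 0, 0, 0, 0, 0, 154560, 0, 0, 0, 0, 0, 0⟩ ⟨0, 0, 0, 0, 0, 0, 154560, 0, 0, 0, 0, 0, 0⟩ ⟨95, -2, -730, 6, -23, 147, 116181, 0, 0, 0, 0, 0, 0⟩)))
    (.leaf (.box ⟨268, -1, -1686, 6, -18, 437, 560776, 0, 0, 0, 0, 0, 0⟩ ⟨153, -1, -937, 6, -22, 230, 242566, 0, 0, 0, 0, 0, 0⟩ ⟨153, -1, -937, 6, -22, 230, 242566, 0, 0, 0, 0, 0, 0⟩ ⟨111, -1, -651, 6, -21, 152, 160317, 0, 0, 0, 0, 0, 0⟩ ⟨111, -1, -651, 6, -21, 152, 160317, 0, 0, 0, 0, 0, 0⟩ ⟨94, -1, -544, 6, -21, 120, 125687, 0, 0, 0, 0, 0, 0⟩)))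
    (.s0
    (.leaf (.box ⟨336, -1, -2568, 6, -12, 592, 880208, 0, 0, 0, 0, 0, 0⟩ ⟨155, -1, -1170, 6, -17, 256, 271935, 0, 0, 0, 0, 0, 0⟩ ⟨155, -1, -1170, 6, -17, 256, 271935, 0, 0, 0, 0, 0, 0⟩ ⟨117, -1, -830, 6, -18, 172, 166301, 0, 0, 0, 0, 0, 0⟩ ⟨117, -1, -830, 6, -18, 172, 166301, 0, 0, 0, 0, 0, 0⟩ ⟨91, -1, -636, 6, -18, 125, 120979, 0, 0, 0, 0, 0, 0⟩))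
    (.s1
    (.leaf (.box ⟨305, -1, -2666, 6, -18, 670, 813184, 0, 0, 0, 0, 0, 0⟩ ⟨0, 0, 0, 0, 0, 0, 283924, 0, 0, 0, 0, 0, 0⟩ ⟨0, 0, 0, 0, 0, 0, 283924, 0, 0, 0, 0, 0, 0⟩ ⟨0, 0, 0, 0, 0, 0, 171987, 0, 0, 0, 0, 0, 0⟩ ⟨0, 0, 0, 0, 0, 0, 171987, 0, 0, 0, 0, 0, 0⟩ ⟨90, -1, -712, 6, -25, 151, 123354, 0, 0, 0, 0, 0, 0⟩))
    (.leaf (.box ⟨440, -1, -4188, 6, -24, 992, 805628, 0, 0, 0, 0, 0, 0⟩ ⟨0, 0, 0, 0, 0, 0, 283564, 0, 0, 0, 0, 0, 0⟩ ⟨0, 0, 0, 0, 0, 0, 283564, 0, 0, 0, 0, 0, 0⟩ ⟨0, 0, 0, 0, 0, 0, 172064, 0, 0, 0, 0, 0, 0⟩ ⟨0, 0, 0, 0, 0, 0, 172064, 0, 0, 0, 0, 0, 0⟩ ⟨86, -1, -740, 6, -22, 148, 123501, 0, 0, 0, 0, 0, 0⟩)))))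

/-- A piece of the tree. -/
noncomputable def tree64 : Tree LeafX :=
  .s3
    (.s2
    (.s1
    (.leaf (.box ⟨285, -1, -1796, 6, -24, 445, 452022, 0, 0, 0, 0, 0, 0⟩ ⟨0, 0, 0, 0, 0, 0, 229711, 0, 0, 0, 0, 0, 0⟩ ⟨0, 0, 0, 0, 0, 0, 229711, 0, 0, 0, 0, 0, 0⟩ ⟨0, 0, 0, 0, 0, 0, 153981, 0, 0, 0, 0, 0, 0⟩ ⟨0, 0, 0, 0, 0, 0, 153981, 0, 0, 0, 0, 0, 0⟩ ⟨86, -2, -512, 7, -21, 107, 115803, 0, 0, 0, 0, 0, 0⟩))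
    (.leaf (.box ⟨261, -2, -1757, 6, -20, 407, 449413, 0, 0, 0, 0, 0, 0⟩ ⟨0, 0, 0, 0, 0, 0, 229389, 0, 0, 0, 0, 0, 0⟩ ⟨0, 0, 0, 0, 0, 0, 229389, 0, 0, 0, 0, 0, 0⟩ ⟨0, 0, 0, 0, 0, 0, 153996, 0, 0, 0, 0, 0, 0⟩ ⟨0, 0, 0, 0, 0, 0, 153996, 0, 0, 0, 0, 0, 0⟩ ⟨80, -2, -530, 6, -18, 104, 115902, 0, 0, 0, 0, 0, 0⟩)))
    (.leaf (.box ⟨244, -2, -1362, 6, -17, 309, 449265, 0, 0, 0, 0, 0, 0⟩ ⟨0, 0, 0, 0, 0, 0, 229250, 0, 0, 0, 0, 0, 0⟩ ⟨0, 0, 0, 0, 0, 0, 229250, 0, 0, 0, 0, 0, 0⟩ ⟨0, 0, 0, 0, 0, 0, 153888, 0, 0, 0, 0, 0, 0⟩ ⟨0, 0, 0, 0, 0, 0, 153888, 0, 0, 0, 0, 0, 0⟩ ⟨95, -3, -512, 8, -19, 98, 115815, 0, 0, 0, 0, 0, 0⟩)))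
    (.s2
    (.s1
    (.s2
    (.leaf (.box ⟨329, -1, -2568, 6, -17, 608, 772705, 0, 0, 0, 0, 0, 0⟩ ⟨0, 0, 0, 0, 0, 0, 272248, 0, 0, 0, 0, 0, 0⟩ ⟨0, 0, 0, 0, 0, 0, 272248, 0, 0, 0, 0, 0, 0⟩ ⟨0, 0, 0, 0, 0, 0, 165233, 0, 0, 0, 0, 0, 0⟩ ⟨0, 0, 0, 0, 0, 0, 165233, 0, 0, 0, 0, 0, 0⟩ ⟨79, -1, -605, 6, -20, 120, 118609, 0, 0, 0, 0, 0, 0⟩))
    (.leaf (.box ⟨318, -2, -2501, 6, -17, 578, 767651, 0, 0, 0, 0, 0, 0⟩ ⟨0, 0, 0, 0, 0, 0, 271788, 0, 0, 0, 0, 0, 0⟩ ⟨0, 0, 0, 0, 0, 0, 271788, 0, 0, 0, 0, 0, 0⟩ ⟨0, 0, 0, 0, 0, 0, 165125, 0, 0, 0, 0, 0, 0⟩ ⟨0, 0, 0, 0, 0, 0, 165125, 0, 0, 0, 0, 0, 0⟩ ⟨69, -2, -521, 6, -17, 100, 118586, 0, 0, 0, 0, 0, 0⟩)))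
    (.leaf (.box ⟨383, -2, -3041, 6, -15, 671, 869328, 0, 0, 0, 0, 0, 0⟩ ⟨172, -2, -1317, 6, -20, 274, 270405, 0, 0, 0, 0, 0, 0⟩ ⟨172, -2, -1317, 6, -20, 274, 270405, 0, 0, 0, 0, 0, 0⟩ ⟨108, -2, -833, 6, -18, 163, 166132, 0, 0, 0, 0, 0, 0⟩ ⟨108, -2, -833, 6, -18, 163, 166132, 0, 0, 0, 0, 0, 0⟩ ⟨91, -2, -691, 6, -19, 127, 121394, 0, 0, 0, 0, 0, 0⟩)))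
    (.s1
    (.leaf (.box ⟨508, -2, -3776, 6, -22, 840, 870559, 0, 0, 0, 0, 0, 0⟩ ⟨170, -2, -1267, 6, -22, 265, 270471, 0, 0, 0, 0, 0, 0⟩ ⟨170, -2, -1267, 6, -22, 265, 270471, 0, 0, 0, 0, 0, 0⟩ ⟨120, -2, -886, 6, -23, 174, 165934, 0, 0, 0, 0, 0, 0⟩ ⟨120, -2, -886, 6, -23, 174, 165934, 0, 0, 0, 0, 0, 0⟩ ⟨82, -2, -587, 6, -19, 109, 121106, 0, 0, 0, 0, 0, 0⟩))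
    (.leaf (.box ⟨500, -2, -4086, 6, -24, 859, 754742, 0, 0, 0, 0, 0, 0⟩ ⟨0, 0, 0, 0, 0, 0, 271651, 0, 0, 0, 0, 0, 0⟩ ⟨0, 0, 0, 0, 0, 0, 271651, 0, 0, 0, 0, 0, 0⟩ ⟨0, 0, 0, 0, 0, 0, 165633, 0, 0, 0, 0, 0, 0⟩ ⟨0, 0, 0, 0, 0, 0, 165633, 0, 0, 0, 0, 0, 0⟩ ⟨80, -2, -676, 6, -19, 119, 119137, 0, 0, 0, 0, 0, 0⟩))))

/-- A piece of the tree. -/
noncomputable def tree65 : Tree LeafX :=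
  .s2
    (.s1
    (.s2
    (.leaf (.box ⟨240, 0, -1356, 6, -22, 421, 507536, 0, 0, 0, 0, 0, 0⟩ ⟨0, 0, 0, 0, 0, 0, 252888, 0, 0, 0, 0, 0, 0⟩ ⟨0, 0, 0, 0, 0, 0, 252888, 0, 0, 0, 0, 0, 0⟩ ⟨0, 0, 0, 0, 0, 0, 168398, 0, 0, 0, 0, 0, 0⟩ ⟨0, 0, 0, 0, 0, 0, 168398, 0, 0, 0, 0, 0, 0⟩ ⟨99, 0, -512, 8, -29, 137, 126225, 0, 0, 0, 0, 0, 0⟩))
    (.leaf (.box ⟨217, -1, -1212, 6, -21, 361, 498109, 0, 0, 0, 0, 0, 0⟩ ⟨0, 0, 0, 0, 0, 0, 250761, 0, 0, 0, 0, 0, 0⟩ ⟨0, 0, 0, 0, 0, 0, 250761, 0, 0, 0, 0, 0, 0⟩ ⟨0, 0, 0, 0, 0, 0, 167557, 0, 0, 0, 0, 0, 0⟩ ⟨0, 0, 0, 0, 0, 0, 167557, 0, 0, 0, 0, 0, 0⟩ ⟨101, -1, -512, 8, -29, 129, 125811, 0, 0, 0, 0, 0, 0⟩)))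
    (.s2
    (.leaf (.box ⟨273, 0, -1665, 6, -20, 481, 593892, 0, 0, 0, 0, 0, 0⟩ ⟨116, -1, -687, 6, -18, 189, 255047, 0, 0, 0, 0, 0, 0⟩ ⟨116, -1, -687, 6, -18, 189, 255047, 0, 0, 0, 0, 0, 0⟩ ⟨89, -1, -512, 7, -19, 134, 167862, 0, 0, 0, 0, 0, 0⟩ ⟨89, -1, -512, 7, -19, 134, 167862, 0, 0, 0, 0, 0, 0⟩ ⟨93, -1, -512, 8, -23, 127, 131204, 0, 0, 0, 0, 0, 0⟩))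
    (.leaf (.box ⟨254, -1, -1510, 6, -19, 418, 584861, 0, 0, 0, 0, 0, 0⟩ ⟨144, -1, -819, 6, -22, 214, 252671, 0, 0, 0, 0, 0, 0⟩ ⟨144, -1, -819, 6, -22, 214, 252671, 0, 0, 0, 0, 0, 0⟩ ⟨94, -1, -531, 6, -20, 131, 167119, 0, 0, 0, 0, 0, 0⟩ ⟨94, -1, -531, 6, -20, 131, 167119, 0, 0, 0, 0, 0, 0⟩ ⟨92, -1, -512, 7, -23, 120, 131020, 0, 0, 0, 0, 0, 0⟩))))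
    (.s1
    (.leaf (.box ⟨278, -1, -1329, 6, -22, 363, 494581, 0, 0, 0, 0, 0, 0⟩ ⟨0, 0, 0, 0, 0, 0, 250182, 0, 0, 0, 0, 0, 0⟩ ⟨0, 0, 0, 0, 0, 0, 250182, 0, 0, 0, 0, 0, 0⟩ ⟨0, 0, 0, 0, 0, 0, 167440, 0, 0, 0, 0, 0, 0⟩ ⟨0, 0, 0, 0, 0, 0, 167440, 0, 0, 0, 0, 0, 0⟩ ⟨111, -2, -512, 9, -27, 117, 125826, 0, 0, 0, 0, 0, 0⟩))
    (.leaf (.box ⟨301, -2, -1568, 6, -20, 398, 580627, 0, 0, 0, 0, 0, 0⟩ ⟨155, -2, -822, 6, -22, 196, 252070, 0, 0, 0, 0, 0, 0⟩ ⟨155, -2, -822, 6, -22, 196, 252070, 0, 0, 0, 0, 0, 0⟩ ⟨104, -2, -530, 6, -20, 119, 167042, 0, 0, 0, 0, 0, 0⟩ ⟨104, -2, -530, 6, -20, 119, 167042, 0, 0, 0, 0, 0, 0⟩ ⟨99, -2, -512, 7, -22, 109, 131091, 0, 0, 0, 0, 0, 0⟩)))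

/-- A piece of the tree. -/
noncomputable def tree66 : Tree LeafX :=
  .s3
    (.s2
    (.s0
    (.s2
    (.leaf (.box ⟨400, 0, -2932, 6, -21, 802, 853807, 0, 0, 0, 0, 0, 0⟩ ⟨0, 0, 0, 0, 0, 0, 297130, 0, 0, 0, 0, 0, 0⟩ ⟨0, 0, 0, 0, 0, 0, 297130, 0, 0, 0, 0, 0, 0⟩ ⟨0, 0, 0, 0, 0, 0, 179861, 0, 0, 0, 0, 0, 0⟩ ⟨0, 0, 0, 0, 0, 0, 179861, 0, 0, 0, 0, 0, 0⟩ ⟨84, 0, -566, 6, -22, 132, 128963, 0, 0, 0, 0, 0, 0⟩))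
    (.leaf (.box ⟨431, -1, -3101, 6, -23, 816, 836738, 0, 0, 0, 0, 0, 0⟩ ⟨0, 0, 0, 0, 0, 0, 295418, 0, 0, 0, 0, 0, 0⟩ ⟨0, 0, 0, 0, 0, 0, 295418, 0, 0, 0, 0, 0, 0⟩ ⟨0, 0, 0, 0, 0, 0, 179374, 0, 0, 0, 0, 0, 0⟩ ⟨0, 0, 0, 0, 0, 0, 179374, 0, 0, 0, 0, 0, 0⟩ ⟨86, -1, -587, 6, -23, 129, 128785, 0, 0, 0, 0, 0, 0⟩)))
    (.s2
    (.leaf (.box ⟨421, 0, -2934, 6, -24, 856, 894235, 0, 0, 0, 0, 0, 0⟩ ⟨0, 0, 0, 0, 0, 0, 309864, 0, 0, 0, 0, 0, 0⟩ ⟨0, 0, 0, 0, 0, 0, 309864, 0, 0, 0, 0, 0, 0⟩ ⟨0, 0, 0, 0, 0, 0, 187401, 0, 0, 0, 0, 0, 0⟩ ⟨0, 0, 0, 0, 0, 0, 187401, 0, 0, 0, 0, 0, 0⟩ ⟨79, 0, -512, 6, -23, 126, 134316, 0, 0, 0, 0, 0, 0⟩))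
    (.leaf (.box ⟨404, -1, -2830, 6, -24, 792, 880446, 0, 0, 0, 0, 0, 0⟩ ⟨0, 0, 0, 0, 0, 0, 308758, 0, 0, 0, 0, 0, 0⟩ ⟨0, 0, 0, 0, 0, 0, 308758, 0, 0, 0, 0, 0, 0⟩ ⟨0, 0, 0, 0, 0, 0, 187204, 0, 0, 0, 0, 0, 0⟩ ⟨0, 0, 0, 0, 0, 0, 187204, 0, 0, 0, 0, 0, 0⟩ ⟨79, -1, -512, 6, -23, 119, 134322, 0, 0, 0, 0, 0, 0⟩))))
    (.s1
    (.leaf (.box ⟨394, -1, -2223, 6, -20, 576, 835025, 0, 0, 0, 0, 0, 0⟩ ⟨0, 0, 0, 0, 0, 0, 295831, 0, 0, 0, 0, 0, 0⟩ ⟨0, 0, 0, 0, 0, 0, 295831, 0, 0, 0, 0, 0, 0⟩ ⟨0, 0, 0, 0, 0, 0, 179758, 0, 0, 0, 0, 0, 0⟩ ⟨0, 0, 0, 0, 0, 0, 179758, 0, 0, 0, 0, 0, 0⟩ ⟨98, -1, -580, 6, -26, 124, 129102, 0, 0, 0, 0, 0, 0⟩))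
    (.leaf (.box ⟨461, -2, -2850, 6, -22, 691, 825432, 0, 0, 0, 0, 0, 0⟩ ⟨0, 0, 0, 0, 0, 0, 295158, 0, 0, 0, 0, 0, 0⟩ ⟨0, 0, 0, 0, 0, 0, 295158, 0, 0, 0, 0, 0, 0⟩ ⟨0, 0, 0, 0, 0, 0, 179710, 0, 0, 0, 0, 0, 0⟩ ⟨0, 0, 0, 0, 0, 0, 179710, 0, 0, 0, 0, 0, 0⟩ ⟨80, -2, -512, 6, -20, 103, 129181, 0, 0, 0, 0, 0, 0⟩))))
    (.s0
    (.s2
    (.s1
    (.s2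
    (.leaf (.box ⟨380, 0, -3766, 6, -17, 1027, 1290885, 0, 0, 0, 0, 0, 0⟩ ⟨0, 0, 0, 0, 0, 0, 323968, 0, 0, 0, 0, 0, 0⟩ ⟨0, 0, 0, 0, 0, 0, 323968, 0, 0, 0, 0, 0, 0⟩ ⟨0, 0, 0, 0, 0, 0, 185227, 0, 0, 0, 0, 0, 0⟩ ⟨0, 0, 0, 0, 0, 0, 185227, 0, 0, 0, 0, 0, 0⟩ ⟨86, 0, -782, 6, -30, 181, 129687, 0, 0, 0, 0, 0, 0⟩))
    (.leaf (.box ⟨331, -1, -3269, 6, -16, 858, 1257178, 0, 0, 0, 0, 0, 0⟩ ⟨0, 0, 0, 0, 0, 0, 322288, 0, 0, 0, 0, 0, 0⟩ ⟨0, 0, 0, 0, 0, 0, 322288, 0, 0, 0, 0, 0, 0⟩ ⟨0, 0, 0, 0, 0, 0, 184836, 0, 0, 0, 0, 0, 0⟩ ⟨0, 0, 0, 0, 0, 0, 184836, 0, 0, 0, 0, 0, 0⟩ ⟨88, -1, -811, 6, -31, 177, 129574, 0, 0, 0, 0, 0, 0⟩)))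
    (.leaf (.box ⟨611, -1, -5354, 6, -22, 1349, 1246561, 0, 0, 0, 0, 0, 0⟩ ⟨0, 0, 0, 0, 0, 0, 321758, 0, 0, 0, 0, 0, 0⟩ ⟨0, 0, 0, 0, 0, 0, 321758, 0, 0, 0, 0, 0, 0⟩ ⟨0, 0, 0, 0, 0, 0, 184718, 0, 0, 0, 0, 0, 0⟩ ⟨0, 0, 0, 0, 0, 0, 184718, 0, 0, 0, 0, 0, 0⟩ ⟨87, -1, -653, 6, -21, 138, 129544, 0, 0, 0, 0, 0, 0⟩)))
    (.s2
    (.leaf (.box ⟨411, -1, -3157, 6, -15, 768, 1226099, 0, 0, 0, 0, 0, 0⟩ ⟨0, 0, 0, 0, 0, 0, 321644, 0, 0, 0, 0, 0, 0⟩ ⟨0, 0, 0, 0, 0, 0, 321644, 0, 0, 0, 0, 0, 0⟩ ⟨0, 0, 0, 0, 0, 0, 185101, 0, 0, 0, 0, 0, 0⟩ ⟨0, 0, 0, 0, 0, 0, 185101, 0, 0, 0, 0, 0, 0⟩ ⟨94, -1, -705, 6, -24, 141, 129939, 0, 0, 0, 0, 0, 0⟩))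
    (.leaf (.box ⟨426, -2, -3345, 6, -16, 771, 1203094, 0, 0, 0, 0, 0, 0⟩ ⟨0, 0, 0, 0, 0, 0, 322403, 0, 0, 0, 0, 0, 0⟩ ⟨0, 0, 0, 0, 0, 0, 322403, 0, 0, 0, 0, 0, 0⟩ ⟨0, 0, 0, 0, 0, 0, 186143, 0, 0, 0, 0, 0, 0⟩ ⟨0, 0, 0, 0, 0, 0, 186143, 0, 0, 0, 0, 0, 0⟩ ⟨83, -2, -658, 6, -22, 125, 130843, 0, 0, 0, 0, 0, 0⟩))))
    (.s2
    (.s2
    (.leaf (.box ⟨571, 0, -4405, 6, -22, 1239, 1344654, 0, 0, 0, 0, 0, 0⟩ ⟨0, 0, 0, 0, 0, 0, 336942, 0, 0, 0, 0, 0, 0⟩ ⟨0, 0, 0, 0, 0, 0, 336942, 0, 0, 0, 0, 0, 0⟩ ⟨0, 0, 0, 0, 0, 0, 192602, 0, 0, 0, 0, 0, 0⟩ ⟨0, 0, 0, 0, 0, 0, 192602, 0, 0, 0, 0, 0, 0⟩ ⟨76, 0, -544, 6, -22, 128, 134839, 0, 0, 0, 0, 0, 0⟩))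
    (.leaf (.box ⟨612, -1, -4540, 6, -24, 1228, 1314829, 0, 0, 0, 0, 0, 0⟩ ⟨0, 0, 0, 0, 0, 0, 336141, 0, 0, 0, 0, 0, 0⟩ ⟨0, 0, 0, 0, 0, 0, 336141, 0, 0, 0, 0, 0, 0⟩ ⟨0, 0, 0, 0, 0, 0, 192703, 0, 0, 0, 0, 0, 0⟩ ⟨0, 0, 0, 0, 0, 0, 192703, 0, 0, 0, 0, 0, 0⟩ ⟨83, -1, -562, 6, -23, 125, 135067, 0, 0, 0, 0, 0, 0⟩)))
    (.s2
    (.leaf (.box ⟨579, -1, -4215, 6, -23, 1084, 1284120, 0, 0, 0, 0, 0, 0⟩ ⟨0, 0, 0, 0, 0, 0, 336247, 0, 0, 0, 0, 0, 0⟩ ⟨0, 0, 0, 0, 0, 0, 336247, 0, 0, 0, 0, 0, 0⟩ ⟨0, 0, 0, 0, 0, 0, 193452, 0, 0, 0, 0, 0, 0⟩ ⟨0, 0, 0, 0, 0, 0, 193452, 0, 0, 0, 0, 0, 0⟩ ⟨85, -1, -614, 6, -24, 129, 135786, 0, 0, 0, 0, 0, 0⟩))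
    (.leaf (.box ⟨635, -1, -4653, 6, -26, 1132, 1262090, 0, 0, 0, 0, 0, 0⟩ ⟨0, 0, 0, 0, 0, 0, 337968, 0, 0, 0, 0, 0, 0⟩ ⟨0, 0, 0, 0, 0, 0, 337968, 0, 0, 0, 0, 0, 0⟩ ⟨0, 0, 0, 0, 0, 0, 195107, 0, 0, 0, 0, 0, 0⟩ ⟨0, 0, 0, 0, 0, 0, 195107, 0, 0, 0, 0, 0, 0⟩ ⟨79, -2, -605, 6, -23, 120, 137138, 0, 0, 0, 0, 0, 0⟩)))))

/-- A piece of the tree. -/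
noncomputable def tree67 : Tree LeafX :=
  .s3
    (.s0
    (.s2
    (.s0
    (.leaf (.box ⟨210, -2, -1798, 6, -12, 407, 462721, 0, 0, 0, 0, 0, 0⟩ ⟨0, 0, 0, 0, 0, 0, 233525, 0, 0, 0, 0, 0, 0⟩ ⟨0, 0, 0, 0, 0, 0, 233525, 0, 0, 0, 0, 0, 0⟩ ⟨0, 0, 0, 0, 0, 0, 156171, 0, 0, 0, 0, 0, 0⟩ ⟨0, 0, 0, 0, 0, 0, 156171, 0, 0, 0, 0, 0, 0⟩ ⟨72, -2, -530, 6, -12, 105, 117311, 0, 0, 0, 0, 0, 0⟩))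
    (.leaf (.box ⟨261, -1, -2086, 6, -14, 501, 567777, 0, 0, 0, 0, 0, 0⟩ ⟨119, -1, -898, 6, -13, 206, 245112, 0, 0, 0, 0, 0, 0⟩ ⟨119, -1, -898, 6, -13, 206, 245112, 0, 0, 0, 0, 0, 0⟩ ⟨86, -1, -623, 6, -13, 136, 161480, 0, 0, 0, 0, 0, 0⟩ ⟨86, -1, -623, 6, -13, 136, 161480, 0, 0, 0, 0, 0, 0⟩ ⟨75, -2, -512, 7, -13, 107, 126463, 0, 0, 0, 0, 0, 0⟩)))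
    (.s0
    (.leaf (.box ⟨236, -2, -1942, 6, -13, 422, 538451, 0, 0, 0, 0, 0, 0⟩ ⟨152, -2, -1176, 6, -16, 242, 233475, 0, 0, 0, 0, 0, 0⟩ ⟨152, -2, -1176, 6, -16, 242, 233475, 0, 0, 0, 0, 0, 0⟩ ⟨98, -2, -770, 6, -15, 151, 154483, 0, 0, 0, 0, 0, 0⟩ ⟨98, -2, -770, 6, -15, 151, 154483, 0, 0, 0, 0, 0, 0⟩ ⟨76, -3, -552, 6, -12, 103, 121550, 0, 0, 0, 0, 0, 0⟩))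
    (.s1
    (.leaf (.box ⟨245, -2, -2225, 6, -22, 525, 469539, 0, 0, 0, 0, 0, 0⟩ ⟨0, 0, 0, 0, 0, 0, 239413, 0, 0, 0, 0, 0, 0⟩ ⟨0, 0, 0, 0, 0, 0, 239413, 0, 0, 0, 0, 0, 0⟩ ⟨0, 0, 0, 0, 0, 0, 160668, 0, 0, 0, 0, 0, 0⟩ ⟨0, 0, 0, 0, 0, 0, 160668, 0, 0, 0, 0, 0, 0⟩ ⟨84, -2, -696, 6, -21, 140, 120902, 0, 0, 0, 0, 0, 0⟩))
    (.leaf (.box ⟨200, -2, -2057, 6, -17, 462, 466788, 0, 0, 0, 0, 0, 0⟩ ⟨0, 0, 0, 0, 0, 0, 239727, 0, 0, 0, 0, 0, 0⟩ ⟨0, 0, 0, 0, 0, 0, 239727, 0, 0, 0, 0, 0, 0⟩ ⟨0, 0, 0, 0, 0, 0, 161277, 0, 0, 0, 0, 0, 0⟩ ⟨0, 0, 0, 0, 0, 0, 161277, 0, 0, 0, 0, 0, 0⟩ ⟨85, -2, -773, 6, -19, 148, 121512, 0, 0, 0, 0, 0, 0⟩)))))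
    (.s0
    (.s2
    (.leaf (.box ⟨229, -1, -1752, 6, -17, 448, 498836, 0, 0, 0, 0, 0, 0⟩ ⟨0, 0, 0, 0, 0, 0, 251354, 0, 0, 0, 0, 0, 0⟩ ⟨0, 0, 0, 0, 0, 0, 251354, 0, 0, 0, 0, 0, 0⟩ ⟨0, 0, 0, 0, 0, 0, 168004, 0, 0, 0, 0, 0, 0⟩ ⟨0, 0, 0, 0, 0, 0, 168004, 0, 0, 0, 0, 0, 0⟩ ⟨80, -1, -512, 7, -16, 113, 126166, 0, 0, 0, 0, 0, 0⟩))
    (.leaf (.box ⟨202, -2, -1460, 6, -16, 357, 490357, 0, 0, 0, 0, 0, 0⟩ ⟨0, 0, 0, 0, 0, 0, 249507, 0, 0, 0, 0, 0, 0⟩ ⟨0, 0, 0, 0, 0, 0, 249507, 0, 0, 0, 0, 0, 0⟩ ⟨0, 0, 0, 0, 0, 0, 167323, 0, 0, 0, 0, 0, 0⟩ ⟨0, 0, 0, 0, 0, 0, 167323, 0, 0, 0, 0, 0, 0⟩ ⟨79, -2, -521, 6, -17, 108, 125864, 0, 0, 0, 0, 0, 0⟩)))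
    (.s2
    (.leaf (.box ⟨210, -1, -1468, 6, -17, 400, 519991, 0, 0, 0, 0, 0, 0⟩ ⟨0, 0, 0, 0, 0, 0, 261908, 0, 0, 0, 0, 0, 0⟩ ⟨0, 0, 0, 0, 0, 0, 261908, 0, 0, 0, 0, 0, 0⟩ ⟨0, 0, 0, 0, 0, 0, 175035, 0, 0, 0, 0, 0, 0⟩ ⟨0, 0, 0, 0, 0, 0, 175035, 0, 0, 0, 0, 0, 0⟩ ⟨81, -1, -512, 7, -19, 119, 131437, 0, 0, 0, 0, 0, 0⟩))
    (.leaf (.box ⟨216, -2, -1497, 6, -19, 390, 513959, 0, 0, 0, 0, 0, 0⟩ ⟨0, 0, 0, 0, 0, 0, 260746, 0, 0, 0, 0, 0, 0⟩ ⟨0, 0, 0, 0, 0, 0, 260746, 0, 0, 0, 0, 0, 0⟩ ⟨0, 0, 0, 0, 0, 0, 174684, 0, 0, 0, 0, 0, 0⟩ ⟨0, 0, 0, 0, 0, 0, 174684, 0, 0, 0, 0, 0, 0⟩ ⟨83, -2, -512, 7, -20, 112, 131335, 0, 0, 0, 0, 0, 0⟩)))))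
    (.s0
    (.s2
    (.leaf (.box ⟨316, -2, -2378, 6, -9, 534, 786874, 0, 0, 0, 0, 0, 0⟩ ⟨0, 0, 0, 0, 0, 0, 276047, 0, 0, 0, 0, 0, 0⟩ ⟨0, 0, 0, 0, 0, 0, 276047, 0, 0, 0, 0, 0, 0⟩ ⟨0, 0, 0, 0, 0, 0, 167384, 0, 0, 0, 0, 0, 0⟩ ⟨0, 0, 0, 0, 0, 0, 167384, 0, 0, 0, 0, 0, 0⟩ ⟨75, -2, -512, 7, -10, 99, 120105, 0, 0, 0, 0, 0, 0⟩))
    (.leaf (.box ⟨326, -2, -2400, 6, -11, 518, 762126, 0, 0, 0, 0, 0, 0⟩ ⟨0, 0, 0, 0, 0, 0, 273211, 0, 0, 0, 0, 0, 0⟩ ⟨0, 0, 0, 0, 0, 0, 273211, 0, 0, 0, 0, 0, 0⟩ ⟨0, 0, 0, 0, 0, 0, 166438, 0, 0, 0, 0, 0, 0⟩ ⟨0, 0, 0, 0, 0, 0, 166438, 0, 0, 0, 0, 0, 0⟩ ⟨80, -2, -565, 6, -12, 103, 119670, 0, 0, 0, 0, 0, 0⟩)))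
    (.s2
    (.s1
    (.leaf (.box ⟨377, -1, -2803, 6, -16, 716, 853112, 0, 0, 0, 0, 0, 0⟩ ⟨0, 0, 0, 0, 0, 0, 297026, 0, 0, 0, 0, 0, 0⟩ ⟨0, 0, 0, 0, 0, 0, 297026, 0, 0, 0, 0, 0, 0⟩ ⟨0, 0, 0, 0, 0, 0, 179816, 0, 0, 0, 0, 0, 0⟩ ⟨0, 0, 0, 0, 0, 0, 179816, 0, 0, 0, 0, 0, 0⟩ ⟨73, -1, -520, 6, -16, 112, 128936, 0, 0, 0, 0, 0, 0⟩))
    (.leaf (.box ⟨230, -1, -1950, 6, -9, 476, 841258, 0, 0, 0, 0, 0, 0⟩ ⟨0, 0, 0, 0, 0, 0, 297285, 0, 0, 0, 0, 0, 0⟩ ⟨0, 0, 0, 0, 0, 0, 297285, 0, 0, 0, 0, 0, 0⟩ ⟨0, 0, 0, 0, 0, 0, 180543, 0, 0, 0, 0, 0, 0⟩ ⟨0, 0, 0, 0, 0, 0, 180543, 0, 0, 0, 0, 0, 0⟩ ⟨68, -1, -518, 6, -13, 107, 129635, 0, 0, 0, 0, 0, 0⟩)))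
    (.s1
    (.leaf (.box ⟨427, -1, -3214, 6, -18, 788, 947347, 0, 0, 0, 0, 0, 0⟩ ⟨133, -1, -987, 6, -16, 227, 294118, 0, 0, 0, 0, 0, 0⟩ ⟨133, -1, -987, 6, -16, 227, 294118, 0, 0, 0, 0, 0, 0⟩ ⟨86, -2, -622, 6, -15, 135, 180382, 0, 0, 0, 0, 0, 0⟩ ⟨86, -2, -622, 6, -15, 135, 180382, 0, 0, 0, 0, 0, 0⟩ ⟨73, -2, -512, 6, -16, 104, 131380, 0, 0, 0, 0, 0, 0⟩))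
    (.leaf (.box ⟨285, -2, -2350, 6, -11, 550, 945136, 0, 0, 0, 0, 0, 0⟩ ⟨145, -2, -1132, 6, -16, 249, 294254, 0, 0, 0, 0, 0, 0⟩ ⟨145, -2, -1132, 6, -16, 249, 294254, 0, 0, 0, 0, 0, 0⟩ ⟨93, -2, -710, 6, -15, 147, 181149, 0, 0, 0, 0, 0, 0⟩ ⟨93, -2, -710, 6, -15, 147, 181149, 0, 0, 0, 0, 0, 0⟩ ⟨73, -2, -558, 6, -14, 108, 132417, 0, 0, 0, 0, 0, 0⟩)))))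

theorem parts2 :
    (runPathS conQ supQ (fun n Qs i d x => leafR conQ seg n Qs i d x) [.d0 false, .d1 false, .d2 true, .d0 false, .d1 false, .d0 false, .d1 false, .d2 true, .d2 true] tree45 0 0 0
      (joinS (lay.B * lay.size) rootQ) = true) ∧
    (runPathS conQ supQ (fun n Qs i d x => leafR conQ seg n Qs i d x) [.d0 false, .d1 false, .d2 true, .d0 false, .d1 false, .d0 false, .d1 true] tree46 0 0 0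
      (joinS (lay.B * lay.size) rootQ) = true) ∧
    (runPathS conQ supQ (fun n Qs i d x => leafR conQ seg n Qs i d x) [.d0 false, .d1 false, .d2 true, .d0 false, .d1 false, .d0 true, .d1 false] tree47 0 0 0
      (joinS (lay.B * lay.size) rootQ) = true) ∧
    (runPathS conQ supQ (fun n Qs i d x => leafR conQ seg n Qs i d x) [.d0 false, .d1 false, .d2 true, .d0 false, .d1 false, .d0 true, .d1 true, .d2 false] tree48 0 0 0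
      (joinS (lay.B * lay.size) rootQ) = true) ∧
    (runPathS conQ supQ (fun n Qs i d x => leafR conQ seg n Qs i d x) [.d0 false, .d1 false, .d2 true, .d0 false, .d1 false, .d0 true, .d1 true, .d2 true] tree49 0 0 0
      (joinS (lay.B * lay.size) rootQ) = true) ∧
    (runPathS conQ supQ (fun n Qs i d x => leafR conQ seg n Qs i d x) [.d0 false, .d1 false, .d2 true, .d0 false, .d1 true] tree50 0 0 0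
      (joinS (lay.B * lay.size) rootQ) = true) ∧
    (runPathS conQ supQ (fun n Qs i d x => leafR conQ seg n Qs i d x) [.d0 false, .d1 false, .d2 true, .d0 true, .d1 false, .d2 false] tree51 0 0 0
      (joinS (lay.B * lay.size) rootQ) = true) ∧
    (runPathS conQ supQ (fun n Qs i d x => leafR conQ seg n Qs i d x) [.d0 false, .d1 false, .d2 true, .d0 true, .d1 false, .d2 true] tree52 0 0 0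
      (joinS (lay.B * lay.size) rootQ) = true) ∧
    (runPathS conQ supQ (fun n Qs i d x => leafR conQ seg n Qs i d x) [.d0 false, .d1 false, .d2 true, .d0 true, .d1 true, .d1 false, .d0 false] tree53 0 0 0
      (joinS (lay.B * lay.size) rootQ) = true) ∧
    (runPathS conQ supQ (fun n Qs i d x => leafR conQ seg n Qs i d x) [.d0 false, .d1 false, .d2 true, .d0 true, .d1 true, .d1 false, .d0 true] tree54 0 0 0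
      (joinS (lay.B * lay.size) rootQ) = true) ∧
    (runPathS conQ supQ (fun n Qs i d x => leafR conQ seg n Qs i d x) [.d0 false, .d1 false, .d2 true, .d0 true, .d1 true, .d1 true] tree55 0 0 0
      (joinS (lay.B * lay.size) rootQ) = true) ∧
    (runPathS conQ supQ (fun n Qs i d x => leafR conQ seg n Qs i d x) [.d0 false, .d1 true, .d2 false, .d0 false] tree56 0 0 0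
      (joinS (lay.B * lay.size) rootQ) = true) ∧
    (runPathS conQ supQ (fun n Qs i d x => leafR conQ seg n Qs i d x) [.d0 false, .d1 true, .d2 false, .d0 true, .d1 false, .d2 false, .d0 false] tree57 0 0 0
      (joinS (lay.B * lay.size) rootQ) = true) ∧
    (runPathS conQ supQ (fun n Qs i d x => leafR conQ seg n Qs i d x) [.d0 false, .d1 true, .d2 false, .d0 true, .d1 false, .d2 false, .d0 true, .d0 false, .d1 false, .d2 false] tree58 0 0 0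
      (joinS (lay.B * lay.size) rootQ) = true) ∧
    (runPathS conQ supQ (fun n Qs i d x => leafR conQ seg n Qs i d x) [.d0 false, .d1 true, .d2 false, .d0 true, .d1 false, .d2 false, .d0 true, .d0 false, .d1 false, .d2 true] tree59 0 0 0
      (joinS (lay.B * lay.size) rootQ) = true) ∧
    (runPathS conQ supQ (fun n Qs i d x => leafR conQ seg n Qs i d x) [.d0 false, .d1 true, .d2 false, .d0 true, .d1 false, .d2 false, .d0 true, .d0 false, .d1 true] tree60 0 0 0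
      (joinS (lay.B * lay.size) rootQ) = true) ∧
    (runPathS conQ supQ (fun n Qs i d x => leafR conQ seg n Qs i d x) [.d0 false, .d1 true, .d2 false, .d0 true, .d1 false, .d2 false, .d0 true, .d0 true, .d1 false, .d1 false, .d3 false] tree61 0 0 0
      (joinS (lay.B * lay.size) rootQ) = true) ∧
    (runPathS conQ supQ (fun n Qs i d x => leafR conQ seg n Qs i d x) [.d0 false, .d1 true, .d2 false, .d0 true, .d1 false, .d2 false, .d0 true, .d0 true, .d1 false, .d1 false, .d3 true] tree62 0 0 0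
      (joinS (lay.B * lay.size) rootQ) = true) ∧
    (runPathS conQ supQ (fun n Qs i d x => leafR conQ seg n Qs i d x) [.d0 false, .d1 true, .d2 false, .d0 true, .d1 false, .d2 false, .d0 true, .d0 true, .d1 false, .d1 true, .d0 false, .d2 false] tree63 0 0 0
      (joinS (lay.B * lay.size) rootQ) = true) ∧
    (runPathS conQ supQ (fun n Qs i d x => leafR conQ seg n Qs i d x) [.d0 false, .d1 true, .d2 false, .d0 true, .d1 false, .d2 false, .d0 true, .d0 true, .d1 false, .d1 true, .d0 false, .d2 true] tree64 0 0 0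
      (joinS (lay.B * lay.size) rootQ) = true) ∧
    (runPathS conQ supQ (fun n Qs i d x => leafR conQ seg n Qs i d x) [.d0 false, .d1 true, .d2 false, .d0 true, .d1 false, .d2 false, .d0 true, .d0 true, .d1 false, .d1 true, .d0 true, .d3 false] tree65 0 0 0
      (joinS (lay.B * lay.size) rootQ) = true) ∧
    (runPathS conQ supQ (fun n Qs i d x => leafR conQ seg n Qs i d x) [.d0 false, .d1 true, .d2 false, .d0 true, .d1 false, .d2 false, .d0 true, .d0 true, .d1 false, .d1 true, .d0 true, .d3 true] tree66 0 0 0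
      (joinS (lay.B * lay.size) rootQ) = true) ∧
    (runPathS conQ supQ (fun n Qs i d x => leafR conQ seg n Qs i d x) [.d0 false, .d1 true, .d2 false, .d0 true, .d1 false, .d2 false, .d0 true, .d0 true, .d1 true, .d1 false, .d2 false] tree67 0 0 0
      (joinS (lay.B * lay.size) rootQ) = true) :=
  ⟨by decide +kernel,
  by decide +kernel,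
  by decide +kernel,
  by decide +kernel,
  by decide +kernel,
  by decide +kernel,
  by decide +kernel,
  by decide +kernel,
  by decide +kernel,
  by decide +kernel,
  by decide +kernel,
  by decide +kernel,
  by decide +kernel,
  by decide +kernel,
  by decide +kernel,
  by decide +kernel,
  by decide +kernel,
  by decide +kernel,
  by decide +kernel,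
  by decide +kernel,
  by decide +kernel,
  by decide +kernel,
  by decide +kernel⟩

end Vale.Agent.P098.Six.S5
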