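import Vale.Agent.P098.Six.S5.Root

/-!
# P098, six dimensions: checked pieces of the tree
-/

namespace Vale.Agent.P098.Six.S5

/-- A piece of the tree. -/
noncomputable def tree68 : Tree LeafX :=
  .s3
    (.s3
    (.s3
    (.s1
    (.s0
    (.leaf (.box ⟨390, -3, -2548, 6, -23, 549, 531149, 0, 0, 0, 0, 0, 0⟩ ⟨157, -3, -1052, 6, -20, 215, 231559, 0, 0, 0, 0, 0, 0⟩ ⟨157, -3, -1052, 6, -20, 215, 231559, 0, 0, 0, 0, 0, 0⟩ ⟨129, -3, -862, 6, -22, 167, 153933, 0, 0, 0, 0, 0, 0⟩ ⟨129, -3, -862, 6, -22, 167, 153933, 0, 0, 0, 0, 0, 0⟩ ⟨103, -3, -707, 6, -21, 130, 122403, 0, 0, 0, 0, 0, 0⟩))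
    (.leaf (.box ⟨287, -2, -1656, 6, -23, 403, 478254, 0, 0, 0, 0, 0, 0⟩ ⟨0, 0, 0, 0, 0, 0, 247859, 0, 0, 0, 0, 0, 0⟩ ⟨0, 0, 0, 0, 0, 0, 247859, 0, 0, 0, 0, 0, 0⟩ ⟨0, 0, 0, 0, 0, 0, 167276, 0, 0, 0, 0, 0, 0⟩ ⟨0, 0, 0, 0, 0, 0, 167276, 0, 0, 0, 0, 0, 0⟩ ⟨93, -2, -547, 6, -23, 112, 126234, 0, 0, 0, 0, 0, 0⟩)))
    (.s0
    (.leaf (.box ⟨274, -3, -1958, 6, -19, 402, 435173, 0, 0, 0, 0, 0, 0⟩ ⟨0, 0, 0, 0, 0, 0, 228732, 0, 0, 0, 0, 0, 0⟩ ⟨0, 0, 0, 0, 0, 0, 228732, 0, 0, 0, 0, 0, 0⟩ ⟨0, 0, 0, 0, 0, 0, 155137, 0, 0, 0, 0, 0, 0⟩ ⟨0, 0, 0, 0, 0, 0, 155137, 0, 0, 0, 0, 0, 0⟩ ⟨87, -4, -625, 6, -16, 109, 117372, 0, 0, 0, 0, 0, 0⟩))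
    (.leaf (.box ⟨240, -3, -1497, 6, -19, 344, 475036, 0, 0, 0, 0, 0, 0⟩ ⟨0, 0, 0, 0, 0, 0, 247939, 0, 0, 0, 0, 0, 0⟩ ⟨0, 0, 0, 0, 0, 0, 247939, 0, 0, 0, 0, 0, 0⟩ ⟨0, 0, 0, 0, 0, 0, 167746, 0, 0, 0, 0, 0, 0⟩ ⟨0, 0, 0, 0, 0, 0, 167746, 0, 0, 0, 0, 0, 0⟩ ⟨83, -3, -532, 6, -19, 103, 126750, 0, 0, 0, 0, 0, 0⟩))))
    (.s0
    (.s0
    (.leaf (.box ⟨388, -3, -3003, 6, -20, 608, 588180, 0, 0, 0, 0, 0, 0⟩ ⟨175, -3, -1324, 6, -19, 253, 240265, 0, 0, 0, 0, 0, 0⟩ ⟨175, -3, -1324, 6, -19, 253, 240265, 0, 0, 0, 0, 0, 0⟩ ⟨133, -3, -967, 6, -19, 175, 157025, 0, 0, 0, 0, 0, 0⟩ ⟨133, -3, -967, 6, -19, 175, 157025, 0, 0, 0, 0, 0, 0⟩ ⟨104, -3, -747, 6, -17, 128, 122666, 0, 0, 0, 0, 0, 0⟩))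
    (.leaf (.box ⟨293, -3, -2068, 6, -19, 442, 510299, 0, 0, 0, 0, 0, 0⟩ ⟨0, 0, 0, 0, 0, 0, 247809, 0, 0, 0, 0, 0, 0⟩ ⟨0, 0, 0, 0, 0, 0, 247809, 0, 0, 0, 0, 0, 0⟩ ⟨0, 0, 0, 0, 0, 0, 163637, 0, 0, 0, 0, 0, 0⟩ ⟨0, 0, 0, 0, 0, 0, 163637, 0, 0, 0, 0, 0, 0⟩ ⟨102, -3, -709, 6, -20, 128, 122147, 0, 0, 0, 0, 0, 0⟩)))
    (.leaf (.box ⟨375, -2, -1977, 6, -19, 461, 639001, 0, 0, 0, 0, 0, 0⟩ ⟨168, -2, -901, 6, -19, 198, 261253, 0, 0, 0, 0, 0, 0⟩ ⟨168, -2, -901, 6, -19, 198, 261253, 0, 0, 0, 0, 0, 0⟩ ⟨112, -2, -617, 6, -18, 128, 170189, 0, 0, 0, 0, 0, 0⟩ ⟨112, -2, -617, 6, -18, 128, 170189, 0, 0, 0, 0, 0, 0⟩ ⟨92, -3, -512, 7, -18, 100, 132500, 0, 0, 0, 0, 0, 0⟩))))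
    (.s3
    (.s0
    (.s2
    (.leaf (.box ⟨302, -3, -2292, 6, -17, 486, 554134, 0, 0, 0, 0, 0, 0⟩ ⟨0, 0, 0, 0, 0, 0, 249126, 0, 0, 0, 0, 0, 0⟩ ⟨0, 0, 0, 0, 0, 0, 249126, 0, 0, 0, 0, 0, 0⟩ ⟨0, 0, 0, 0, 0, 0, 160682, 0, 0, 0, 0, 0, 0⟩ ⟨0, 0, 0, 0, 0, 0, 160682, 0, 0, 0, 0, 0, 0⟩ ⟨78, -3, -585, 6, -15, 105, 118583, 0, 0, 0, 0, 0, 0⟩))
    (.leaf (.box ⟨371, -3, -2868, 6, -22, 578, 550024, 0, 0, 0, 0, 0, 0⟩ ⟨0, 0, 0, 0, 0, 0, 248780, 0, 0, 0, 0, 0, 0⟩ ⟨0, 0, 0, 0, 0, 0, 248780, 0, 0, 0, 0, 0, 0⟩ ⟨0, 0, 0, 0, 0, 0, 160742, 0, 0, 0, 0, 0, 0⟩ ⟨0, 0, 0, 0, 0, 0, 160742, 0, 0, 0, 0, 0, 0⟩ ⟨83, -3, -664, 6, -17, 113, 118727, 0, 0, 0, 0, 0, 0⟩)))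
    (.leaf (.box ⟨345, -2, -1949, 6, -19, 449, 605035, 0, 0, 0, 0, 0, 0⟩ ⟨0, 0, 0, 0, 0, 0, 270139, 0, 0, 0, 0, 0, 0⟩ ⟨0, 0, 0, 0, 0, 0, 270139, 0, 0, 0, 0, 0, 0⟩ ⟨0, 0, 0, 0, 0, 0, 173889, 0, 0, 0, 0, 0, 0⟩ ⟨0, 0, 0, 0, 0, 0, 173889, 0, 0, 0, 0, 0, 0⟩ ⟨87, -3, -512, 7, -18, 99, 128208, 0, 0, 0, 0, 0, 0⟩)))
    (.s0
    (.s2
    (.leaf (.box ⟨341, -3, -2676, 6, -17, 563, 638271, 0, 0, 0, 0, 0, 0⟩ ⟨0, 0, 0, 0, 0, 0, 260926, 0, 0, 0, 0, 0, 0⟩ ⟨0, 0, 0, 0, 0, 0, 260926, 0, 0, 0, 0, 0, 0⟩ ⟨0, 0, 0, 0, 0, 0, 163981, 0, 0, 0, 0, 0, 0⟩ ⟨0, 0, 0, 0, 0, 0, 163981, 0, 0, 0, 0, 0, 0⟩ ⟨73, -3, -570, 6, -14, 101, 119559, 0, 0, 0, 0, 0, 0⟩))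
    (.leaf (.box ⟨325, -3, -2567, 6, -17, 513, 631551, 0, 0, 0, 0, 0, 0⟩ ⟨0, 0, 0, 0, 0, 0, 260497, 0, 0, 0, 0, 0, 0⟩ ⟨0, 0, 0, 0, 0, 0, 260497, 0, 0, 0, 0, 0, 0⟩ ⟨0, 0, 0, 0, 0, 0, 164089, 0, 0, 0, 0, 0, 0⟩ ⟨0, 0, 0, 0, 0, 0, 164089, 0, 0, 0, 0, 0, 0⟩ ⟨75, -3, -619, 6, -15, 104, 119765, 0, 0, 0, 0, 0, 0⟩)))
    (.leaf (.box ⟨382, -2, -2191, 6, -15, 499, 813437, 0, 0, 0, 0, 0, 0⟩ ⟨157, -2, -925, 6, -17, 198, 282157, 0, 0, 0, 0, 0, 0⟩ ⟨157, -2, -925, 6, -17, 198, 282157, 0, 0, 0, 0, 0, 0⟩ ⟨105, -2, -631, 6, -17, 127, 176840, 0, 0, 0, 0, 0, 0⟩ ⟨105, -2, -631, 6, -17, 127, 176840, 0, 0, 0, 0, 0, 0⟩ ⟨85, -3, -512, 7, -16, 97, 132835, 0, 0, 0, 0, 0, 0⟩)))))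
    (.s0
    (.s2
    (.leaf (.box ⟨413, -3, -3010, 6, -15, 621, 750834, 0, 0, 0, 0, 0, 0⟩ ⟨0, 0, 0, 0, 0, 0, 272105, 0, 0, 0, 0, 0, 0⟩ ⟨0, 0, 0, 0, 0, 0, 272105, 0, 0, 0, 0, 0, 0⟩ ⟨0, 0, 0, 0, 0, 0, 166161, 0, 0, 0, 0, 0, 0⟩ ⟨0, 0, 0, 0, 0, 0, 166161, 0, 0, 0, 0, 0, 0⟩ ⟨72, -3, -524, 6, -11, 90, 119596, 0, 0, 0, 0, 0, 0⟩))
    (.leaf (.box ⟨449, -3, -3508, 6, -18, 690, 743288, 0, 0, 0, 0, 0, 0⟩ ⟨0, 0, 0, 0, 0, 0, 272057, 0, 0, 0, 0, 0, 0⟩ ⟨0, 0, 0, 0, 0, 0, 272057, 0, 0, 0, 0, 0, 0⟩ ⟨0, 0, 0, 0, 0, 0, 166499, 0, 0, 0, 0, 0, 0⟩ ⟨0, 0, 0, 0, 0, 0, 166499, 0, 0, 0, 0, 0, 0⟩ ⟨76, -3, -596, 6, -13, 98, 119956, 0, 0, 0, 0, 0, 0⟩)))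
    (.s1
    (.s2
    (.leaf (.box ⟨315, -2, -2374, 6, -16, 554, 824656, 0, 0, 0, 0, 0, 0⟩ ⟨0, 0, 0, 0, 0, 0, 295250, 0, 0, 0, 0, 0, 0⟩ ⟨0, 0, 0, 0, 0, 0, 295250, 0, 0, 0, 0, 0, 0⟩ ⟨0, 0, 0, 0, 0, 0, 179815, 0, 0, 0, 0, 0, 0⟩ ⟨0, 0, 0, 0, 0, 0, 179815, 0, 0, 0, 0, 0, 0⟩ ⟨81, -2, -597, 6, -19, 115, 129272, 0, 0, 0, 0, 0, 0⟩))
    (.leaf (.box ⟨304, -2, -2406, 6, -17, 531, 811325, 0, 0, 0, 0, 0, 0⟩ ⟨0, 0, 0, 0, 0, 0, 295828, 0, 0, 0, 0, 0, 0⟩ ⟨0, 0, 0, 0, 0, 0, 295828, 0, 0, 0, 0, 0, 0⟩ ⟨0, 0, 0, 0, 0, 0, 180893, 0, 0, 0, 0, 0, 0⟩ ⟨0, 0, 0, 0, 0, 0, 180893, 0, 0, 0, 0, 0, 0⟩ ⟨87, -2, -683, 6, -21, 124, 130277, 0, 0, 0, 0, 0, 0⟩)))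
    (.s2
    (.leaf (.box ⟨356, -2, -2966, 6, -18, 660, 811617, 0, 0, 0, 0, 0, 0⟩ ⟨0, 0, 0, 0, 0, 0, 295714, 0, 0, 0, 0, 0, 0⟩ ⟨0, 0, 0, 0, 0, 0, 295714, 0, 0, 0, 0, 0, 0⟩ ⟨0, 0, 0, 0, 0, 0, 180793, 0, 0, 0, 0, 0, 0⟩ ⟨0, 0, 0, 0, 0, 0, 180793, 0, 0, 0, 0, 0, 0⟩ ⟨68, -3, -532, 6, -14, 98, 130196, 0, 0, 0, 0, 0, 0⟩))
    (.leaf (.box ⟨391, -3, -3359, 6, -21, 709, 797997, 0, 0, 0, 0, 0, 0⟩ ⟨0, 0, 0, 0, 0, 0, 296523, 0, 0, 0, 0, 0, 0⟩ ⟨0, 0, 0, 0, 0, 0, 296523, 0, 0, 0, 0, 0, 0⟩ ⟨0, 0, 0, 0, 0, 0, 182093, 0, 0, 0, 0, 0, 0⟩ ⟨0, 0, 0, 0, 0, 0, 182093, 0, 0, 0, 0, 0, 0⟩ ⟨83, -3, -706, 6, -19, 123, 131389, 0, 0, 0, 0, 0, 0⟩)))))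

/-- A piece of the tree. -/
noncomputable def tree69 : Tree LeafX :=
  .s3
    (.s1
    (.s1
    (.s0
    (.s2
    (.s2
    (.leaf (.box ⟨204, -2, -2136, 6, -13, 477, 452894, 0, 0, 0, 0, 0, 0⟩ ⟨0, 0, 0, 0, 0, 0, 234208, 0, 0, 0, 0, 0, 0⟩ ⟨0, 0, 0, 0, 0, 0, 234208, 0, 0, 0, 0, 0, 0⟩ ⟨0, 0, 0, 0, 0, 0, 157943, 0, 0, 0, 0, 0, 0⟩ ⟨0, 0, 0, 0, 0, 0, 157943, 0, 0, 0, 0, 0, 0⟩ ⟨81, -2, -728, 6, -13, 141, 119145, 0, 0, 0, 0, 0, 0⟩))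
    (.leaf (.box ⟨229, -3, -2255, 6, -17, 483, 442325, 0, 0, 0, 0, 0, 0⟩ ⟨0, 0, 0, 0, 0, 0, 231521, 0, 0, 0, 0, 0, 0⟩ ⟨0, 0, 0, 0, 0, 0, 231521, 0, 0, 0, 0, 0, 0⟩ ⟨0, 0, 0, 0, 0, 0, 156795, 0, 0, 0, 0, 0, 0⟩ ⟨0, 0, 0, 0, 0, 0, 156795, 0, 0, 0, 0, 0, 0⟩ ⟨86, -3, -799, 6, -16, 146, 118536, 0, 0, 0, 0, 0, 0⟩)))
    (.leaf (.box ⟨250, -4, -2014, 6, -17, 399, 437190, 0, 0, 0, 0, 0, 0⟩ ⟨0, 0, 0, 0, 0, 0, 230480, 0, 0, 0, 0, 0, 0⟩ ⟨0, 0, 0, 0, 0, 0, 230480, 0, 0, 0, 0, 0, 0⟩ ⟨0, 0, 0, 0, 0, 0, 156490, 0, 0, 0, 0, 0, 0⟩ ⟨0, 0, 0, 0, 0, 0, 156490, 0, 0, 0, 0, 0, 0⟩ ⟨101, -4, -787, 6, -17, 132, 118460, 0, 0, 0, 0, 0, 0⟩)))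
    (.s2
    (.leaf (.box ⟨210, -2, -1501, 6, -15, 369, 479842, 0, 0, 0, 0, 0, 0⟩ ⟨0, 0, 0, 0, 0, 0, 249604, 0, 0, 0, 0, 0, 0⟩ ⟨0, 0, 0, 0, 0, 0, 249604, 0, 0, 0, 0, 0, 0⟩ ⟨0, 0, 0, 0, 0, 0, 168672, 0, 0, 0, 0, 0, 0⟩ ⟨0, 0, 0, 0, 0, 0, 168672, 0, 0, 0, 0, 0, 0⟩ ⟨80, -2, -512, 7, -15, 107, 127372, 0, 0, 0, 0, 0, 0⟩))
    (.leaf (.box ⟨251, -3, -1808, 6, -21, 399, 475491, 0, 0, 0, 0, 0, 0⟩ ⟨0, 0, 0, 0, 0, 0, 249108, 0, 0, 0, 0, 0, 0⟩ ⟨0, 0, 0, 0, 0, 0, 249108, 0, 0, 0, 0, 0, 0⟩ ⟨0, 0, 0, 0, 0, 0, 168761, 0, 0, 0, 0, 0, 0⟩ ⟨0, 0, 0, 0, 0, 0, 168761, 0, 0, 0, 0, 0, 0⟩ ⟨85, -3, -608, 6, -18, 113, 127603, 0, 0, 0, 0, 0, 0⟩))))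
    (.s0
    (.s2
    (.leaf (.box ⟨198, -3, -1672, 6, -10, 359, 442268, 0, 0, 0, 0, 0, 0⟩ ⟨0, 0, 0, 0, 0, 0, 232357, 0, 0, 0, 0, 0, 0⟩ ⟨0, 0, 0, 0, 0, 0, 232357, 0, 0, 0, 0, 0, 0⟩ ⟨0, 0, 0, 0, 0, 0, 157570, 0, 0, 0, 0, 0, 0⟩ ⟨0, 0, 0, 0, 0, 0, 157570, 0, 0, 0, 0, 0, 0⟩ ⟨87, -3, -592, 6, -10, 109, 119203, 0, 0, 0, 0, 0, 0⟩))
    (.leaf (.box ⟨257, -4, -2192, 6, -17, 427, 437451, 0, 0, 0, 0, 0, 0⟩ ⟨0, 0, 0, 0, 0, 0, 231422, 0, 0, 0, 0, 0, 0⟩ ⟨0, 0, 0, 0, 0, 0, 231422, 0, 0, 0, 0, 0, 0⟩ ⟨0, 0, 0, 0, 0, 0, 157325, 0, 0, 0, 0, 0, 0⟩ ⟨0, 0, 0, 0, 0, 0, 157325, 0, 0, 0, 0, 0, 0⟩ ⟨96, -4, -783, 6, -15, 129, 119169, 0, 0, 0, 0, 0, 0⟩)))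
    (.s2
    (.leaf (.box ⟨194, -2, -1416, 6, -13, 341, 479176, 0, 0, 0, 0, 0, 0⟩ ⟨0, 0, 0, 0, 0, 0, 250249, 0, 0, 0, 0, 0, 0⟩ ⟨0, 0, 0, 0, 0, 0, 250249, 0, 0, 0, 0, 0, 0⟩ ⟨0, 0, 0, 0, 0, 0, 169344, 0, 0, 0, 0, 0, 0⟩ ⟨0, 0, 0, 0, 0, 0, 169344, 0, 0, 0, 0, 0, 0⟩ ⟨82, -3, -512, 7, -13, 105, 127971, 0, 0, 0, 0, 0, 0⟩))
    (.leaf (.box ⟨214, -3, -1563, 6, -17, 338, 474647, 0, 0, 0, 0, 0, 0⟩ ⟨0, 0, 0, 0, 0, 0, 249760, 0, 0, 0, 0, 0, 0⟩ ⟨0, 0, 0, 0, 0, 0, 249760, 0, 0, 0, 0, 0, 0⟩ ⟨0, 0, 0, 0, 0, 0, 169467, 0, 0, 0, 0, 0, 0⟩ ⟨0, 0, 0, 0, 0, 0, 169467, 0, 0, 0, 0, 0, 0⟩ ⟨84, -4, -610, 6, -17, 111, 128240, 0, 0, 0, 0, 0, 0⟩)))))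
    (.s0
    (.s2
    (.leaf (.box ⟨171, -3, -1396, 6, -7, 293, 442415, 0, 0, 0, 0, 0, 0⟩ ⟨0, 0, 0, 0, 0, 0, 233319, 0, 0, 0, 0, 0, 0⟩ ⟨0, 0, 0, 0, 0, 0, 233319, 0, 0, 0, 0, 0, 0⟩ ⟨0, 0, 0, 0, 0, 0, 158438, 0, 0, 0, 0, 0, 0⟩ ⟨0, 0, 0, 0, 0, 0, 158438, 0, 0, 0, 0, 0, 0⟩ ⟨78, -3, -554, 6, -7, 99, 119943, 0, 0, 0, 0, 0, 0⟩))
    (.leaf (.box ⟨212, -5, -1713, 6, -12, 326, 437854, 0, 0, 0, 0, 0, 0⟩ ⟨0, 0, 0, 0, 0, 0, 232467, 0, 0, 0, 0, 0, 0⟩ ⟨0, 0, 0, 0, 0, 0, 232467, 0, 0, 0, 0, 0, 0⟩ ⟨0, 0, 0, 0, 0, 0, 158240, 0, 0, 0, 0, 0, 0⟩ ⟨0, 0, 0, 0, 0, 0, 158240, 0, 0, 0, 0, 0, 0⟩ ⟨87, -5, -680, 6, -11, 109, 119942, 0, 0, 0, 0, 0, 0⟩)))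
    (.s2
    (.leaf (.box ⟨171, -3, -1190, 6, -10, 279, 478907, 0, 0, 0, 0, 0, 0⟩ ⟨0, 0, 0, 0, 0, 0, 251077, 0, 0, 0, 0, 0, 0⟩ ⟨0, 0, 0, 0, 0, 0, 251077, 0, 0, 0, 0, 0, 0⟩ ⟨0, 0, 0, 0, 0, 0, 170138, 0, 0, 0, 0, 0, 0⟩ ⟨0, 0, 0, 0, 0, 0, 170138, 0, 0, 0, 0, 0, 0⟩ ⟨81, -3, -512, 7, -11, 102, 128661, 0, 0, 0, 0, 0, 0⟩))
    (.leaf (.box ⟨234, -4, -1660, 6, -17, 349, 474148, 0, 0, 0, 0, 0, 0⟩ ⟨0, 0, 0, 0, 0, 0, 250589, 0, 0, 0, 0, 0, 0⟩ ⟨0, 0, 0, 0, 0, 0, 250589, 0, 0, 0, 0, 0, 0⟩ ⟨0, 0, 0, 0, 0, 0, 170295, 0, 0, 0, 0, 0, 0⟩ ⟨0, 0, 0, 0, 0, 0, 170295, 0, 0, 0, 0, 0, 0⟩ ⟨81, -4, -564, 6, -14, 100, 128970, 0, 0, 0, 0, 0, 0⟩)))))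
    (.s2
    (.s0
    (.leaf (.box ⟨218, -3, -1731, 6, -7, 364, 558891, 0, 0, 0, 0, 0, 0⟩ ⟨0, 0, 0, 0, 0, 0, 252983, 0, 0, 0, 0, 0, 0⟩ ⟨0, 0, 0, 0, 0, 0, 252983, 0, 0, 0, 0, 0, 0⟩ ⟨0, 0, 0, 0, 0, 0, 163495, 0, 0, 0, 0, 0, 0⟩ ⟨0, 0, 0, 0, 0, 0, 163495, 0, 0, 0, 0, 0, 0⟩ ⟨79, -4, -512, 7, -7, 92, 120773, 0, 0, 0, 0, 0, 0⟩))
    (.leaf (.box ⟨219, -2, -1472, 6, -9, 344, 609526, 0, 0, 0, 0, 0, 0⟩ ⟨0, 0, 0, 0, 0, 0, 272768, 0, 0, 0, 0, 0, 0⟩ ⟨0, 0, 0, 0, 0, 0, 272768, 0, 0, 0, 0, 0, 0⟩ ⟨0, 0, 0, 0, 0, 0, 175697, 0, 0, 0, 0, 0, 0⟩ ⟨0, 0, 0, 0, 0, 0, 175697, 0, 0, 0, 0, 0, 0⟩ ⟨86, -3, -512, 8, -11, 101, 129582, 0, 0, 0, 0, 0, 0⟩)))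
    (.s0
    (.leaf (.box ⟨307, -4, -2317, 6, -13, 444, 552476, 0, 0, 0, 0, 0, 0⟩ ⟨0, 0, 0, 0, 0, 0, 252157, 0, 0, 0, 0, 0, 0⟩ ⟨0, 0, 0, 0, 0, 0, 252157, 0, 0, 0, 0, 0, 0⟩ ⟨0, 0, 0, 0, 0, 0, 163358, 0, 0, 0, 0, 0, 0⟩ ⟨0, 0, 0, 0, 0, 0, 163358, 0, 0, 0, 0, 0, 0⟩ ⟨75, -4, -538, 6, -9, 86, 120812, 0, 0, 0, 0, 0, 0⟩))
    (.leaf (.box ⟨281, -4, -1861, 6, -15, 392, 599326, 0, 0, 0, 0, 0, 0⟩ ⟨0, 0, 0, 0, 0, 0, 272021, 0, 0, 0, 0, 0, 0⟩ ⟨0, 0, 0, 0, 0, 0, 272021, 0, 0, 0, 0, 0, 0⟩ ⟨0, 0, 0, 0, 0, 0, 175938, 0, 0, 0, 0, 0, 0⟩ ⟨0, 0, 0, 0, 0, 0, 175938, 0, 0, 0, 0, 0, 0⟩ ⟨78, -4, -512, 7, -12, 90, 130014, 0, 0, 0, 0, 0, 0⟩))))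

/-- A piece of the tree. -/
noncomputable def tree70 : Tree LeafX :=
  .s2
    (.s0
    (.leaf (.box ⟨238, -3, -1970, 6, -5, 408, 747763, 0, 0, 0, 0, 0, 0⟩ ⟨0, 0, 0, 0, 0, 0, 276081, 0, 0, 0, 0, 0, 0⟩ ⟨0, 0, 0, 0, 0, 0, 276081, 0, 0, 0, 0, 0, 0⟩ ⟨0, 0, 0, 0, 0, 0, 169293, 0, 0, 0, 0, 0, 0⟩ ⟨0, 0, 0, 0, 0, 0, 169293, 0, 0, 0, 0, 0, 0⟩ ⟨72, -3, -512, 7, -5, 90, 122074, 0, 0, 0, 0, 0, 0⟩))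
    (.leaf (.box ⟨302, -2, -2129, 6, -8, 483, 941508, 0, 0, 0, 0, 0, 0⟩ ⟨118, -2, -776, 6, -8, 165, 295422, 0, 0, 0, 0, 0, 0⟩ ⟨118, -2, -776, 6, -8, 165, 295422, 0, 0, 0, 0, 0, 0⟩ ⟨90, -2, -569, 6, -8, 114, 182580, 0, 0, 0, 0, 0, 0⟩ ⟨90, -2, -569, 6, -8, 114, 182580, 0, 0, 0, 0, 0, 0⟩ ⟨83, -3, -512, 7, -9, 97, 133679, 0, 0, 0, 0, 0, 0⟩)))
    (.s0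
    (.leaf (.box ⟨373, -4, -2999, 6, -12, 568, 734981, 0, 0, 0, 0, 0, 0⟩ ⟨0, 0, 0, 0, 0, 0, 275207, 0, 0, 0, 0, 0, 0⟩ ⟨0, 0, 0, 0, 0, 0, 275207, 0, 0, 0, 0, 0, 0⟩ ⟨0, 0, 0, 0, 0, 0, 169300, 0, 0, 0, 0, 0, 0⟩ ⟨0, 0, 0, 0, 0, 0, 169300, 0, 0, 0, 0, 0, 0⟩ ⟨78, -4, -603, 6, -9, 95, 122253, 0, 0, 0, 0, 0, 0⟩))
    (.s2
    (.leaf (.box ⟨279, -3, -2227, 6, -11, 470, 801002, 0, 0, 0, 0, 0, 0⟩ ⟨0, 0, 0, 0, 0, 0, 297175, 0, 0, 0, 0, 0, 0⟩ ⟨0, 0, 0, 0, 0, 0, 297175, 0, 0, 0, 0, 0, 0⟩ ⟨0, 0, 0, 0, 0, 0, 182428, 0, 0, 0, 0, 0, 0⟩ ⟨0, 0, 0, 0, 0, 0, 182428, 0, 0, 0, 0, 0, 0⟩ ⟨66, -3, -518, 6, -10, 90, 131610, 0, 0, 0, 0, 0, 0⟩))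
    (.leaf (.box ⟨365, -4, -3045, 6, -17, 610, 787476, 0, 0, 0, 0, 0, 0⟩ ⟨0, 0, 0, 0, 0, 0, 298254, 0, 0, 0, 0, 0, 0⟩ ⟨0, 0, 0, 0, 0, 0, 298254, 0, 0, 0, 0, 0, 0⟩ ⟨0, 0, 0, 0, 0, 0, 183965, 0, 0, 0, 0, 0, 0⟩ ⟨0, 0, 0, 0, 0, 0, 183965, 0, 0, 0, 0, 0, 0⟩ ⟨60, -4, -512, 6, -11, 85, 133000, 0, 0, 0, 0, 0, 0⟩))))

/-- A piece of the tree. -/
noncomputable def tree71 : Tree LeafX :=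
  .s0
    (.leaf (.box ⟨352, -6, -722, 6, -10, 177, 319922, 0, 0, 0, 0, 0, 0⟩ ⟨0, 0, 0, 0, 0, 0, 155645, 0, 0, 0, 0, 0, 0⟩ ⟨0, 0, 0, 0, 0, 0, 155645, 0, 0, 0, 0, 0, 0⟩ ⟨0, 0, 0, 0, 0, 0, 102838, 0, 0, 0, 0, 0, 0⟩ ⟨0, 0, 0, 0, 0, 0, 102838, 0, 0, 0, 0, 0, 0⟩ ⟨189, -12, -512, 14, -18, 91, 76786, 0, 0, 0, 0, 0, 0⟩))
    (.leaf (.box ⟨275, -5, -1375, 6, -10, 239, 399365, 0, 0, 0, 0, 0, 0⟩ ⟨124, -5, -604, 6, -9, 99, 172180, 0, 0, 0, 0, 0, 0⟩ ⟨124, -5, -604, 6, -9, 99, 172180, 0, 0, 0, 0, 0, 0⟩ ⟨110, -6, -512, 8, -10, 79, 113358, 0, 0, 0, 0, 0, 0⟩ ⟨110, -6, -512, 8, -10, 79, 113358, 0, 0, 0, 0, 0, 0⟩ ⟨115, -8, -512, 11, -12, 75, 87686, 0, 0, 0, 0, 0, 0⟩))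

/-- A piece of the tree. -/
noncomputable def tree72 : Tree LeafX :=
  .s0
    (.s2
    (.leaf (.box ⟨430, -2, -2294, 6, -22, 447, 397746, 0, 0, 0, 0, 0, 0⟩ ⟨0, 0, 0, 0, 0, 0, 197834, 0, 0, 0, 0, 0, 0⟩ ⟨0, 0, 0, 0, 0, 0, 197834, 0, 0, 0, 0, 0, 0⟩ ⟨0, 0, 0, 0, 0, 0, 131660, 0, 0, 0, 0, 0, 0⟩ ⟨0, 0, 0, 0, 0, 0, 131660, 0, 0, 0, 0, 0, 0⟩ ⟨97, -2, -512, 6, -15, 86, 98659, 0, 0, 0, 0, 0, 0⟩))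
    (.leaf (.box ⟨377, -2, -2466, 6, -23, 452, 397403, 0, 0, 0, 0, 0, 0⟩ ⟨0, 0, 0, 0, 0, 0, 197721, 0, 0, 0, 0, 0, 0⟩ ⟨0, 0, 0, 0, 0, 0, 197721, 0, 0, 0, 0, 0, 0⟩ ⟨0, 0, 0, 0, 0, 0, 131598, 0, 0, 0, 0, 0, 0⟩ ⟨0, 0, 0, 0, 0, 0, 131598, 0, 0, 0, 0, 0, 0⟩ ⟨95, -2, -594, 6, -18, 95, 98617, 0, 0, 0, 0, 0, 0⟩)))
    (.s2
    (.s0
    (.s3
    (.leaf (.box ⟨434, -2, -2462, 6, -28, 518, 416839, 0, 0, 0, 0, 0, 0⟩ ⟨0, 0, 0, 0, 0, 0, 212056, 0, 0, 0, 0, 0, 0⟩ ⟨0, 0, 0, 0, 0, 0, 212056, 0, 0, 0, 0, 0, 0⟩ ⟨0, 0, 0, 0, 0, 0, 142198, 0, 0, 0, 0, 0, 0⟩ ⟨0, 0, 0, 0, 0, 0, 142198, 0, 0, 0, 0, 0, 0⟩ ⟨113, -2, -623, 6, -22, 112, 106961, 0, 0, 0, 0, 0, 0⟩))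
    (.leaf (.box ⟨701, -2, -4552, 6, -27, 923, 707101, 0, 0, 0, 0, 0, 0⟩ ⟨0, 0, 0, 0, 0, 0, 250991, 0, 0, 0, 0, 0, 0⟩ ⟨0, 0, 0, 0, 0, 0, 250991, 0, 0, 0, 0, 0, 0⟩ ⟨0, 0, 0, 0, 0, 0, 152575, 0, 0, 0, 0, 0, 0⟩ ⟨0, 0, 0, 0, 0, 0, 152575, 0, 0, 0, 0, 0, 0⟩ ⟨117, -2, -764, 6, -23, 131, 109599, 0, 0, 0, 0, 0, 0⟩)))
    (.s2
    (.leaf (.box ⟨352, -2, -1878, 6, -19, 417, 516113, 0, 0, 0, 0, 0, 0⟩ ⟨177, -2, -910, 6, -20, 191, 223321, 0, 0, 0, 0, 0, 0⟩ ⟨177, -2, -910, 6, -20, 191, 223321, 0, 0, 0, 0, 0, 0⟩ ⟨109, -2, -562, 6, -17, 112, 147756, 0, 0, 0, 0, 0, 0⟩ ⟨109, -2, -562, 6, -17, 112, 147756, 0, 0, 0, 0, 0, 0⟩ ⟨105, -2, -512, 7, -19, 96, 114879, 0, 0, 0, 0, 0, 0⟩))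
    (.leaf (.box ⟨324, -2, -1849, 6, -21, 391, 445833, 0, 0, 0, 0, 0, 0⟩ ⟨0, 0, 0, 0, 0, 0, 222779, 0, 0, 0, 0, 0, 0⟩ ⟨0, 0, 0, 0, 0, 0, 222779, 0, 0, 0, 0, 0, 0⟩ ⟨0, 0, 0, 0, 0, 0, 148489, 0, 0, 0, 0, 0, 0⟩ ⟨0, 0, 0, 0, 0, 0, 148489, 0, 0, 0, 0, 0, 0⟩ ⟨94, -2, -512, 6, -19, 92, 111355, 0, 0, 0, 0, 0, 0⟩))))
    (.leaf (.box ⟨415, -2, -2196, 6, -21, 428, 496384, 0, 0, 0, 0, 0, 0⟩ ⟨175, -2, -926, 6, -19, 172, 215405, 0, 0, 0, 0, 0, 0⟩ ⟨175, -2, -926, 6, -19, 172, 215405, 0, 0, 0, 0, 0, 0⟩ ⟨115, -2, -598, 6, -17, 106, 142694, 0, 0, 0, 0, 0, 0⟩ ⟨115, -2, -598, 6, -17, 106, 142694, 0, 0, 0, 0, 0, 0⟩ ⟨93, -2, -512, 7, -17, 87, 110990, 0, 0, 0, 0, 0, 0⟩)))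

/-- A piece of the tree. -/
noncomputable def tree73 : Tree LeafX :=
  .s3
    (.s3
    (.s2
    (.s0
    (.leaf (.box ⟨390, -1, -1745, 6, -28, 427, 446892, 0, 0, 0, 0, 0, 0⟩ ⟨0, 0, 0, 0, 0, 0, 229479, 0, 0, 0, 0, 0, 0⟩ ⟨0, 0, 0, 0, 0, 0, 229479, 0, 0, 0, 0, 0, 0⟩ ⟨0, 0, 0, 0, 0, 0, 154375, 0, 0, 0, 0, 0, 0⟩ ⟨0, 0, 0, 0, 0, 0, 154375, 0, 0, 0, 0, 0, 0⟩ ⟨110, -2, -512, 9, -26, 107, 116309, 0, 0, 0, 0, 0, 0⟩))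
    (.leaf (.box ⟨315, -1, -1256, 6, -25, 345, 492566, 0, 0, 0, 0, 0, 0⟩ ⟨0, 0, 0, 0, 0, 0, 252402, 0, 0, 0, 0, 0, 0⟩ ⟨0, 0, 0, 0, 0, 0, 252402, 0, 0, 0, 0, 0, 0⟩ ⟨0, 0, 0, 0, 0, 0, 169673, 0, 0, 0, 0, 0, 0⟩ ⟨0, 0, 0, 0, 0, 0, 169673, 0, 0, 0, 0, 0, 0⟩ ⟨119, -2, -512, 10, -32, 119, 127788, 0, 0, 0, 0, 0, 0⟩)))
    (.leaf (.box ⟨273, -1, -1137, 6, -19, 260, 452448, 0, 0, 0, 0, 0, 0⟩ ⟨0, 0, 0, 0, 0, 0, 233367, 0, 0, 0, 0, 0, 0⟩ ⟨0, 0, 0, 0, 0, 0, 233367, 0, 0, 0, 0, 0, 0⟩ ⟨0, 0, 0, 0, 0, 0, 157233, 0, 0, 0, 0, 0, 0⟩ ⟨0, 0, 0, 0, 0, 0, 157233, 0, 0, 0, 0, 0, 0⟩ ⟨118, -3, -512, 12, -27, 102, 118555, 0, 0, 0, 0, 0, 0⟩)))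
    (.s2
    (.s0
    (.leaf (.box ⟨418, -1, -1979, 6, -23, 470, 567534, 0, 0, 0, 0, 0, 0⟩ ⟨0, 0, 0, 0, 0, 0, 250169, 0, 0, 0, 0, 0, 0⟩ ⟨0, 0, 0, 0, 0, 0, 250169, 0, 0, 0, 0, 0, 0⟩ ⟨0, 0, 0, 0, 0, 0, 160447, 0, 0, 0, 0, 0, 0⟩ ⟨0, 0, 0, 0, 0, 0, 160447, 0, 0, 0, 0, 0, 0⟩ ⟨102, -2, -512, 8, -23, 103, 118093, 0, 0, 0, 0, 0, 0⟩))
    (.leaf (.box ⟨368, -1, -1569, 6, -19, 416, 737099, 0, 0, 0, 0, 0, 0⟩ ⟨187, -1, -783, 6, -24, 195, 275870, 0, 0, 0, 0, 0, 0⟩ ⟨187, -1, -783, 6, -24, 195, 275870, 0, 0, 0, 0, 0, 0⟩ ⟨116, -1, -512, 6, -23, 121, 175878, 0, 0, 0, 0, 0, 0⟩ ⟨116, -1, -512, 6, -23, 121, 175878, 0, 0, 0, 0, 0, 0⟩ ⟨111, -1, -512, 8, -28, 114, 134004, 0, 0, 0, 0, 0, 0⟩)))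
    (.leaf (.box ⟨249, -1, -1071, 6, -13, 239, 574663, 0, 0, 0, 0, 0, 0⟩ ⟨0, 0, 0, 0, 0, 0, 254611, 0, 0, 0, 0, 0, 0⟩ ⟨0, 0, 0, 0, 0, 0, 254611, 0, 0, 0, 0, 0, 0⟩ ⟨0, 0, 0, 0, 0, 0, 163533, 0, 0, 0, 0, 0, 0⟩ ⟨0, 0, 0, 0, 0, 0, 163533, 0, 0, 0, 0, 0, 0⟩ ⟨109, -2, -512, 10, -25, 99, 120447, 0, 0, 0, 0, 0, 0⟩))))
    (.s1
    (.s2
    (.s0
    (.leaf (.box ⟨535, -1, -3026, 6, -25, 716, 781185, 0, 0, 0, 0, 0, 0⟩ ⟨0, 0, 0, 0, 0, 0, 274115, 0, 0, 0, 0, 0, 0⟩ ⟨0, 0, 0, 0, 0, 0, 274115, 0, 0, 0, 0, 0, 0⟩ ⟨0, 0, 0, 0, 0, 0, 166221, 0, 0, 0, 0, 0, 0⟩ ⟨0, 0, 0, 0, 0, 0, 166221, 0, 0, 0, 0, 0, 0⟩ ⟨102, -1, -590, 6, -25, 116, 119273, 0, 0, 0, 0, 0, 0⟩))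
    (.leaf (.box ⟨454, -1, -2298, 6, -20, 604, 985862, 0, 0, 0, 0, 0, 0⟩ ⟨177, -1, -911, 6, -24, 224, 301227, 0, 0, 0, 0, 0, 0⟩ ⟨177, -1, -911, 6, -24, 224, 301227, 0, 0, 0, 0, 0, 0⟩ ⟨108, -1, -550, 6, -22, 127, 183650, 0, 0, 0, 0, 0, 0⟩ ⟨108, -1, -550, 6, -22, 127, 183650, 0, 0, 0, 0, 0, 0⟩ ⟨96, -1, -512, 7, -26, 111, 133637, 0, 0, 0, 0, 0, 0⟩)))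
    (.s3
    (.leaf (.box ⟨461, -1, -2387, 6, -22, 539, 773603, 0, 0, 0, 0, 0, 0⟩ ⟨0, 0, 0, 0, 0, 0, 278139, 0, 0, 0, 0, 0, 0⟩ ⟨0, 0, 0, 0, 0, 0, 278139, 0, 0, 0, 0, 0, 0⟩ ⟨0, 0, 0, 0, 0, 0, 169549, 0, 0, 0, 0, 0, 0⟩ ⟨0, 0, 0, 0, 0, 0, 169549, 0, 0, 0, 0, 0, 0⟩ ⟨89, -2, -512, 9, -24, 99, 121941, 0, 0, 0, 0, 0, 0⟩))
    (.leaf (.box ⟨600, -1, -3277, 6, -20, 723, 1129981, 0, 0, 0, 0, 0, 0⟩ ⟨0, 0, 0, 0, 0, 0, 302941, 0, 0, 0, 0, 0, 0⟩ ⟨0, 0, 0, 0, 0, 0, 302941, 0, 0, 0, 0, 0, 0⟩ ⟨0, 0, 0, 0, 0, 0, 174918, 0, 0, 0, 0, 0, 0⟩ ⟨0, 0, 0, 0, 0, 0, 174918, 0, 0, 0, 0, 0, 0⟩ ⟨83, -1, -512, 7, -23, 96, 122956, 0, 0, 0, 0, 0, 0⟩))))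
    (.s2
    (.s0
    (.leaf (.box ⟨496, -2, -2989, 6, -22, 657, 766384, 0, 0, 0, 0, 0, 0⟩ ⟨0, 0, 0, 0, 0, 0, 272540, 0, 0, 0, 0, 0, 0⟩ ⟨0, 0, 0, 0, 0, 0, 272540, 0, 0, 0, 0, 0, 0⟩ ⟨0, 0, 0, 0, 0, 0, 165740, 0, 0, 0, 0, 0, 0⟩ ⟨0, 0, 0, 0, 0, 0, 165740, 0, 0, 0, 0, 0, 0⟩ ⟨89, -2, -566, 6, -21, 104, 119077, 0, 0, 0, 0, 0, 0⟩))
    (.leaf (.box ⟨437, -1, -2396, 6, -22, 582, 844707, 0, 0, 0, 0, 0, 0⟩ ⟨0, 0, 0, 0, 0, 0, 299658, 0, 0, 0, 0, 0, 0⟩ ⟨0, 0, 0, 0, 0, 0, 299658, 0, 0, 0, 0, 0, 0⟩ ⟨0, 0, 0, 0, 0, 0, 182135, 0, 0, 0, 0, 0, 0⟩ ⟨0, 0, 0, 0, 0, 0, 182135, 0, 0, 0, 0, 0, 0⟩ ⟨89, -1, -512, 6, -23, 103, 130826, 0, 0, 0, 0, 0, 0⟩)))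
    (.s3
    (.leaf (.box ⟨412, -2, -2328, 6, -20, 491, 764086, 0, 0, 0, 0, 0, 0⟩ ⟨0, 0, 0, 0, 0, 0, 277347, 0, 0, 0, 0, 0, 0⟩ ⟨0, 0, 0, 0, 0, 0, 277347, 0, 0, 0, 0, 0, 0⟩ ⟨0, 0, 0, 0, 0, 0, 169422, 0, 0, 0, 0, 0, 0⟩ ⟨0, 0, 0, 0, 0, 0, 169422, 0, 0, 0, 0, 0, 0⟩ ⟨80, -2, -512, 7, -22, 93, 121962, 0, 0, 0, 0, 0, 0⟩))
    (.leaf (.box ⟨523, -2, -3086, 6, -17, 638, 1111783, 0, 0, 0, 0, 0, 0⟩ ⟨0, 0, 0, 0, 0, 0, 302383, 0, 0, 0, 0, 0, 0⟩ ⟨0, 0, 0, 0, 0, 0, 302383, 0, 0, 0, 0, 0, 0⟩ ⟨0, 0, 0, 0, 0, 0, 174988, 0, 0, 0, 0, 0, 0⟩ ⟨0, 0, 0, 0, 0, 0, 174988, 0, 0, 0, 0, 0, 0⟩ ⟨77, -2, -512, 7, -20, 90, 123118, 0, 0, 0, 0, 0, 0⟩)))))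

/-- A piece of the tree. -/
noncomputable def tree74 : Tree LeafX :=
  .s0
    (.s1
    (.s0
    (.leaf (.box ⟨355, -3, -2585, 6, -21, 452, 393117, 0, 0, 0, 0, 0, 0⟩ ⟨0, 0, 0, 0, 0, 0, 197361, 0, 0, 0, 0, 0, 0⟩ ⟨0, 0, 0, 0, 0, 0, 197361, 0, 0, 0, 0, 0, 0⟩ ⟨0, 0, 0, 0, 0, 0, 131753, 0, 0, 0, 0, 0, 0⟩ ⟨0, 0, 0, 0, 0, 0, 131753, 0, 0, 0, 0, 0, 0⟩ ⟨93, -3, -703, 6, -18, 107, 98882, 0, 0, 0, 0, 0, 0⟩))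
    (.s2
    (.leaf (.box ⟨355, -3, -2301, 6, -22, 443, 425373, 0, 0, 0, 0, 0, 0⟩ ⟨0, 0, 0, 0, 0, 0, 213203, 0, 0, 0, 0, 0, 0⟩ ⟨0, 0, 0, 0, 0, 0, 213203, 0, 0, 0, 0, 0, 0⟩ ⟨0, 0, 0, 0, 0, 0, 142251, 0, 0, 0, 0, 0, 0⟩ ⟨0, 0, 0, 0, 0, 0, 142251, 0, 0, 0, 0, 0, 0⟩ ⟨101, -3, -610, 6, -18, 100, 106731, 0, 0, 0, 0, 0, 0⟩))
    (.leaf (.box ⟨299, -3, -2497, 6, -24, 448, 425547, 0, 0, 0, 0, 0, 0⟩ ⟨0, 0, 0, 0, 0, 0, 214172, 0, 0, 0, 0, 0, 0⟩ ⟨0, 0, 0, 0, 0, 0, 214172, 0, 0, 0, 0, 0, 0⟩ ⟨0, 0, 0, 0, 0, 0, 143095, 0, 0, 0, 0, 0, 0⟩ ⟨0, 0, 0, 0, 0, 0, 143095, 0, 0, 0, 0, 0, 0⟩ ⟨65, -3, -548, 6, -16, 86, 107439, 0, 0, 0, 0, 0, 0⟩))))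
    (.leaf (.box ⟨256, -4, -1406, 6, -12, 244, 391208, 0, 0, 0, 0, 0, 0⟩ ⟨0, 0, 0, 0, 0, 0, 197931, 0, 0, 0, 0, 0, 0⟩ ⟨0, 0, 0, 0, 0, 0, 197931, 0, 0, 0, 0, 0, 0⟩ ⟨0, 0, 0, 0, 0, 0, 132479, 0, 0, 0, 0, 0, 0⟩ ⟨0, 0, 0, 0, 0, 0, 132479, 0, 0, 0, 0, 0, 0⟩ ⟨89, -4, -512, 8, -13, 77, 99557, 0, 0, 0, 0, 0, 0⟩)))
    (.s2
    (.s3
    (.s0
    (.leaf (.box ⟨419, -2, -2156, 6, -22, 449, 531959, 0, 0, 0, 0, 0, 0⟩ ⟨186, -2, -967, 6, -20, 191, 231928, 0, 0, 0, 0, 0, 0⟩ ⟨186, -2, -967, 6, -20, 191, 231928, 0, 0, 0, 0, 0, 0⟩ ⟨130, -2, -666, 6, -20, 125, 153927, 0, 0, 0, 0, 0, 0⟩ ⟨130, -2, -666, 6, -20, 125, 153927, 0, 0, 0, 0, 0, 0⟩ ⟨102, -2, -534, 6, -18, 95, 121149, 0, 0, 0, 0, 0, 0⟩))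
    (.s2
    (.leaf (.box ⟨264, -2, -1415, 6, -22, 338, 490069, 0, 0, 0, 0, 0, 0⟩ ⟨0, 0, 0, 0, 0, 0, 251421, 0, 0, 0, 0, 0, 0⟩ ⟨0, 0, 0, 0, 0, 0, 251421, 0, 0, 0, 0, 0, 0⟩ ⟨0, 0, 0, 0, 0, 0, 169083, 0, 0, 0, 0, 0, 0⟩ ⟨0, 0, 0, 0, 0, 0, 169083, 0, 0, 0, 0, 0, 0⟩ ⟨98, -3, -512, 9, -23, 103, 127370, 0, 0, 0, 0, 0, 0⟩))
    (.leaf (.box ⟨318, -2, -1806, 6, -22, 404, 588680, 0, 0, 0, 0, 0, 0⟩ ⟨149, -2, -841, 6, -22, 178, 257391, 0, 0, 0, 0, 0, 0⟩ ⟨149, -2, -841, 6, -22, 178, 257391, 0, 0, 0, 0, 0, 0⟩ ⟨93, -2, -525, 6, -19, 105, 171195, 0, 0, 0, 0, 0, 0⟩ ⟨93, -2, -525, 6, -19, 105, 171195, 0, 0, 0, 0, 0, 0⟩ ⟨87, -2, -512, 7, -21, 98, 134963, 0, 0, 0, 0, 0, 0⟩))))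
    (.s0
    (.s1
    (.leaf (.box ⟨694, -2, -4647, 6, -27, 958, 869552, 0, 0, 0, 0, 0, 0⟩ ⟨204, -2, -1355, 6, -23, 263, 270736, 0, 0, 0, 0, 0, 0⟩ ⟨204, -2, -1355, 6, -23, 263, 270736, 0, 0, 0, 0, 0, 0⟩ ⟨132, -2, -917, 6, -23, 168, 166378, 0, 0, 0, 0, 0, 0⟩ ⟨132, -2, -917, 6, -23, 168, 166378, 0, 0, 0, 0, 0, 0⟩ ⟨107, -2, -755, 6, -24, 131, 121787, 0, 0, 0, 0, 0, 0⟩))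
    (.leaf (.box ⟨499, -3, -3666, 6, -22, 717, 746781, 0, 0, 0, 0, 0, 0⟩ ⟨0, 0, 0, 0, 0, 0, 272108, 0, 0, 0, 0, 0, 0⟩ ⟨0, 0, 0, 0, 0, 0, 272108, 0, 0, 0, 0, 0, 0⟩ ⟨0, 0, 0, 0, 0, 0, 166363, 0, 0, 0, 0, 0, 0⟩ ⟨0, 0, 0, 0, 0, 0, 166363, 0, 0, 0, 0, 0, 0⟩ ⟨85, -3, -666, 6, -19, 110, 119805, 0, 0, 0, 0, 0, 0⟩)))
    (.s3
    (.leaf (.box ⟨494, -2, -2719, 6, -22, 605, 819027, 0, 0, 0, 0, 0, 0⟩ ⟨0, 0, 0, 0, 0, 0, 298127, 0, 0, 0, 0, 0, 0⟩ ⟨0, 0, 0, 0, 0, 0, 298127, 0, 0, 0, 0, 0, 0⟩ ⟨0, 0, 0, 0, 0, 0, 182230, 0, 0, 0, 0, 0, 0⟩ ⟨0, 0, 0, 0, 0, 0, 182230, 0, 0, 0, 0, 0, 0⟩ ⟨89, -2, -512, 6, -20, 95, 131218, 0, 0, 0, 0, 0, 0⟩))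
    (.leaf (.box ⟨579, -2, -3282, 6, -17, 714, 1193208, 0, 0, 0, 0, 0, 0⟩ ⟨0, 0, 0, 0, 0, 0, 325116, 0, 0, 0, 0, 0, 0⟩ ⟨0, 0, 0, 0, 0, 0, 325116, 0, 0, 0, 0, 0, 0⟩ ⟨0, 0, 0, 0, 0, 0, 188198, 0, 0, 0, 0, 0, 0⟩ ⟨0, 0, 0, 0, 0, 0, 188198, 0, 0, 0, 0, 0, 0⟩ ⟨87, -2, -530, 6, -19, 96, 132427, 0, 0, 0, 0, 0, 0⟩)))))
    (.s0
    (.leaf (.box ⟨268, -3, -1589, 6, -17, 298, 466538, 0, 0, 0, 0, 0, 0⟩ ⟨0, 0, 0, 0, 0, 0, 235239, 0, 0, 0, 0, 0, 0⟩ ⟨0, 0, 0, 0, 0, 0, 235239, 0, 0, 0, 0, 0, 0⟩ ⟨0, 0, 0, 0, 0, 0, 157269, 0, 0, 0, 0, 0, 0⟩ ⟨0, 0, 0, 0, 0, 0, 157269, 0, 0, 0, 0, 0, 0⟩ ⟨83, -3, -512, 7, -17, 84, 118118, 0, 0, 0, 0, 0, 0⟩))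
    (.leaf (.box ⟨284, -2, -1454, 6, -18, 294, 518558, 0, 0, 0, 0, 0, 0⟩ ⟨0, 0, 0, 0, 0, 0, 261624, 0, 0, 0, 0, 0, 0⟩ ⟨0, 0, 0, 0, 0, 0, 261624, 0, 0, 0, 0, 0, 0⟩ ⟨0, 0, 0, 0, 0, 0, 174944, 0, 0, 0, 0, 0, 0⟩ ⟨0, 0, 0, 0, 0, 0, 174944, 0, 0, 0, 0, 0, 0⟩ ⟨95, -2, -512, 7, -20, 90, 131406, 0, 0, 0, 0, 0, 0⟩))))

/-- A piece of the tree. -/
noncomputable def tree75 : Tree LeafX :=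
  .s0
    (.leaf (.box ⟨230, -5, -1238, 6, -10, 202, 389949, 0, 0, 0, 0, 0, 0⟩ ⟨0, 0, 0, 0, 0, 0, 199032, 0, 0, 0, 0, 0, 0⟩ ⟨0, 0, 0, 0, 0, 0, 199032, 0, 0, 0, 0, 0, 0⟩ ⟨0, 0, 0, 0, 0, 0, 133615, 0, 0, 0, 0, 0, 0⟩ ⟨0, 0, 0, 0, 0, 0, 133615, 0, 0, 0, 0, 0, 0⟩ ⟨93, -10, -512, 12, -10, 72, 100562, 0, 0, 0, 0, 0, 0⟩))
    (.s0
    (.s1
    (.s1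
    (.s2
    (.leaf (.box ⟨326, -3, -2180, 6, -21, 413, 454170, 0, 0, 0, 0, 0, 0⟩ ⟨0, 0, 0, 0, 0, 0, 230984, 0, 0, 0, 0, 0, 0⟩ ⟨0, 0, 0, 0, 0, 0, 230984, 0, 0, 0, 0, 0, 0⟩ ⟨0, 0, 0, 0, 0, 0, 154876, 0, 0, 0, 0, 0, 0⟩ ⟨0, 0, 0, 0, 0, 0, 154876, 0, 0, 0, 0, 0, 0⟩ ⟨91, -3, -617, 6, -17, 100, 116492, 0, 0, 0, 0, 0, 0⟩))
    (.leaf (.box ⟨269, -3, -2406, 6, -24, 423, 460232, 0, 0, 0, 0, 0, 0⟩ ⟨0, 0, 0, 0, 0, 0, 236037, 0, 0, 0, 0, 0, 0⟩ ⟨0, 0, 0, 0, 0, 0, 236037, 0, 0, 0, 0, 0, 0⟩ ⟨0, 0, 0, 0, 0, 0, 158719, 0, 0, 0, 0, 0, 0⟩ ⟨0, 0, 0, 0, 0, 0, 158719, 0, 0, 0, 0, 0, 0⟩ ⟨73, -3, -673, 6, -20, 104, 119556, 0, 0, 0, 0, 0, 0⟩)))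
    (.leaf (.box ⟨267, -4, -1627, 6, -15, 286, 451656, 0, 0, 0, 0, 0, 0⟩ ⟨0, 0, 0, 0, 0, 0, 231877, 0, 0, 0, 0, 0, 0⟩ ⟨0, 0, 0, 0, 0, 0, 231877, 0, 0, 0, 0, 0, 0⟩ ⟨0, 0, 0, 0, 0, 0, 155977, 0, 0, 0, 0, 0, 0⟩ ⟨0, 0, 0, 0, 0, 0, 155977, 0, 0, 0, 0, 0, 0⟩ ⟨78, -4, -512, 7, -13, 78, 117512, 0, 0, 0, 0, 0, 0⟩)))
    (.leaf (.box ⟨269, -5, -1657, 6, -12, 280, 530756, 0, 0, 0, 0, 0, 0⟩ ⟨110, -5, -731, 6, -11, 118, 233842, 0, 0, 0, 0, 0, 0⟩ ⟨110, -5, -731, 6, -11, 118, 233842, 0, 0, 0, 0, 0, 0⟩ ⟨76, -5, -512, 7, -10, 79, 156971, 0, 0, 0, 0, 0, 0⟩ ⟨76, -5, -512, 7, -10, 79, 156971, 0, 0, 0, 0, 0, 0⟩ ⟨75, -7, -512, 9, -11, 75, 123892, 0, 0, 0, 0, 0, 0⟩)))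
    (.s2
    (.s1
    (.s1
    (.leaf (.box ⟨309, -3, -1761, 6, -21, 365, 497002, 0, 0, 0, 0, 0, 0⟩ ⟨0, 0, 0, 0, 0, 0, 252679, 0, 0, 0, 0, 0, 0⟩ ⟨0, 0, 0, 0, 0, 0, 252679, 0, 0, 0, 0, 0, 0⟩ ⟨0, 0, 0, 0, 0, 0, 169402, 0, 0, 0, 0, 0, 0⟩ ⟨0, 0, 0, 0, 0, 0, 169402, 0, 0, 0, 0, 0, 0⟩ ⟨88, -3, -512, 7, -17, 90, 127410, 0, 0, 0, 0, 0, 0⟩))
    (.s2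
    (.leaf (.box ⟨242, -3, -1764, 6, -19, 359, 493413, 0, 0, 0, 0, 0, 0⟩ ⟨0, 0, 0, 0, 0, 0, 253188, 0, 0, 0, 0, 0, 0⟩ ⟨0, 0, 0, 0, 0, 0, 253188, 0, 0, 0, 0, 0, 0⟩ ⟨0, 0, 0, 0, 0, 0, 170284, 0, 0, 0, 0, 0, 0⟩ ⟨0, 0, 0, 0, 0, 0, 170284, 0, 0, 0, 0, 0, 0⟩ ⟨77, -3, -524, 6, -16, 90, 128279, 0, 0, 0, 0, 0, 0⟩))
    (.leaf (.box ⟨276, -3, -2236, 6, -24, 431, 498500, 0, 0, 0, 0, 0, 0⟩ ⟨0, 0, 0, 0, 0, 0, 257271, 0, 0, 0, 0, 0, 0⟩ ⟨0, 0, 0, 0, 0, 0, 257271, 0, 0, 0, 0, 0, 0⟩ ⟨0, 0, 0, 0, 0, 0, 173374, 0, 0, 0, 0, 0, 0⟩ ⟨0, 0, 0, 0, 0, 0, 173374, 0, 0, 0, 0, 0, 0⟩ ⟨70, -3, -541, 6, -16, 89, 130739, 0, 0, 0, 0, 0, 0⟩))))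
    (.leaf (.box ⟨270, -4, -1695, 6, -14, 318, 578631, 0, 0, 0, 0, 0, 0⟩ ⟨151, -4, -937, 6, -16, 166, 254920, 0, 0, 0, 0, 0, 0⟩ ⟨151, -4, -937, 6, -16, 166, 254920, 0, 0, 0, 0, 0, 0⟩ ⟨94, -4, -592, 6, -13, 100, 171111, 0, 0, 0, 0, 0, 0⟩ ⟨94, -4, -592, 6, -13, 100, 171111, 0, 0, 0, 0, 0, 0⟩ ⟨78, -4, -512, 7, -12, 82, 135046, 0, 0, 0, 0, 0, 0⟩)))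
    (.s1
    (.leaf (.box ⟨292, -3, -1872, 6, -21, 345, 510926, 0, 0, 0, 0, 0, 0⟩ ⟨0, 0, 0, 0, 0, 0, 261932, 0, 0, 0, 0, 0, 0⟩ ⟨0, 0, 0, 0, 0, 0, 261932, 0, 0, 0, 0, 0, 0⟩ ⟨0, 0, 0, 0, 0, 0, 176108, 0, 0, 0, 0, 0, 0⟩ ⟨0, 0, 0, 0, 0, 0, 176108, 0, 0, 0, 0, 0, 0⟩ ⟨74, -3, -512, 7, -17, 83, 132645, 0, 0, 0, 0, 0, 0⟩))
    (.leaf (.box ⟨255, -4, -2162, 6, -23, 375, 507677, 0, 0, 0, 0, 0, 0⟩ ⟨0, 0, 0, 0, 0, 0, 265614, 0, 0, 0, 0, 0, 0⟩ ⟨0, 0, 0, 0, 0, 0, 265614, 0, 0, 0, 0, 0, 0⟩ ⟨0, 0, 0, 0, 0, 0, 179857, 0, 0, 0, 0, 0, 0⟩ ⟨0, 0, 0, 0, 0, 0, 179857, 0, 0, 0, 0, 0, 0⟩ ⟨56, -4, -512, 6, -15, 79, 135960, 0, 0, 0, 0, 0, 0⟩)))))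

/-- A piece of the tree. -/
noncomputable def tree76 : Tree LeafX :=
  .s1
    (.s0
    (.leaf (.box ⟨318, -16, -512, 10, -2, 102, 321361, 0, 0, 0, 0, 0, 0⟩ ⟨0, 0, 0, 0, 0, 0, 167664, 0, 0, 0, 0, 0, 0⟩ ⟨0, 0, 0, 0, 0, 0, 167664, 0, 0, 0, 0, 0, 0⟩ ⟨0, 0, 0, 0, 0, 0, 113419, 0, 0, 0, 0, 0, 0⟩ ⟨0, 0, 0, 0, 0, 0, 113419, 0, 0, 0, 0, 0, 0⟩ ⟨248, -36, -512, 25, 0, 75, 85694, 0, 0, 0, 0, 0, 0⟩))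
    (.s2
    (.s0
    (.leaf (.box ⟨108, -7, -711, 6, -1, 126, 397778, 0, 0, 0, 0, 0, 0⟩ ⟨0, 0, 0, 0, 0, 0, 208751, 0, 0, 0, 0, 0, 0⟩ ⟨0, 0, 0, 0, 0, 0, 208751, 0, 0, 0, 0, 0, 0⟩ ⟨0, 0, 0, 0, 0, 0, 141507, 0, 0, 0, 0, 0, 0⟩ ⟨0, 0, 0, 0, 0, 0, 141507, 0, 0, 0, 0, 0, 0⟩ ⟨104, -14, -512, 13, 2, 75, 107029, 0, 0, 0, 0, 0, 0⟩))
    (.s2
    (.s0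
    (.leaf (.box ⟨124, -5, -932, 6, -1, 186, 460211, 0, 0, 0, 0, 0, 0⟩ ⟨0, 0, 0, 0, 0, 0, 237907, 0, 0, 0, 0, 0, 0⟩ ⟨0, 0, 0, 0, 0, 0, 237907, 0, 0, 0, 0, 0, 0⟩ ⟨0, 0, 0, 0, 0, 0, 160417, 0, 0, 0, 0, 0, 0⟩ ⟨0, 0, 0, 0, 0, 0, 160417, 0, 0, 0, 0, 0, 0⟩ ⟨83, -7, -512, 10, 1, 86, 121004, 0, 0, 0, 0, 0, 0⟩))
    (.leaf (.box ⟨134, -4, -838, 6, -3, 182, 498047, 0, 0, 0, 0, 0, 0⟩ ⟨0, 0, 0, 0, 0, 0, 255748, 0, 0, 0, 0, 0, 0⟩ ⟨0, 0, 0, 0, 0, 0, 255748, 0, 0, 0, 0, 0, 0⟩ ⟨0, 0, 0, 0, 0, 0, 172048, 0, 0, 0, 0, 0, 0⟩ ⟨0, 0, 0, 0, 0, 0, 172048, 0, 0, 0, 0, 0, 0⟩ ⟨98, -7, -512, 12, -3, 93, 129624, 0, 0, 0, 0, 0, 0⟩)))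
    (.s0
    (.leaf (.box ⟨147, -6, -1161, 6, -5, 212, 455458, 0, 0, 0, 0, 0, 0⟩ ⟨0, 0, 0, 0, 0, 0, 237113, 0, 0, 0, 0, 0, 0⟩ ⟨0, 0, 0, 0, 0, 0, 237113, 0, 0, 0, 0, 0, 0⟩ ⟨0, 0, 0, 0, 0, 0, 160277, 0, 0, 0, 0, 0, 0⟩ ⟨0, 0, 0, 0, 0, 0, 160277, 0, 0, 0, 0, 0, 0⟩ ⟨75, -9, -512, 9, -3, 77, 121050, 0, 0, 0, 0, 0, 0⟩))
    (.s1
    (.leaf (.box ⟨211, -5, -1389, 6, -11, 276, 492011, 0, 0, 0, 0, 0, 0⟩ ⟨0, 0, 0, 0, 0, 0, 255192, 0, 0, 0, 0, 0, 0⟩ ⟨0, 0, 0, 0, 0, 0, 255192, 0, 0, 0, 0, 0, 0⟩ ⟨0, 0, 0, 0, 0, 0, 172272, 0, 0, 0, 0, 0, 0⟩ ⟨0, 0, 0, 0, 0, 0, 172272, 0, 0, 0, 0, 0, 0⟩ ⟨86, -6, -512, 8, -8, 84, 130023, 0, 0, 0, 0, 0, 0⟩))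
    (.leaf (.box ⟨168, -6, -1312, 6, -8, 254, 494399, 0, 0, 0, 0, 0, 0⟩ ⟨0, 0, 0, 0, 0, 0, 260918, 0, 0, 0, 0, 0, 0⟩ ⟨0, 0, 0, 0, 0, 0, 260918, 0, 0, 0, 0, 0, 0⟩ ⟨0, 0, 0, 0, 0, 0, 177224, 0, 0, 0, 0, 0, 0⟩ ⟨0, 0, 0, 0, 0, 0, 177224, 0, 0, 0, 0, 0, 0⟩ ⟨69, -6, -512, 7, -5, 82, 134182, 0, 0, 0, 0, 0, 0⟩))))))
    (.s0
    (.leaf (.box ⟨85, -8, -745, 6, -5, 118, 393365, 0, 0, 0, 0, 0, 0⟩ ⟨0, 0, 0, 0, 0, 0, 207801, 0, 0, 0, 0, 0, 0⟩ ⟨0, 0, 0, 0, 0, 0, 207801, 0, 0, 0, 0, 0, 0⟩ ⟨0, 0, 0, 0, 0, 0, 141194, 0, 0, 0, 0, 0, 0⟩ ⟨0, 0, 0, 0, 0, 0, 141194, 0, 0, 0, 0, 0, 0⟩ ⟨45, -17, -512, 15, -7, 69, 106922, 0, 0, 0, 0, 0, 0⟩))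
    (.s0
    (.leaf (.box ⟨136, -7, -1019, 6, -8, 166, 450973, 0, 0, 0, 0, 0, 0⟩ ⟨0, 0, 0, 0, 0, 0, 238287, 0, 0, 0, 0, 0, 0⟩ ⟨0, 0, 0, 0, 0, 0, 238287, 0, 0, 0, 0, 0, 0⟩ ⟨0, 0, 0, 0, 0, 0, 161922, 0, 0, 0, 0, 0, 0⟩ ⟨0, 0, 0, 0, 0, 0, 161922, 0, 0, 0, 0, 0, 0⟩ ⟨54, -10, -512, 11, -9, 73, 122624, 0, 0, 0, 0, 0, 0⟩))
    (.leaf (.box ⟨214, -6, -1234, 6, -10, 210, 581860, 0, 0, 0, 0, 0, 0⟩ ⟨93, -5, -552, 6, -9, 90, 259122, 0, 0, 0, 0, 0, 0⟩ ⟨93, -5, -552, 6, -9, 90, 259122, 0, 0, 0, 0, 0, 0⟩ ⟨80, -8, -512, 9, -11, 80, 175387, 0, 0, 0, 0, 0, 0⟩ ⟨80, -8, -512, 9, -11, 80, 175387, 0, 0, 0, 0, 0, 0⟩ ⟨74, -9, -512, 11, -12, 77, 139475, 0, 0, 0, 0, 0, 0⟩))))))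
    (.s0
    (.leaf (.box ⟨274, -24, -512, 13, 3, 96, 311527, 0, 0, 0, 0, 0, 0⟩ ⟨0, 0, 0, 0, 0, 0, 169199, 0, 0, 0, 0, 0, 0⟩ ⟨0, 0, 0, 0, 0, 0, 169199, 0, 0, 0, 0, 0, 0⟩ ⟨0, 0, 0, 0, 0, 0, 116138, 0, 0, 0, 0, 0, 0⟩ ⟨0, 0, 0, 0, 0, 0, 116138, 0, 0, 0, 0, 0, 0⟩ ⟨213, -64, -512, 39, 18, 67, 88412, 0, 0, 0, 0, 0, 0⟩))
    (.s2
    (.s2
    (.leaf (.box ⟨112, -6, -535, 6, 2, 105, 494576, 0, 0, 0, 0, 0, 0⟩ ⟨116, -11, -512, 11, 5, 93, 220989, 0, 0, 0, 0, 0, 0⟩ ⟨116, -11, -512, 11, 5, 93, 220989, 0, 0, 0, 0, 0, 0⟩ ⟨126, -15, -512, 15, 8, 87, 149960, 0, 0, 0, 0, 0, 0⟩ ⟨126, -15, -512, 15, 8, 87, 149960, 0, 0, 0, 0, 0, 0⟩ ⟨139, -19, -512, 19, 12, 82, 119529, 0, 0, 0, 0, 0, 0⟩))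
    (.leaf (.box ⟨89, -10, -512, 7, 0, 93, 405276, 0, 0, 0, 0, 0, 0⟩ ⟨0, 0, 0, 0, 0, 0, 218749, 0, 0, 0, 0, 0, 0⟩ ⟨0, 0, 0, 0, 0, 0, 218749, 0, 0, 0, 0, 0, 0⟩ ⟨0, 0, 0, 0, 0, 0, 149803, 0, 0, 0, 0, 0, 0⟩ ⟨0, 0, 0, 0, 0, 0, 149803, 0, 0, 0, 0, 0, 0⟩ ⟨117, -28, -512, 22, 6, 75, 113902, 0, 0, 0, 0, 0, 0⟩)))
    (.leaf (.box ⟨79, -12, -512, 9, -4, 83, 401898, 0, 0, 0, 0, 0, 0⟩ ⟨0, 0, 0, 0, 0, 0, 218368, 0, 0, 0, 0, 0, 0⟩ ⟨0, 0, 0, 0, 0, 0, 218368, 0, 0, 0, 0, 0, 0⟩ ⟨0, 0, 0, 0, 0, 0, 149910, 0, 0, 0, 0, 0, 0⟩ ⟨0, 0, 0, 0, 0, 0, 149910, 0, 0, 0, 0, 0, 0⟩ ⟨76, -33, -512, 28, -5, 71, 114130, 0, 0, 0, 0, 0, 0⟩))))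

/-- A piece of the tree. -/
noncomputable def tree77 : Tree LeafX :=
  .s1
    (.s0
    (.leaf (.box ⟨512, -13, 143, 13, -2, 32, 171935, 0, 0, 0, 0, 0, 0⟩ ⟨0, 0, 0, 0, 0, 0, 83796, 0, 0, 0, 0, 0, 0⟩ ⟨0, 0, 0, 0, 0, 0, 83796, 0, 0, 0, 0, 0, 0⟩ ⟨0, 0, 0, 0, 0, 0, 55398, 0, 0, 0, 0, 0, 0⟩ ⟨0, 0, 0, 0, 0, 0, 55398, 0, 0, 0, 0, 0, 0⟩ ⟨512, -46, 82, 44, -6, 27, 41375, 0, 0, 0, 0, 0, 0⟩))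
    (.s2
    (.leaf (.box ⟨512, -10, -66, 11, -6, 89, 263641, 0, 0, 0, 0, 0, 0⟩ ⟨0, 0, 0, 0, 0, 0, 127957, 0, 0, 0, 0, 0, 0⟩ ⟨0, 0, 0, 0, 0, 0, 127957, 0, 0, 0, 0, 0, 0⟩ ⟨0, 0, 0, 0, 0, 0, 84479, 0, 0, 0, 0, 0, 0⟩ ⟨0, 0, 0, 0, 0, 0, 84479, 0, 0, 0, 0, 0, 0⟩ ⟨512, -37, -254, 39, -20, 88, 63054, 0, 0, 0, 0, 0, 0⟩))
    (.leaf (.box ⟨512, -5, -291, 8, 0, 47, 245149, 0, 0, 0, 0, 0, 0⟩ ⟨0, 0, 0, 0, 0, 0, 119726, 0, 0, 0, 0, 0, 0⟩ ⟨0, 0, 0, 0, 0, 0, 119726, 0, 0, 0, 0, 0, 0⟩ ⟨0, 0, 0, 0, 0, 0, 79204, 0, 0, 0, 0, 0, 0⟩ ⟨0, 0, 0, 0, 0, 0, 79204, 0, 0, 0, 0, 0, 0⟩ ⟨512, -21, -284, 29, 1, 35, 59175, 0, 0, 0, 0, 0, 0⟩))))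
    (.s0
    (.s1
    (.leaf (.box ⟨512, -20, 127, 11, 1, 25, 226145, 0, 0, 0, 0, 0, 0⟩ ⟨0, 0, 0, 0, 0, 0, 117458, 0, 0, 0, 0, 0, 0⟩ ⟨0, 0, 0, 0, 0, 0, 117458, 0, 0, 0, 0, 0, 0⟩ ⟨0, 0, 0, 0, 0, 0, 79331, 0, 0, 0, 0, 0, 0⟩ ⟨0, 0, 0, 0, 0, 0, 79331, 0, 0, 0, 0, 0, 0⟩ ⟨512, -71, 61, 34, 7, 22, 59890, 0, 0, 0, 0, 0, 0⟩))
    (.s0
    (.s0
    (.s2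
    (.s1
    (.leaf (.box ⟨361, -19, 512, 15, 21, 50, 263892, 0, 0, 0, 0, 0, 0⟩ ⟨0, 0, 0, 0, 0, 0, 132986, 0, 0, 0, 0, 0, 0⟩ ⟨0, 0, 0, 0, 0, 0, 132986, 0, 0, 0, 0, 0, 0⟩ ⟨0, 0, 0, 0, 0, 0, 88891, 0, 0, 0, 0, 0, 0⟩ ⟨0, 0, 0, 0, 0, 0, 88891, 0, 0, 0, 0, 0, 0⟩ ⟨512, -77, 354, 53, 79, 46, 66756, 0, 0, 0, 0, 0, 0⟩))
    (.leaf (.box ⟨443, -9, 512, 18, 30, 44, 287543, 0, 0, 0, 0, 0, 0⟩ ⟨0, 0, 0, 0, 0, 0, 132443, 0, 0, 0, 0, 0, 0⟩ ⟨0, 0, 0, 0, 0, 0, 132443, 0, 0, 0, 0, 0, 0⟩ ⟨0, 0, 0, 0, 0, 0, 86036, 0, 0, 0, 0, 0, 0⟩ ⟨0, 0, 0, 0, 0, 0, 86036, 0, 0, 0, 0, 0, 0⟩ ⟨512, -31, 300, 60, 100, 32, 63711, 0, 0, 0, 0, 0, 0⟩)))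
    (.s1
    (.leaf (.box ⟨512, -15, 372, 10, 8, 24, 260477, 0, 0, 0, 0, 0, 0⟩ ⟨0, 0, 0, 0, 0, 0, 133022, 0, 0, 0, 0, 0, 0⟩ ⟨0, 0, 0, 0, 0, 0, 133022, 0, 0, 0, 0, 0, 0⟩ ⟨0, 0, 0, 0, 0, 0, 89318, 0, 0, 0, 0, 0, 0⟩ ⟨0, 0, 0, 0, 0, 0, 89318, 0, 0, 0, 0, 0, 0⟩ ⟨512, -50, 315, 33, 31, 23, 67229, 0, 0, 0, 0, 0, 0⟩))
    (.leaf (.box ⟨512, -7, 329, 10, 10, 15, 276664, 0, 0, 0, 0, 0, 0⟩ ⟨0, 0, 0, 0, 0, 0, 131326, 0, 0, 0, 0, 0, 0⟩ ⟨0, 0, 0, 0, 0, 0, 131326, 0, 0, 0, 0, 0, 0⟩ ⟨0, 0, 0, 0, 0, 0, 86097, 0, 0, 0, 0, 0, 0⟩ ⟨0, 0, 0, 0, 0, 0, 86097, 0, 0, 0, 0, 0, 0⟩ ⟨512, -31, 273, 41, 39, 14, 64041, 0, 0, 0, 0, 0, 0⟩))))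
    (.leaf (.box ⟨512, -19, 223, 14, 8, 22, 288666, 0, 0, 0, 0, 0, 0⟩ ⟨0, 0, 0, 0, 0, 0, 140327, 0, 0, 0, 0, 0, 0⟩ ⟨0, 0, 0, 0, 0, 0, 140327, 0, 0, 0, 0, 0, 0⟩ ⟨0, 0, 0, 0, 0, 0, 92694, 0, 0, 0, 0, 0, 0⟩ ⟨0, 0, 0, 0, 0, 0, 92694, 0, 0, 0, 0, 0, 0⟩ ⟨512, -71, 135, 52, 34, 21, 69203, 0, 0, 0, 0, 0, 0⟩)))
    (.leaf (.box ⟨512, -23, 130, 13, 5, 25, 315438, 0, 0, 0, 0, 0, 0⟩ ⟨512, -51, 87, 28, 13, 25, 138504, 0, 0, 0, 0, 0, 0⟩ ⟨512, -51, 87, 28, 13, 25, 138504, 0, 0, 0, 0, 0, 0⟩ ⟨512, -74, 42, 40, 19, 24, 92727, 0, 0, 0, 0, 0, 0⟩ ⟨512, -74, 42, 40, 19, 24, 92727, 0, 0, 0, 0, 0, 0⟩ ⟨512, -91, 2, 49, 26, 24, 73007, 0, 0, 0, 0, 0, 0⟩))))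
    (.s2
    (.leaf (.box ⟨512, -54, -124, 26, 1, 75, 327083, 0, 0, 0, 0, 0, 0⟩ ⟨512, -122, -228, 59, 5, 76, 145431, 0, 0, 0, 0, 0, 0⟩ ⟨512, -122, -228, 59, 5, 76, 145431, 0, 0, 0, 0, 0, 0⟩ ⟨512, -179, -333, 89, 11, 76, 98182, 0, 0, 0, 0, 0, 0⟩ ⟨512, -179, -333, 89, 11, 76, 98182, 0, 0, 0, 0, 0, 0⟩ ⟨512, -206, -404, 104, 18, 70, 77418, 0, 0, 0, 0, 0, 0⟩))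
    (.leaf (.box ⟨512, -21, -234, 12, 2, 29, 249513, 0, 0, 0, 0, 0, 0⟩ ⟨0, 0, 0, 0, 0, 0, 130585, 0, 0, 0, 0, 0, 0⟩ ⟨0, 0, 0, 0, 0, 0, 130585, 0, 0, 0, 0, 0, 0⟩ ⟨0, 0, 0, 0, 0, 0, 88434, 0, 0, 0, 0, 0, 0⟩ ⟨0, 0, 0, 0, 0, 0, 88434, 0, 0, 0, 0, 0, 0⟩ ⟨512, -69, -271, 40, 9, 22, 66854, 0, 0, 0, 0, 0, 0⟩))))

/-- A piece of the tree. -/
noncomputable def tree78 : Tree LeafX :=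
  .s1
    (.s0
    (.s2
    (.leaf (.box ⟨314, -4, -512, 6, -6, 89, 302741, 0, 0, 0, 0, 0, 0⟩ ⟨0, 0, 0, 0, 0, 0, 146367, 0, 0, 0, 0, 0, 0⟩ ⟨0, 0, 0, 0, 0, 0, 146367, 0, 0, 0, 0, 0, 0⟩ ⟨0, 0, 0, 0, 0, 0, 96514, 0, 0, 0, 0, 0, 0⟩ ⟨0, 0, 0, 0, 0, 0, 96514, 0, 0, 0, 0, 0, 0⟩ ⟨176, -11, -512, 20, -17, 75, 71993, 0, 0, 0, 0, 0, 0⟩))
    (.leaf (.box ⟨387, -2, -512, 10, -4, 75, 304023, 0, 0, 0, 0, 0, 0⟩ ⟨0, 0, 0, 0, 0, 0, 143299, 0, 0, 0, 0, 0, 0⟩ ⟨0, 0, 0, 0, 0, 0, 143299, 0, 0, 0, 0, 0, 0⟩ ⟨0, 0, 0, 0, 0, 0, 93742, 0, 0, 0, 0, 0, 0⟩ ⟨0, 0, 0, 0, 0, 0, 93742, 0, 0, 0, 0, 0, 0⟩ ⟨415, -8, -512, 38, -16, 67, 69653, 118709847, 0, 0, 0, 0, 0⟩)))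
    (.s1
    (.s0
    (.leaf (.box ⟨111, -1, -565, 6, -7, 99, 399560, 0, 0, 0, 0, 0, 0⟩ ⟨0, 0, 0, 0, 0, 0, 198820, 0, 0, 0, 0, 0, 0⟩ ⟨0, 0, 0, 0, 0, 0, 198820, 0, 0, 0, 0, 0, 0⟩ ⟨0, 0, 0, 0, 0, 0, 132334, 0, 0, 0, 0, 0, 0⟩ ⟨0, 0, 0, 0, 0, 0, 132334, 0, 0, 0, 0, 0, 0⟩ ⟨86, -3, -512, 20, -22, 82, 99171, 0, 0, 0, 0, 0, 0⟩))
    (.s2
    (.leaf (.box ⟨259, -1, -951, 6, -12, 179, 489531, 0, 0, 0, 0, 0, 0⟩ ⟨0, 0, 0, 0, 0, 0, 244632, 0, 0, 0, 0, 0, 0⟩ ⟨0, 0, 0, 0, 0, 0, 244632, 0, 0, 0, 0, 0, 0⟩ ⟨0, 0, 0, 0, 0, 0, 163058, 0, 0, 0, 0, 0, 0⟩ ⟨0, 0, 0, 0, 0, 0, 163058, 0, 0, 0, 0, 0, 0⟩ ⟨124, -3, -512, 13, -23, 88, 122282, 0, 0, 0, 0, 0, 0⟩))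
    (.leaf (.box ⟨92, -1, -745, 6, -10, 137, 565041, 0, 0, 0, 0, 0, 0⟩ ⟨0, 0, 0, 0, 0, 0, 277113, 0, 0, 0, 0, 0, 0⟩ ⟨0, 0, 0, 0, 0, 0, 277113, 0, 0, 0, 0, 0, 0⟩ ⟨0, 0, 0, 0, 0, 0, 183571, 0, 0, 0, 0, 0, 0⟩ ⟨0, 0, 0, 0, 0, 0, 183571, 0, 0, 0, 0, 0, 0⟩ ⟨75, -1, -512, 14, -27, 89, 137243, 0, 0, 0, 0, 0, 0⟩))))
    (.s2
    (.leaf (.box ⟨83, -3, -512, 7, -7, 84, 394866, 0, 0, 0, 0, 0, 0⟩ ⟨0, 0, 0, 0, 0, 0, 201843, 0, 0, 0, 0, 0, 0⟩ ⟨0, 0, 0, 0, 0, 0, 201843, 0, 0, 0, 0, 0, 0⟩ ⟨0, 0, 0, 0, 0, 0, 135571, 0, 0, 0, 0, 0, 0⟩ ⟨0, 0, 0, 0, 0, 0, 135571, 0, 0, 0, 0, 0, 0⟩ ⟨79, -10, -512, 24, -23, 77, 102061, 0, 0, 0, 0, 0, 0⟩))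
    (.leaf (.box ⟨107, -2, -512, 10, -9, 85, 434589, 0, 0, 0, 0, 0, 0⟩ ⟨0, 0, 0, 0, 0, 0, 218471, 0, 0, 0, 0, 0, 0⟩ ⟨0, 0, 0, 0, 0, 0, 218471, 0, 0, 0, 0, 0, 0⟩ ⟨0, 0, 0, 0, 0, 0, 145911, 0, 0, 0, 0, 0, 0⟩ ⟨0, 0, 0, 0, 0, 0, 145911, 0, 0, 0, 0, 0, 0⟩ ⟨123, -6, -512, 34, -33, 80, 109532, 0, 0, 0, 0, 1428300943, 0⟩)))))
    (.s0
    (.s1
    (.s2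
    (.leaf (.box ⟨310, -12, -512, 10, -7, 83, 307867, 0, 0, 0, 0, 0, 0⟩ ⟨0, 0, 0, 0, 0, 0, 160525, 0, 0, 0, 0, 0, 0⟩ ⟨0, 0, 0, 0, 0, 0, 160525, 0, 0, 0, 0, 0, 0⟩ ⟨0, 0, 0, 0, 0, 0, 108566, 0, 0, 0, 0, 0, 0⟩ ⟨0, 0, 0, 0, 0, 0, 108566, 0, 0, 0, 0, 0, 0⟩ ⟨187, -34, -512, 31, -15, 68, 82018, 0, 0, 20261303, 0, 0, 0⟩))
    (.leaf (.box ⟨360, -8, -512, 15, -6, 64, 361313, 128987488, 0, 0, 0, 0, 0⟩ ⟨373, -18, -512, 32, -12, 61, 158546, 0, 0, 0, 0, 0, 0⟩ ⟨373, -18, -512, 32, -12, 61, 158546, 0, 0, 0, 0, 0, 0⟩ ⟨392, -26, -512, 48, -17, 59, 105754, 0, 0, 0, 0, 819384485, 0⟩ ⟨392, -26, -512, 48, -17, 59, 105754, 0, 0, 0, 0, 819384485, 0⟩ ⟨417, -33, -512, 62, -20, 57, 82977, 0, 0, 0, 0, 912423457,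 0⟩)))
    (.leaf (.box ⟨398, -33, -512, 37, -5, 65, 282451, 0, 0, 0, 0, 0, 0⟩ ⟨0, 0, 0, 0, 0, 0, 148283, 0, 0, 0, 0, 0, 0⟩ ⟨0, 0, 0, 0, 0, 0, 148283, 0, 0, 0, 0, 0, 0⟩ ⟨0, 0, 0, 0, 0, 0, 100530, 0, 0, 0, 0, 0, 0⟩ ⟨0, 0, 0, 0, 0, 0, 100530, 0, 0, 0, 0, 0, 0⟩ ⟨439, -102, -512, 126, -12, 57, 76041, 0, 0, 0, 0, 672032846, 0⟩)))
    (.s2
    (.s1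
    (.leaf (.box ⟨57, -6, -512, 9, -8, 80, 401000, 0, 0, 0, 0, 0, 0⟩ ⟨0, 0, 0, 0, 0, 0, 213003, 0, 0, 0, 0, 0, 0⟩ ⟨0, 0, 0, 0, 0, 0, 213003, 0, 0, 0, 0, 0, 0⟩ ⟨0, 0, 0, 0, 0, 0, 145017, 0, 0, 0, 0, 0, 0⟩ ⟨0, 0, 0, 0, 0, 0, 145017, 0, 0, 0, 0, 0, 0⟩ ⟨70, -20, -512, 32, -26, 75, 109929, 0, 0, 0, 0, 0, 0⟩))
    (.leaf (.box ⟨72, -10, -512, 12, -9, 78, 413117, 0, 0, 0, 0, 0, 0⟩ ⟨0, 0, 0, 0, 0, 0, 226726, 0, 0, 0, 0, 0, 0⟩ ⟨0, 0, 0, 0, 0, 0, 226726, 0, 0, 0, 0, 0, 0⟩ ⟨0, 0, 0, 0, 0, 0, 156236, 0, 0, 0, 0, 0, 0⟩ ⟨0, 0, 0, 0, 0, 0, 156236, 0, 0, 0, 0, 0, 0⟩ ⟨84, -29, -512, 41, -27, 73, 119181, 0, 0, 0, 0, 0, 0⟩)))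
    (.leaf (.box ⟨126, -6, -512, 19, -13, 78, 450090, 0, 0, 0, 0, 1166759197, 0⟩ ⟨0, 0, 0, 0, 0, 0, 234625, 0, 0, 0, 0, 0, 0⟩ ⟨0, 0, 0, 0, 0, 0, 234625, 0, 0, 0, 0, 0, 0⟩ ⟨0, 0, 0, 0, 0, 0, 158668, 0, 0, 0, 0, 0, 0⟩ ⟨0, 0, 0, 0, 0, 0, 158668, 0, 0, 0, 0, 0, 0⟩ ⟨163, -20, -512, 67, -47, 75, 119863, 0, 0, 0, 0, 1528979675, 0⟩))))

/-- A piece of the tree. -/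
noncomputable def tree79 : Tree LeafX :=
  .s0
    (.s1
    (.s1
    (.leaf (.skip 0 8))
    (.s2
    (.leaf (.box ⟨512, 22, 142, 59, -46, 390, 910922, 0, 0, 0, 0, 0, 0⟩ ⟨0, 0, 0, 0, 0, 0, 386049, 0, 0, 0, 0, 0, 0⟩ ⟨0, 0, 0, 0, 0, 0, 386049, 0, 0, 0, 0, 0, 0⟩ ⟨0, 0, 0, 0, 0, 0, 244924, 0, 0, 0, 0, 0, 0⟩ ⟨0, 0, 0, 0, 0, 0, 244924, 0, 0, 0, 0, 0, 0⟩ ⟨512, 131, 115, 290, -189, 312, 179357, 0, 0, 0, 0, 0, 59036938901⟩))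
    (.leaf (.box ⟨512, 19, 84, 62, -16, 306, 883369, 0, 0, 0, 0, 0, 0⟩ ⟨0, 0, 0, 0, 0, 0, 382447, 0, 0, 0, 0, 0, 0⟩ ⟨0, 0, 0, 0, 0, 0, 382447, 0, 0, 0, 0, 0, 0⟩ ⟨0, 0, 0, 0, 0, 0, 244054, 0, 0, 0, 0, 0, 0⟩ ⟨0, 0, 0, 0, 0, 0, 244054, 0, 0, 0, 0, 0, 0⟩ ⟨512, 105, 126, 286, -52, 222, 179206, 0, 0, 0, 0, 0, 0⟩))))
    (.s2
    (.s0
    (.s1
    (.leaf (.box ⟨512, 8, -212, 30, -35, 339, 732908, 0, 0, 0, 0, 0, 0⟩ ⟨0, 0, 0, 0, 0, 0, 327345, 0, 0, 0, 0, 0, 0⟩ ⟨0, 0, 0, 0, 0, 0, 327345, 0, 0, 0, 0, 0, 0⟩ ⟨0, 0, 0, 0, 0, 0, 210734, 0, 0, 0, 0, 0, 0⟩ ⟨0, 0, 0, 0, 0, 0, 210734, 0, 0, 0, 0, 0, 0⟩ ⟨512, 37, -213, 115, -131, 265, 155381, 0, 0, 0, 0, 0, 0⟩))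
    (.s2
    (.s3
    (.leaf (.box ⟨512, 6, -472, 29, -38, 363, 603522, 0, 0, 0, 0, 0, 0⟩ ⟨0, 0, 0, 0, 0, 0, 290829, 0, 0, 0, 0, 0, 0⟩ ⟨0, 0, 0, 0, 0, 0, 290829, 0, 0, 0, 0, 0, 0⟩ ⟨0, 0, 0, 0, 0, 0, 191573, 0, 0, 0, 0, 0, 0⟩ ⟨0, 0, 0, 0, 0, 0, 191573, 0, 0, 0, 0, 0, 0⟩ ⟨512, 24, -457, 104, -128, 284, 142827, 0, 0, 0, 0, 0, 0⟩))
    (.s0
    (.leaf (.box ⟨324, 1, -512, 7, -12, 279, 1142552, 0, 0, 0, 0, 0, 0⟩ ⟨326, 4, -512, 20, -38, 261, 340634, 0, 0, 0, 0, 0, 0⟩ ⟨326, 4, -512, 20, -38, 261, 340634, 0, 0, 0, 0, 0, 0⟩ ⟨333, 7, -512, 33, -60, 244, 203683, 0, 0, 0, 0, 0, 0⟩ ⟨333, 7, -512, 33, -60, 244, 203683, 0, 0, 0, 0, 0, 0⟩ ⟨332, 9, -512, 44, -79, 226, 144679, 0, 0, 0, 0, 0, 0⟩))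
    (.leaf (.box ⟨357, 2, -512, 8, -17, 378, 1475505, 0, 0, 0, 0, 0, 0⟩ ⟨0, 0, 0, 0, 0, 0, 429479, 0, 0, 0, 0, 0, 0⟩ ⟨0, 0, 0, 0, 0, 0, 429479, 0, 0, 0, 0, 0, 0⟩ ⟨0, 0, 0, 0, 0, 0, 251315, 0, 0, 0, 0, 0, 0⟩ ⟨0, 0, 0, 0, 0, 0, 251315, 0, 0, 0, 0, 0, 0⟩ ⟨366, 15, -512, 56, -117, 295, 177628, 0, 0, 0, 0, 0, 0⟩))))
    (.s0
    (.leaf (.box ⟨398, 1, -512, 14, -22, 267, 614123, 0, 0, 0, 0, 0, 0⟩ ⟨0, 0, 0, 0, 0, 0, 291799, 0, 0, 0, 0, 0, 0⟩ ⟨0, 0, 0, 0, 0, 0, 291799, 0, 0, 0, 0, 0, 0⟩ ⟨0, 0, 0, 0, 0, 0, 191362, 0, 0, 0, 0, 0, 0⟩ ⟨0, 0, 0, 0, 0, 0, 191362, 0, 0, 0, 0, 0, 0⟩ ⟨397, 6, -512, 46, -79, 216, 142361, 0, 0, 0, 0, 0, 0⟩))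
    (.leaf (.box ⟨440, 2, -512, 15, -30, 353, 815850, 0, 0, 0, 0, 0, 0⟩ ⟨0, 0, 0, 0, 0, 0, 372371, 0, 0, 0, 0, 0, 0⟩ ⟨0, 0, 0, 0, 0, 0, 372371, 0, 0, 0, 0, 0, 0⟩ ⟨0, 0, 0, 0, 0, 0, 241239, 0, 0, 0, 0, 0, 0⟩ ⟨0, 0, 0, 0, 0, 0, 241239, 0, 0, 0, 0, 0, 0⟩ ⟨443, 10, -512, 53, -111, 280, 178410, 0, 0, 0, 0, 0, 0⟩)))))
    (.leaf (.box ⟨512, 8, -144, 29, -28, 300, 1198590, 0, 0, 0, 0, 0, 0⟩ ⟨512, 21, -151, 69, -64, 281, 492835, 0, 0, 0, 0, 0, 0⟩ ⟨512, 21, -151, 69, -64, 281, 492835, 0, 0, 0, 0, 0, 0⟩ ⟨512, 33, -155, 102, -94, 256, 308209, 0, 0, 0, 0, 0, 0⟩ ⟨512, 33, -155, 102, -94, 256, 308209, 0, 0, 0, 0, 0, 0⟩ ⟨512, 45, -159, 132, -119, 232, 225668, 0, 0, 0, 0, 0, 0⟩)))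
    (.s2
    (.s1
    (.leaf (.box ⟨512, 5, -147, 21, -25, 265, 790092, 0, 0, 0, 0, 0, 0⟩ ⟨512, 11, -144, 42, -57, 245, 330310, 0, 0, 0, 0, 0, 0⟩ ⟨512, 11, -144, 42, -57, 245, 330310, 0, 0, 0, 0, 0, 0⟩ ⟨512, 17, -140, 63, -81, 224, 211783, 0, 0, 0, 0, 0, 0⟩ ⟨512, 17, -140, 63, -81, 224, 211783, 0, 0, 0, 0, 0, 0⟩ ⟨512, 23, -138, 81, -100, 207, 159847, 0, 0, 0, 0, 0, 0⟩))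
    (.s0
    (.leaf (.box ⟨479, 2, -512, 19, -25, 258, 606561, 0, 0, 0, 0, 0, 0⟩ ⟨0, 0, 0, 0, 0, 0, 293647, 0, 0, 0, 0, 0, 0⟩ ⟨0, 0, 0, 0, 0, 0, 293647, 0, 0, 0, 0, 0, 0⟩ ⟨0, 0, 0, 0, 0, 0, 193714, 0, 0, 0, 0, 0, 0⟩ ⟨0, 0, 0, 0, 0, 0, 193714, 0, 0, 0, 0, 0, 0⟩ ⟨477, 7, -512, 71, -87, 209, 144528, 0, 0, 0, 0, 0, 0⟩))
    (.leaf (.box ⟨512, 3, -479, 16, -32, 385, 1101006, 0, 0, 0, 0, 0, 0⟩ ⟨0, 0, 0, 0, 0, 0, 502015, 0, 0, 0, 0, 0, 0⟩ ⟨0, 0, 0, 0, 0, 0, 502015, 0, 0, 0, 0, 0, 0⟩ ⟨0, 0, 0, 0, 0, 0, 325131, 0, 0, 0, 0, 0, 0⟩ ⟨0, 0, 0, 0, 0, 0, 325131, 0, 0, 0, 0, 0, 0⟩ ⟨512, 12, -459, 60, -118, 298, 240419, 0, 0, 0, 0, 0, 0⟩))))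
    (.s0
    (.leaf (.box ⟨512, 2, -341, 16, -18, 192, 616168, 0, 0, 0, 0, 0, 0⟩ ⟨0, 0, 0, 0, 0, 0, 301794, 0, 0, 0, 0, 0, 0⟩ ⟨0, 0, 0, 0, 0, 0, 301794, 0, 0, 0, 0, 0, 0⟩ ⟨0, 0, 0, 0, 0, 0, 199836, 0, 0, 0, 0, 0, 0⟩ ⟨0, 0, 0, 0, 0, 0, 199836, 0, 0, 0, 0, 0, 0⟩ ⟨512, 7, -352, 60, -67, 167, 149372, 0, 0, 0, 0, 0, 0⟩))
    (.leaf (.box ⟨512, 4, -290, 21, -17, 253, 1111066, 0, 0, 0, 0, 0, 0⟩ ⟨0, 0, 0, 0, 0, 0, 524317, 0, 0, 0, 0, 0, 0⟩ ⟨0, 0, 0, 0, 0, 0, 524317, 0, 0, 0, 0, 0, 0⟩ ⟨0, 0, 0, 0, 0, 0, 343118, 0, 0, 0, 0, 0, 0⟩ ⟨0, 0, 0, 0, 0, 0, 343118, 0, 0, 0, 0, 0, 0⟩ ⟨512, 16, -252, 80, -58, 198, 254994, 0, 0, 0, 0, 0, 0⟩))))))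
    (.s1
    (.leaf (.skip 0 8))
    (.s0
    (.s3
    (.leaf (.box ⟨512, 9, -78, 31, -15, 262, 2185223, 0, 0, 0, 0, 0, 0⟩ ⟨0, 0, 0, 0, 0, 0, 894336, 0, 0, 0, 0, 0, 0⟩ ⟨0, 0, 0, 0, 0, 0, 894336, 0, 0, 0, 0, 0, 0⟩ ⟨0, 0, 0, 0, 0, 0, 562216, 0, 0, 0, 0, 0, 0⟩ ⟨0, 0, 0, 0, 0, 0, 562216, 0, 0, 0, 0, 0, 0⟩ ⟨512, 51, -74, 156, -66, 214, 409969, 0, 0, 0, 0, 0, 43693077094⟩))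
    (.leaf (.box ⟨512, 6, -103, 19, -9, 266, 3583269, 0, 0, 0, 0, 0, 0⟩ ⟨0, 0, 0, 0, 0, 0, 947791, 0, 0, 0, 0, 0, 0⟩ ⟨0, 0, 0, 0, 0, 0, 947791, 0, 0, 0, 0, 0, 0⟩ ⟨0, 0, 0, 0, 0, 0, 546122, 0, 0, 0, 0, 0, 0⟩ ⟨0, 0, 0, 0, 0, 0, 546122, 0, 0, 0, 0, 0, 0⟩ ⟨512, 58, -91, 161, -64, 205, 383567, 0, 0, 0, 0, 0, 54663449624⟩)))
    (.leaf (.skip 0 8))))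

/-- A piece of the tree. -/
noncomputable def tree80 : Tree LeafX :=
  .s1
    (.s2
    (.s1
    (.leaf (.skip 0 8))
    (.leaf (.box ⟨512, 18, -28, 91, 7, 241, 846596, 0, 0, 0, 0, 0, 0⟩ ⟨0, 0, 0, 0, 0, 0, 382682, 0, 0, 0, 0, 0, 0⟩ ⟨0, 0, 0, 0, 0, 0, 382682, 0, 0, 0, 0, 0, 0⟩ ⟨0, 0, 0, 0, 0, 0, 247214, 0, 0, 0, 0, 0, 0⟩ ⟨0, 0, 0, 0, 0, 0, 247214, 0, 0, 0, 0, 0, 0⟩ ⟨512, 68, 88, 280, 25, 147, 182581, 0, 0, 0, 0, 0, 0⟩)))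
    (.s2
    (.s1
    (.leaf (.skip 0 8))
    (.s0
    (.leaf (.box ⟨512, 0, -282, 51, 9, 278, 831001, 0, 0, 0, 0, 0, 0⟩ ⟨0, 0, 0, 0, 0, 0, 397687, 0, 0, 0, 0, 0, 0⟩ ⟨0, 0, 0, 0, 0, 0, 397687, 0, 0, 0, 0, 0, 0⟩ ⟨0, 0, 0, 0, 0, 0, 261389, 0, 0, 0, 0, 0, 0⟩ ⟨0, 0, 0, 0, 0, 0, 261389, 0, 0, 0, 0, 0, 0⟩ ⟨512, 1, -30, 125, 22, 159, 194670, 0, 0, 0, 0, 0, 0⟩))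
    (.leaf (.box ⟨512, 5, -183, 46, 23, 202, 1373086, 0, 0, 0, 0, 0, 0⟩ ⟨0, 0, 0, 0, 0, 0, 640233, 0, 0, 0, 0, 0, 0⟩ ⟨0, 0, 0, 0, 0, 0, 640233, 0, 0, 0, 0, 0, 0⟩ ⟨0, 0, 0, 0, 0, 0, 417436, 0, 0, 0, 0, 0, 0⟩ ⟨0, 0, 0, 0, 0, 0, 417436, 0, 0, 0, 0, 0, 0⟩ ⟨512, 10, 54, 84, 41, 79, 309672, 0, 0, 0, 0, 12721888229, 0⟩))))
    (.s1
    (.leaf (.skip 0 8))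
    (.s0
    (.leaf (.box ⟨512, -6, -313, 45, 12, 172, 840950, 0, 0, 0, 0, 82814668788, 0⟩ ⟨0, 0, 0, 0, 0, 0, 409035, 0, 0, 0, 0, 0, 0⟩ ⟨0, 0, 0, 0, 0, 0, 409035, 0, 0, 0, 0, 0, 0⟩ ⟨0, 0, 0, 0, 0, 0, 270239, 0, 0, 0, 0, 0, 0⟩ ⟨0, 0, 0, 0, 0, 0, 270239, 0, 0, 0, 0, 0, 0⟩ ⟨512, -15, -59, 110, 29, 104, 201772, 0, 0, 0, 0, 35687487054, 0⟩))
    (.leaf (.skip 8 0))))))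
    (.s2
    (.s0
    (.leaf (.box ⟨462, 0, -512, 18, -15, 192, 643654, 0, 0, 0, 0, 0, 0⟩ ⟨0, 0, 0, 0, 0, 0, 317137, 0, 0, 0, 0, 0, 0⟩ ⟨0, 0, 0, 0, 0, 0, 317137, 0, 0, 0, 0, 0, 0⟩ ⟨0, 0, 0, 0, 0, 0, 210403, 0, 0, 0, 0, 0, 0⟩ ⟨0, 0, 0, 0, 0, 0, 210403, 0, 0, 0, 0, 0, 0⟩ ⟨479, 2, -512, 66, -55, 176, 157421, 0, 0, 0, 0, 0, 0⟩))
    (.leaf (.box ⟨512, 3, -441, 32, -8, 212, 1173248, 0, 0, 0, 0, 0, 0⟩ ⟨0, 0, 0, 0, 0, 0, 557937, 0, 0, 0, 0, 0, 0⟩ ⟨0, 0, 0, 0, 0, 0, 557937, 0, 0, 0, 0, 0, 0⟩ ⟨0, 0, 0, 0, 0, 0, 365992, 0, 0, 0, 0, 0, 0⟩ ⟨0, 0, 0, 0, 0, 0, 365992, 0, 0, 0, 0, 0, 0⟩ ⟨512, 13, -387, 122, -30, 184, 272310, 0, 0, 0, 0, 0, 0⟩)))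
    (.s2
    (.s1
    (.s0
    (.leaf (.box ⟨244, 0, -512, 16, -6, 167, 769767, 0, 0, 0, 0, 0, 0⟩ ⟨0, 0, 0, 0, 0, 0, 371865, 0, 0, 0, 0, 0, 0⟩ ⟨0, 0, 0, 0, 0, 0, 371865, 0, 0, 0, 0, 0, 0⟩ ⟨0, 0, 0, 0, 0, 0, 245146, 0, 0, 0, 0, 0, 0⟩ ⟨0, 0, 0, 0, 0, 0, 245146, 0, 0, 0, 0, 0, 0⟩ ⟨340, -1, -512, 67, -25, 177, 182840, 0, 0, 0, 0, 0, 0⟩))
    (.leaf (.box ⟨327, 1, -512, 23, 4, 175, 1329578, 0, 0, 0, 0, 0, 0⟩ ⟨0, 0, 0, 0, 0, 0, 628091, 0, 0, 0, 0, 0, 0⟩ ⟨0, 0, 0, 0, 0, 0, 628091, 0, 0, 0, 0, 0, 0⟩ ⟨0, 0, 0, 0, 0, 0, 411162, 0, 0, 0, 0, 0, 0⟩ ⟨0, 0, 0, 0, 0, 0, 411162, 0, 0, 0, 0, 0, 0⟩ ⟨512, 5, -471, 115, 20, 196, 305610, 0, 0, 0, 0, 45565155262, 0⟩)))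
    (.leaf (.box ⟨180, -1, -512, 17, -6, 120, 754456, 0, 0, 0, 0, 0, 0⟩ ⟨0, 0, 0, 0, 0, 0, 366998, 0, 0, 0, 0, 0, 0⟩ ⟨0, 0, 0, 0, 0, 0, 366998, 0, 0, 0, 0, 0, 0⟩ ⟨0, 0, 0, 0, 0, 0, 242474, 0, 0, 0, 0, 0, 0⟩ ⟨0, 0, 0, 0, 0, 0, 242474, 0, 0, 0, 0, 0, 0⟩ ⟨222, -3, -512, 67, -25, 119, 181044, 0, 0, 0, 0, 1597108270, 0⟩)))
    (.s0
    (.leaf (.box ⟨233, -1, -512, 19, -4, 115, 812188, 0, 0, 0, 0, 20431778959, 0⟩ ⟨0, 0, 0, 0, 0, 0, 393224, 0, 0, 0, 0, 0, 0⟩ ⟨0, 0, 0, 0, 0, 0, 393224, 0, 0, 0, 0, 0, 0⟩ ⟨0, 0, 0, 0, 0, 0, 259409, 0, 0, 0, 0, 0, 0⟩ ⟨0, 0, 0, 0, 0, 0, 259409, 0, 0, 0, 0, 0, 0⟩ ⟨341, -6, -512, 78, -16, 120, 193545, 0, 0, 0, 0, 30799221013, 0⟩))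
    (.leaf (.skip 8 0)))))

/-- A piece of the tree. -/
noncomputable def tree81 : Tree LeafX :=
  .s1
    (.leaf (.skip 0 8))
    (.s2
    (.s0
    (.leaf (.box ⟨512, 6, -324, 35, 1, 203, 2166946, 0, 0, 0, 0, 0, 0⟩ ⟨0, 0, 0, 0, 0, 0, 961388, 0, 0, 0, 0, 0, 0⟩ ⟨0, 0, 0, 0, 0, 0, 961388, 0, 0, 0, 0, 0, 0⟩ ⟨0, 0, 0, 0, 0, 0, 617724, 0, 0, 0, 0, 0, 0⟩ ⟨0, 0, 0, 0, 0, 0, 617724, 0, 0, 0, 0, 0, 0⟩ ⟨512, 29, -229, 148, 5, 166, 455056, 0, 0, 0, 0, 0, 0⟩))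
    (.leaf (.skip 0 8)))
    (.s2
    (.s0
    (.leaf (.box ⟨425, 3, -512, 32, 8, 147, 1943197, 0, 0, 0, 0, 0, 0⟩ ⟨0, 0, 0, 0, 0, 0, 908414, 0, 0, 0, 0, 0, 0⟩ ⟨0, 0, 0, 0, 0, 0, 908414, 0, 0, 0, 0, 0, 0⟩ ⟨0, 0, 0, 0, 0, 0, 592760, 0, 0, 0, 0, 0, 0⟩ ⟨0, 0, 0, 0, 0, 0, 592760, 0, 0, 0, 0, 0, 0⟩ ⟨512, 8, -251, 93, 20, 86, 439903, 0, 0, 0, 0, 60647604552, 0⟩))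
    (.leaf (.skip 8 0)))
    (.leaf (.skip 8 0))))

/-- A piece of the tree. -/
noncomputable def tree82 : Tree LeafX :=
  .s0
    (.s0
    (.s3
    (.s1
    (.leaf (.box ⟨324, 0, -919, 6, -22, 335, 562790, 0, 0, 0, 0, 0, 0⟩ ⟨0, 0, 0, 0, 0, 0, 278705, 0, 0, 0, 0, 0, 0⟩ ⟨0, 0, 0, 0, 0, 0, 278705, 0, 0, 0, 0, 0, 0⟩ ⟨0, 0, 0, 0, 0, 0, 185213, 0, 0, 0, 0, 0, 0⟩ ⟨0, 0, 0, 0, 0, 0, 185213, 0, 0, 0, 0, 0, 0⟩ ⟨186, 0, -512, 12, -42, 156, 138689, 0, 0, 0, 0, 0, 0⟩))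
    (.leaf (.box ⟨255, -1, -864, 6, -16, 264, 541986, 0, 0, 0, 0, 0, 0⟩ ⟨0, 0, 0, 0, 0, 0, 272962, 0, 0, 0, 0, 0, 0⟩ ⟨0, 0, 0, 0, 0, 0, 272962, 0, 0, 0, 0, 0, 0⟩ ⟨0, 0, 0, 0, 0, 0, 182416, 0, 0, 0, 0, 0, 0⟩ ⟨0, 0, 0, 0, 0, 0, 182416, 0, 0, 0, 0, 0, 0⟩ ⟨157, -1, -512, 10, -31, 131, 136978, 0, 0, 0, 0, 0, 0⟩)))
    (.s1
    (.leaf (.box ⟨526, 0, -1754, 6, -20, 580, 991735, 0, 0, 0, 0, 0, 0⟩ ⟨0, 0, 0, 0, 0, 0, 328258, 0, 0, 0, 0, 0, 0⟩ ⟨0, 0, 0, 0, 0, 0, 328258, 0, 0, 0, 0, 0, 0⟩ ⟨0, 0, 0, 0, 0, 0, 196679, 0, 0, 0, 0, 0, 0⟩ ⟨0, 0, 0, 0, 0, 0, 196679, 0, 0, 0, 0, 0, 0⟩ ⟨159, 0, -512, 10, -34, 138, 140400, 0, 0, 0, 0, 0, 0⟩))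
    (.s3
    (.s2
    (.leaf (.box ⟨394, 0, -2257, 6, -21, 687, 935304, 0, 0, 0, 0, 0, 0⟩ ⟨0, 0, 0, 0, 0, 0, 323476, 0, 0, 0, 0, 0, 0⟩ ⟨0, 0, 0, 0, 0, 0, 323476, 0, 0, 0, 0, 0, 0⟩ ⟨0, 0, 0, 0, 0, 0, 195555, 0, 0, 0, 0, 0, 0⟩ ⟨0, 0, 0, 0, 0, 0, 195555, 0, 0, 0, 0, 0, 0⟩ ⟨104, 0, -512, 8, -27, 130, 140136, 0, 0, 0, 0, 0, 0⟩))
    (.leaf (.box ⟨573, -1, -3122, 6, -30, 853, 913610, 0, 0, 0, 0, 0, 0⟩ ⟨0, 0, 0, 0, 0, 0, 323812, 0, 0, 0, 0, 0, 0⟩ ⟨0, 0, 0, 0, 0, 0, 323812, 0, 0, 0, 0, 0, 0⟩ ⟨0, 0, 0, 0, 0, 0, 196778, 0, 0, 0, 0, 0, 0⟩ ⟨0, 0, 0, 0, 0, 0, 196778, 0, 0, 0, 0, 0, 0⟩ ⟨98, -1, -545, 6, -27, 122, 141332, 0, 0, 0, 0, 0, 0⟩)))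
    (.s2
    (.s2
    (.leaf (.box ⟨588, 0, -4284, 6, -24, 1283, 1429579, 0, 0, 0, 0, 0, 0⟩ ⟨0, 0, 0, 0, 0, 0, 352453, 0, 0, 0, 0, 0, 0⟩ ⟨0, 0, 0, 0, 0, 0, 352453, 0, 0, 0, 0, 0, 0⟩ ⟨0, 0, 0, 0, 0, 0, 201005, 0, 0, 0, 0, 0, 0⟩ ⟨0, 0, 0, 0, 0, 0, 201005, 0, 0, 0, 0, 0, 0⟩ ⟨75, 0, -512, 6, -24, 127, 140592, 0, 0, 0, 0, 0, 0⟩))
    (.leaf (.box ⟨638, -1, -4532, 6, -27, 1302, 1390867, 0, 0, 0, 0, 0, 0⟩ ⟨0, 0, 0, 0, 0, 0, 352072, 0, 0, 0, 0, 0, 0⟩ ⟨0, 0, 0, 0, 0, 0, 352072, 0, 0, 0, 0, 0, 0⟩ ⟨0, 0, 0, 0, 0, 0, 201544, 0, 0, 0, 0, 0, 0⟩ ⟨0, 0, 0, 0, 0, 0, 201544, 0, 0, 0, 0, 0, 0⟩ ⟨75, -1, -512, 6, -24, 120, 141182, 0, 0, 0, 0, 0, 0⟩)))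
    (.leaf (.box ⟨834, -1, -4657, 6, -28, 1232, 1350407, 0, 0, 0, 0, 0, 0⟩ ⟨0, 0, 0, 0, 0, 0, 352510, 0, 0, 0, 0, 0, 0⟩ ⟨0, 0, 0, 0, 0, 0, 352510, 0, 0, 0, 0, 0, 0⟩ ⟨0, 0, 0, 0, 0, 0, 202713, 0, 0, 0, 0, 0, 0⟩ ⟨0, 0, 0, 0, 0, 0, 202713, 0, 0, 0, 0, 0, 0⟩ ⟨100, -1, -586, 6, -26, 125, 142260, 0, 0, 0, 0, 0, 0⟩))))))
    (.s1
    (.leaf (.box ⟨328, 0, -863, 6, -18, 320, 699771, 0, 0, 0, 0, 0, 0⟩ ⟨201, 0, -512, 8, -24, 178, 299055, 0, 0, 0, 0, 0, 0⟩ ⟨201, 0, -512, 8, -24, 178, 299055, 0, 0, 0, 0, 0, 0⟩ ⟨210, 0, -512, 12, -34, 167, 195276, 0, 0, 0, 0, 0, 0⟩ ⟨210, 0, -512, 12, -34, 167, 195276, 0, 0, 0, 0, 0, 0⟩ ⟨212, 0, -512, 15, -42, 156, 148595, 0, 0, 0, 0, 0, 0⟩))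
    (.s3
    (.leaf (.box ⟨251, -1, -825, 6, -17, 269, 575099, 0, 0, 0, 0, 0, 0⟩ ⟨0, 0, 0, 0, 0, 0, 287476, 0, 0, 0, 0, 0, 0⟩ ⟨0, 0, 0, 0, 0, 0, 287476, 0, 0, 0, 0, 0, 0⟩ ⟨0, 0, 0, 0, 0, 0, 191634, 0, 0, 0, 0, 0, 0⟩ ⟨0, 0, 0, 0, 0, 0, 191634, 0, 0, 0, 0, 0, 0⟩ ⟨163, -1, -512, 11, -35, 139, 143719, 0, 0, 0, 0, 0, 0⟩))
    (.s2
    (.leaf (.box ⟨436, 0, -2222, 6, -22, 707, 1011808, 0, 0, 0, 0, 0, 0⟩ ⟨0, 0, 0, 0, 0, 0, 339926, 0, 0, 0, 0, 0, 0⟩ ⟨0, 0, 0, 0, 0, 0, 339926, 0, 0, 0, 0, 0, 0⟩ ⟨0, 0, 0, 0, 0, 0, 204278, 0, 0, 0, 0, 0, 0⟩ ⟨0, 0, 0, 0, 0, 0, 204278, 0, 0, 0, 0, 0, 0⟩ ⟨113, 0, -512, 8, -29, 134, 146011, 0, 0, 0, 0, 0, 0⟩))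
    (.leaf (.box ⟨474, -1, -2330, 6, -24, 664, 975915, 0, 0, 0, 0, 0, 0⟩ ⟨0, 0, 0, 0, 0, 0, 340678, 0, 0, 0, 0, 0, 0⟩ ⟨0, 0, 0, 0, 0, 0, 340678, 0, 0, 0, 0, 0, 0⟩ ⟨0, 0, 0, 0, 0, 0, 206357, 0, 0, 0, 0, 0, 0⟩ ⟨0, 0, 0, 0, 0, 0, 206357, 0, 0, 0, 0, 0, 0⟩ ⟨103, -1, -512, 7, -27, 118, 148003, 0, 0, 0, 0, 0, 0⟩))))))
    (.s3
    (.leaf (.box ⟨255, 0, -512, 7, -15, 202, 611796, 0, 0, 0, 0, 0, 0⟩ ⟨0, 0, 0, 0, 0, 0, 303571, 0, 0, 0, 0, 0, 0⟩ ⟨0, 0, 0, 0, 0, 0, 303571, 0, 0, 0, 0, 0, 0⟩ ⟨0, 0, 0, 0, 0, 0, 201869, 0, 0, 0, 0, 0, 0⟩ ⟨0, 0, 0, 0, 0, 0, 201869, 0, 0, 0, 0, 0, 0⟩ ⟨263, 0, -512, 26, -50, 167, 151210, 0, 0, 0, 0, 0, 0⟩))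
    (.s1
    (.leaf (.box ⟨473, 0, -1229, 6, -17, 478, 1222434, 0, 0, 0, 0, 0, 0⟩ ⟨192, 0, -512, 8, -23, 185, 366459, 0, 0, 0, 0, 0, 0⟩ ⟨192, 0, -512, 8, -23, 185, 366459, 0, 0, 0, 0, 0, 0⟩ ⟨194, 1, -512, 11, -35, 172, 219336, 0, 0, 0, 0, 0, 0⟩ ⟨194, 1, -512, 11, -35, 172, 219336, 0, 0, 0, 0, 0, 0⟩ ⟨196, 1, -512, 15, -46, 160, 155712, 0, 0, 0, 0, 0, 0⟩))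
    (.leaf (.box ⟨459, 0, -1402, 6, -17, 463, 1076468, 0, 0, 0, 0, 0, 0⟩ ⟨0, 0, 0, 0, 0, 0, 357326, 0, 0, 0, 0, 0, 0⟩ ⟨0, 0, 0, 0, 0, 0, 357326, 0, 0, 0, 0, 0, 0⟩ ⟨0, 0, 0, 0, 0, 0, 214217, 0, 0, 0, 0, 0, 0⟩ ⟨0, 0, 0, 0, 0, 0, 214217, 0, 0, 0, 0, 0, 0⟩ ⟨168, -1, -512, 14, -35, 136, 152957, 0, 0, 0, 0, 0, 0⟩))))

/-- A piece of the tree. -/
noncomputable def tree83 : Tree LeafX :=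
  .s0
    (.s2
    (.s1
    (.s3
    (.s2
    (.leaf (.box ⟨205, -1, -1395, 6, -19, 405, 544021, 0, 0, 0, 0, 0, 0⟩ ⟨0, 0, 0, 0, 0, 0, 273725, 0, 0, 0, 0, 0, 0⟩ ⟨0, 0, 0, 0, 0, 0, 273725, 0, 0, 0, 0, 0, 0⟩ ⟨0, 0, 0, 0, 0, 0, 182868, 0, 0, 0, 0, 0, 0⟩ ⟨0, 0, 0, 0, 0, 0, 182868, 0, 0, 0, 0, 0, 0⟩ ⟨91, -1, -512, 8, -22, 127, 137295, 0, 0, 0, 0, 0, 0⟩))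
    (.leaf (.box ⟨218, -1, -1454, 6, -21, 403, 539583, 0, 0, 0, 0, 0, 0⟩ ⟨0, 0, 0, 0, 0, 0, 273017, 0, 0, 0, 0, 0, 0⟩ ⟨0, 0, 0, 0, 0, 0, 273017, 0, 0, 0, 0, 0, 0⟩ ⟨0, 0, 0, 0, 0, 0, 182740, 0, 0, 0, 0, 0, 0⟩ ⟨0, 0, 0, 0, 0, 0, 182740, 0, 0, 0, 0, 0, 0⟩ ⟨85, -2, -512, 8, -23, 119, 137329, 0, 0, 0, 0, 0, 0⟩)))
    (.s2
    (.leaf (.box ⟨294, -1, -2279, 6, -15, 619, 941144, 0, 0, 0, 0, 0, 0⟩ ⟨0, 0, 0, 0, 0, 0, 323261, 0, 0, 0, 0, 0, 0⟩ ⟨0, 0, 0, 0, 0, 0, 323261, 0, 0, 0, 0, 0, 0⟩ ⟨0, 0, 0, 0, 0, 0, 195144, 0, 0, 0, 0, 0, 0⟩ ⟨0, 0, 0, 0, 0, 0, 195144, 0, 0, 0, 0, 0, 0⟩ ⟨78, -1, -512, 7, -18, 116, 139755, 0, 0, 0, 0, 0, 0⟩))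
    (.leaf (.box ⟨377, -1, -2808, 6, -18, 730, 1035106, 0, 0, 0, 0, 0, 0⟩ ⟨135, -1, -972, 6, -18, 237, 321871, 0, 0, 0, 0, 0, 0⟩ ⟨135, -1, -972, 6, -18, 237, 321871, 0, 0, 0, 0, 0, 0⟩ ⟨98, -1, -662, 6, -18, 151, 196531, 0, 0, 0, 0, 0, 0⟩ ⟨98, -1, -662, 6, -18, 151, 196531, 0, 0, 0, 0, 0, 0⟩ ⟨82, -1, -552, 6, -19, 118, 142626, 0, 0, 0, 0, 0, 0⟩))))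
    (.s2
    (.leaf (.box ⟨178, -2, -1244, 6, -11, 320, 553129, 0, 0, 0, 0, 0, 0⟩ ⟨0, 0, 0, 0, 0, 0, 275531, 0, 0, 0, 0, 0, 0⟩ ⟨0, 0, 0, 0, 0, 0, 275531, 0, 0, 0, 0, 0, 0⟩ ⟨0, 0, 0, 0, 0, 0, 183459, 0, 0, 0, 0, 0, 0⟩ ⟨0, 0, 0, 0, 0, 0, 183459, 0, 0, 0, 0, 0, 0⟩ ⟨84, -2, -512, 8, -13, 111, 137508, 0, 0, 0, 0, 0, 0⟩))
    (.leaf (.box ⟨223, -2, -1472, 6, -15, 361, 548183, 0, 0, 0, 0, 0, 0⟩ ⟨0, 0, 0, 0, 0, 0, 274838, 0, 0, 0, 0, 0, 0⟩ ⟨0, 0, 0, 0, 0, 0, 274838, 0, 0, 0, 0, 0, 0⟩ ⟨0, 0, 0, 0, 0, 0, 183392, 0, 0, 0, 0, 0, 0⟩ ⟨0, 0, 0, 0, 0, 0, 183392, 0, 0, 0, 0, 0, 0⟩ ⟨90, -3, -512, 8, -15, 104, 137606, 0, 0, 0, 0, 0, 0⟩))))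
    (.s1
    (.s3
    (.leaf (.box ⟨247, -2, -1359, 6, -20, 344, 535351, 0, 0, 0, 0, 0, 0⟩ ⟨0, 0, 0, 0, 0, 0, 272866, 0, 0, 0, 0, 0, 0⟩ ⟨0, 0, 0, 0, 0, 0, 272866, 0, 0, 0, 0, 0, 0⟩ ⟨0, 0, 0, 0, 0, 0, 183094, 0, 0, 0, 0, 0, 0⟩ ⟨0, 0, 0, 0, 0, 0, 183094, 0, 0, 0, 0, 0, 0⟩ ⟨97, -2, -512, 7, -22, 108, 137768, 0, 0, 0, 0, 0, 0⟩))
    (.s2
    (.leaf (.box ⟨400, -2, -2937, 6, -22, 724, 908348, 0, 0, 0, 0, 0, 0⟩ ⟨0, 0, 0, 0, 0, 0, 323125, 0, 0, 0, 0, 0, 0⟩ ⟨0, 0, 0, 0, 0, 0, 323125, 0, 0, 0, 0, 0, 0⟩ ⟨0, 0, 0, 0, 0, 0, 196516, 0, 0, 0, 0, 0, 0⟩ ⟨0, 0, 0, 0, 0, 0, 196516, 0, 0, 0, 0, 0, 0⟩ ⟨84, -2, -591, 6, -21, 119, 141192, 0, 0, 0, 0, 0, 0⟩))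
    (.leaf (.box ⟨475, -2, -3600, 6, -27, 836, 897692, 0, 0, 0, 0, 0, 0⟩ ⟨0, 0, 0, 0, 0, 0, 325599, 0, 0, 0, 0, 0, 0⟩ ⟨0, 0, 0, 0, 0, 0, 325599, 0, 0, 0, 0, 0, 0⟩ ⟨0, 0, 0, 0, 0, 0, 198864, 0, 0, 0, 0, 0, 0⟩ ⟨0, 0, 0, 0, 0, 0, 198864, 0, 0, 0, 0, 0, 0⟩ ⟨88, -2, -647, 6, -22, 123, 143146, 0, 0, 0, 0, 0, 0⟩))))
    (.leaf (.box ⟨307, -3, -1787, 6, -17, 402, 631948, 0, 0, 0, 0, 0, 0⟩ ⟨150, -3, -845, 6, -16, 178, 275809, 0, 0, 0, 0, 0, 0⟩ ⟨150, -3, -845, 6, -16, 178, 275809, 0, 0, 0, 0, 0, 0⟩ ⟨109, -3, -588, 6, -15, 116, 183400, 0, 0, 0, 0, 0, 0⟩ ⟨109, -3, -588, 6, -15, 116, 183400, 0, 0, 0, 0, 0, 0⟩ ⟨96, -3, -512, 7, -15, 95, 143485, 0, 0, 0, 0, 0, 0⟩))))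
    (.s1
    (.s3
    (.leaf (.box ⟨236, -1, -862, 6, -14, 245, 566204, 0, 0, 0, 0, 0, 0⟩ ⟨0, 0, 0, 0, 0, 0, 285705, 0, 0, 0, 0, 0, 0⟩ ⟨0, 0, 0, 0, 0, 0, 285705, 0, 0, 0, 0, 0, 0⟩ ⟨0, 0, 0, 0, 0, 0, 191056, 0, 0, 0, 0, 0, 0⟩ ⟨0, 0, 0, 0, 0, 0, 191056, 0, 0, 0, 0, 0, 0⟩ ⟨138, -2, -512, 10, -26, 121, 143512, 0, 0, 0, 0, 0, 0⟩))
    (.s2
    (.leaf (.box ⟨351, -1, -2119, 6, -16, 597, 988920, 0, 0, 0, 0, 0, 0⟩ ⟨0, 0, 0, 0, 0, 0, 338248, 0, 0, 0, 0, 0, 0⟩ ⟨0, 0, 0, 0, 0, 0, 338248, 0, 0, 0, 0, 0, 0⟩ ⟨0, 0, 0, 0, 0, 0, 204015, 0, 0, 0, 0, 0, 0⟩ ⟨0, 0, 0, 0, 0, 0, 204015, 0, 0, 0, 0, 0, 0⟩ ⟨97, -1, -512, 8, -21, 119, 146053, 0, 0, 0, 0, 0, 0⟩))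
    (.leaf (.box ⟨416, -2, -2474, 6, -21, 624, 956923, 0, 0, 0, 0, 0, 0⟩ ⟨0, 0, 0, 0, 0, 0, 339385, 0, 0, 0, 0, 0, 0⟩ ⟨0, 0, 0, 0, 0, 0, 339385, 0, 0, 0, 0, 0, 0⟩ ⟨0, 0, 0, 0, 0, 0, 206271, 0, 0, 0, 0, 0, 0⟩ ⟨0, 0, 0, 0, 0, 0, 206271, 0, 0, 0, 0, 0, 0⟩ ⟨93, -2, -512, 7, -20, 105, 148159, 0, 0, 0, 0, 0, 0⟩))))
    (.s2
    (.leaf (.box ⟨195, -2, -1146, 6, -11, 304, 664747, 0, 0, 0, 0, 0, 0⟩ ⟨99, -2, -535, 6, -11, 133, 289378, 0, 0, 0, 0, 0, 0⟩ ⟨99, -2, -535, 6, -11, 133, 289378, 0, 0, 0, 0, 0, 0⟩ ⟨102, -2, -512, 8, -14, 120, 191514, 0, 0, 0, 0, 0, 0⟩ ⟨102, -2, -512, 8, -14, 120, 191514, 0, 0, 0, 0, 0, 0⟩ ⟨108, -3, -512, 9, -16, 113, 148541, 0, 0, 0, 0, 0, 0⟩))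
    (.s2
    (.leaf (.box ⟨203, -2, -1318, 6, -16, 322, 570010, 0, 0, 0, 0, 0, 0⟩ ⟨0, 0, 0, 0, 0, 0, 288195, 0, 0, 0, 0, 0, 0⟩ ⟨0, 0, 0, 0, 0, 0, 288195, 0, 0, 0, 0, 0, 0⟩ ⟨0, 0, 0, 0, 0, 0, 192849, 0, 0, 0, 0, 0, 0⟩ ⟨0, 0, 0, 0, 0, 0, 192849, 0, 0, 0, 0, 0, 0⟩ ⟨88, -3, -512, 7, -18, 103, 144908, 0, 0, 0, 0, 0, 0⟩))
    (.leaf (.box ⟨235, -3, -1569, 6, -20, 360, 568659, 0, 0, 0, 0, 0, 0⟩ ⟨0, 0, 0, 0, 0, 0, 290947, 0, 0, 0, 0, 0, 0⟩ ⟨0, 0, 0, 0, 0, 0, 290947, 0, 0, 0, 0, 0, 0⟩ ⟨0, 0, 0, 0, 0, 0, 195481, 0, 0, 0, 0, 0, 0⟩ ⟨0, 0, 0, 0, 0, 0, 195481, 0, 0, 0, 0, 0, 0⟩ ⟨84, -3, -512, 7, -18, 97, 147186, 0, 0, 0, 0, 0, 0⟩)))))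

/-- A piece of the tree. -/
noncomputable def tree84 : Tree LeafX :=
  .s3
    (.s2
    (.leaf (.box ⟨215, -1, -787, 6, -12, 248, 699625, 0, 0, 0, 0, 0, 0⟩ ⟨145, -1, -512, 9, -17, 152, 304030, 0, 0, 0, 0, 0, 0⟩ ⟨145, -1, -512, 9, -17, 152, 304030, 0, 0, 0, 0, 0, 0⟩ ⟨148, -2, -512, 13, -23, 143, 200614, 0, 0, 0, 0, 0, 0⟩ ⟨148, -2, -512, 13, -23, 143, 200614, 0, 0, 0, 0, 0, 0⟩ ⟨154, -2, -512, 15, -28, 135, 156573, 0, 0, 0, 0, 0, 0⟩))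
    (.leaf (.box ⟨205, -2, -754, 6, -14, 209, 590789, 0, 0, 0, 0, 0, 0⟩ ⟨0, 0, 0, 0, 0, 0, 301332, 0, 0, 0, 0, 0, 0⟩ ⟨0, 0, 0, 0, 0, 0, 301332, 0, 0, 0, 0, 0, 0⟩ ⟨0, 0, 0, 0, 0, 0, 202243, 0, 0, 0, 0, 0, 0⟩ ⟨0, 0, 0, 0, 0, 0, 202243, 0, 0, 0, 0, 0, 0⟩ ⟨144, -5, -512, 16, -28, 118, 152195, 0, 0, 0, 0, 0, 0⟩)))
    (.s2
    (.s1
    (.leaf (.box ⟨322, -1, -1518, 6, -15, 468, 1051461, 0, 0, 0, 0, 0, 0⟩ ⟨0, 0, 0, 0, 0, 0, 355446, 0, 0, 0, 0, 0, 0⟩ ⟨0, 0, 0, 0, 0, 0, 355446, 0, 0, 0, 0, 0, 0⟩ ⟨0, 0, 0, 0, 0, 0, 213873, 0, 0, 0, 0, 0, 0⟩ ⟨0, 0, 0, 0, 0, 0, 213873, 0, 0, 0, 0, 0, 0⟩ ⟨114, -1, -512, 10, -27, 128, 152952, 0, 0, 0, 0, 0, 0⟩))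
    (.leaf (.box ⟨311, -1, -1712, 6, -13, 479, 1029743, 0, 0, 0, 0, 0, 0⟩ ⟨0, 0, 0, 0, 0, 0, 355492, 0, 0, 0, 0, 0, 0⟩ ⟨0, 0, 0, 0, 0, 0, 355492, 0, 0, 0, 0, 0, 0⟩ ⟨0, 0, 0, 0, 0, 0, 214828, 0, 0, 0, 0, 0, 0⟩ ⟨0, 0, 0, 0, 0, 0, 214828, 0, 0, 0, 0, 0, 0⟩ ⟨104, -2, -512, 10, -20, 117, 153922, 0, 0, 0, 0, 0, 0⟩)))
    (.s1
    (.leaf (.box ⟨434, -1, -2034, 6, -21, 557, 1010995, 0, 0, 0, 0, 0, 0⟩ ⟨0, 0, 0, 0, 0, 0, 357412, 0, 0, 0, 0, 0, 0⟩ ⟨0, 0, 0, 0, 0, 0, 357412, 0, 0, 0, 0, 0, 0⟩ ⟨0, 0, 0, 0, 0, 0, 217077, 0, 0, 0, 0, 0, 0⟩ ⟨0, 0, 0, 0, 0, 0, 217077, 0, 0, 0, 0, 0, 0⟩ ⟨105, -2, -512, 9, -25, 113, 155874, 0, 0, 0, 0, 0, 0⟩))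
    (.leaf (.box ⟨295, -2, -1636, 6, -15, 407, 981928, 0, 0, 0, 0, 0, 0⟩ ⟨0, 0, 0, 0, 0, 0, 357622, 0, 0, 0, 0, 0, 0⟩ ⟨0, 0, 0, 0, 0, 0, 357622, 0, 0, 0, 0, 0, 0⟩ ⟨0, 0, 0, 0, 0, 0, 218623, 0, 0, 0, 0, 0, 0⟩ ⟨0, 0, 0, 0, 0, 0, 218623, 0, 0, 0, 0, 0, 0⟩ ⟨93, -3, -512, 8, -20, 103, 157432, 0, 0, 0, 0, 0, 0⟩))))

/-- A piece of the tree. -/
noncomputable def tree85 : Tree LeafX :=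
  .s2
    (.s1
    (.leaf (.box ⟨299, 1, -512, 12, -19, 252, 730511, 0, 0, 0, 0, 0, 0⟩ ⟨0, 0, 0, 0, 0, 0, 343218, 0, 0, 0, 0, 0, 0⟩ ⟨0, 0, 0, 0, 0, 0, 343218, 0, 0, 0, 0, 0, 0⟩ ⟨0, 0, 0, 0, 0, 0, 224301, 0, 0, 0, 0, 0, 0⟩ ⟨0, 0, 0, 0, 0, 0, 224301, 0, 0, 0, 0, 0, 0⟩ ⟨313, 5, -512, 42, -70, 203, 166583, 0, 0, 0, 0, 0, 0⟩))
    (.s1
    (.leaf (.box ⟨191, 0, -512, 7, -13, 197, 705036, 0, 0, 0, 0, 0, 0⟩ ⟨0, 0, 0, 0, 0, 0, 338817, 0, 0, 0, 0, 0, 0⟩ ⟨0, 0, 0, 0, 0, 0, 338817, 0, 0, 0, 0, 0, 0⟩ ⟨0, 0, 0, 0, 0, 0, 222989, 0, 0, 0, 0, 0, 0⟩ ⟨0, 0, 0, 0, 0, 0, 222989, 0, 0, 0, 0, 0, 0⟩ ⟨205, 0, -512, 24, -46, 160, 166179, 0, 0, 0, 0, 0, 0⟩))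
    (.leaf (.box ⟨164, -1, -512, 7, -11, 176, 689188, 0, 0, 0, 0, 0, 0⟩ ⟨0, 0, 0, 0, 0, 0, 336765, 0, 0, 0, 0, 0, 0⟩ ⟨0, 0, 0, 0, 0, 0, 336765, 0, 0, 0, 0, 0, 0⟩ ⟨0, 0, 0, 0, 0, 0, 222823, 0, 0, 0, 0, 0, 0⟩ ⟨0, 0, 0, 0, 0, 0, 222823, 0, 0, 0, 0, 0, 0⟩ ⟨177, -2, -512, 21, -36, 143, 166491, 0, 0, 0, 0, 0, 0⟩))))
    (.s1
    (.leaf (.box ⟨278, 0, -512, 10, -18, 218, 707132, 0, 0, 0, 0, 0, 0⟩ ⟨0, 0, 0, 0, 0, 0, 344863, 0, 0, 0, 0, 0, 0⟩ ⟨0, 0, 0, 0, 0, 0, 344863, 0, 0, 0, 0, 0, 0⟩ ⟨0, 0, 0, 0, 0, 0, 228038, 0, 0, 0, 0, 0, 0⟩ ⟨0, 0, 0, 0, 0, 0, 228038, 0, 0, 0, 0, 0, 0⟩ ⟨286, 1, -512, 35, -61, 174, 170335, 0, 0, 0, 0, 0, 0⟩))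
    (.s1
    (.leaf (.box ⟨182, -1, -512, 7, -13, 172, 683949, 0, 0, 0, 0, 0, 0⟩ ⟨0, 0, 0, 0, 0, 0, 339876, 0, 0, 0, 0, 0, 0⟩ ⟨0, 0, 0, 0, 0, 0, 339876, 0, 0, 0, 0, 0, 0⟩ ⟨0, 0, 0, 0, 0, 0, 226122, 0, 0, 0, 0, 0, 0⟩ ⟨0, 0, 0, 0, 0, 0, 226122, 0, 0, 0, 0, 0, 0⟩ ⟨182, -3, -512, 22, -42, 138, 169418, 0, 0, 0, 0, 0, 0⟩))
    (.leaf (.box ⟨192, -1, -628, 6, -14, 188, 675932, 0, 0, 0, 0, 0, 0⟩ ⟨0, 0, 0, 0, 0, 0, 338893, 0, 0, 0, 0, 0, 0⟩ ⟨0, 0, 0, 0, 0, 0, 338893, 0, 0, 0, 0, 0, 0⟩ ⟨0, 0, 0, 0, 0, 0, 226136, 0, 0, 0, 0, 0, 0⟩ ⟨0, 0, 0, 0, 0, 0, 226136, 0, 0, 0, 0, 0, 0⟩ ⟨159, -5, -512, 20, -35, 124, 169679, 0, 0, 0, 0, 0, 0⟩))))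

/-- A piece of the tree. -/
noncomputable def tree86 : Tree LeafX :=
  .s2
    (.s1
    (.leaf (.box ⟨433, 4, -512, 22, -32, 371, 1061610, 0, 0, 0, 0, 0, 0⟩ ⟨437, 9, -512, 48, -72, 340, 442918, 0, 0, 0, 0, 0, 0⟩ ⟨437, 9, -512, 48, -72, 340, 442918, 0, 0, 0, 0, 0, 0⟩ ⟨442, 14, -512, 72, -105, 312, 282298, 0, 0, 0, 0, 0, 0⟩ ⟨442, 14, -512, 72, -105, 312, 282298, 0, 0, 0, 0, 0, 0⟩ ⟨446, 19, -512, 89, -130, 285, 211758, 0, 0, 0, 0, 0, 0⟩))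
    (.leaf (.box ⟨319, 1, -512, 17, -24, 262, 907529, 0, 0, 0, 0, 0, 0⟩ ⟨0, 0, 0, 0, 0, 0, 425445, 0, 0, 0, 0, 0, 0⟩ ⟨0, 0, 0, 0, 0, 0, 425445, 0, 0, 0, 0, 0, 0⟩ ⟨0, 0, 0, 0, 0, 0, 277850, 0, 0, 0, 0, 0, 0⟩ ⟨0, 0, 0, 0, 0, 0, 277850, 0, 0, 0, 0, 0, 0⟩ ⟨338, 5, -512, 67, -83, 206, 206285, 0, 0, 0, 0, 0, 0⟩)))
    (.leaf (.box ⟨457, 1, -512, 22, -24, 262, 1001607, 0, 0, 0, 0, 0, 0⟩ ⟨464, 2, -512, 48, -52, 242, 434985, 0, 0, 0, 0, 0, 0⟩ ⟨464, 2, -512, 48, -52, 242, 434985, 0, 0, 0, 0, 0, 0⟩ ⟨462, 3, -512, 73, -73, 223, 286405, 0, 0, 0, 0, 0, 0⟩ ⟨462, 3, -512, 73, -73, 223, 286405, 0, 0, 0, 0, 0, 0⟩ ⟨461, 4, -512, 91, -87, 205, 221694, 0, 0, 0, 0, 0, 0⟩))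

/-- A piece of the tree. -/
noncomputable def tree87 : Tree LeafX :=
  .s0
    (.s1
    (.s0
    (.s1
    (.leaf (.box ⟨231, -1, -763, 6, -16, 223, 574427, 0, 0, 0, 0, 0, 0⟩ ⟨0, 0, 0, 0, 0, 0, 284266, 0, 0, 0, 0, 0, 0⟩ ⟨0, 0, 0, 0, 0, 0, 284266, 0, 0, 0, 0, 0, 0⟩ ⟨0, 0, 0, 0, 0, 0, 188865, 0, 0, 0, 0, 0, 0⟩ ⟨0, 0, 0, 0, 0, 0, 188865, 0, 0, 0, 0, 0, 0⟩ ⟨153, -2, -512, 14, -34, 124, 141407, 0, 0, 0, 0, 0, 0⟩))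
    (.s3
    (.leaf (.box ⟨251, -1, -1077, 6, -20, 277, 543696, 0, 0, 0, 0, 0, 0⟩ ⟨0, 0, 0, 0, 0, 0, 278875, 0, 0, 0, 0, 0, 0⟩ ⟨0, 0, 0, 0, 0, 0, 278875, 0, 0, 0, 0, 0, 0⟩ ⟨0, 0, 0, 0, 0, 0, 187533, 0, 0, 0, 0, 0, 0⟩ ⟨0, 0, 0, 0, 0, 0, 187533, 0, 0, 0, 0, 0, 0⟩ ⟨116, -3, -512, 11, -28, 111, 141263, 0, 0, 0, 0, 0, 0⟩))
    (.s2
    (.leaf (.box ⟨457, -1, -2520, 6, -24, 633, 918326, 0, 0, 0, 0, 0, 0⟩ ⟨0, 0, 0, 0, 0, 0, 330586, 0, 0, 0, 0, 0, 0⟩ ⟨0, 0, 0, 0, 0, 0, 330586, 0, 0, 0, 0, 0, 0⟩ ⟨0, 0, 0, 0, 0, 0, 201575, 0, 0, 0, 0, 0, 0⟩ ⟨0, 0, 0, 0, 0, 0, 201575, 0, 0, 0, 0, 0, 0⟩ ⟨92, -2, -512, 8, -24, 105, 144992, 0, 0, 0, 0, 0, 0⟩))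
    (.leaf (.box ⟨405, -2, -2399, 6, -22, 564, 933613, 0, 0, 0, 0, 0, 0⟩ ⟨0, 0, 0, 0, 0, 0, 337562, 0, 0, 0, 0, 0, 0⟩ ⟨0, 0, 0, 0, 0, 0, 337562, 0, 0, 0, 0, 0, 0⟩ ⟨0, 0, 0, 0, 0, 0, 206028, 0, 0, 0, 0, 0, 0⟩ ⟨0, 0, 0, 0, 0, 0, 206028, 0, 0, 0, 0, 0, 0⟩ ⟨83, -2, -512, 7, -23, 100, 148257, 0, 0, 0, 0, 0, 0⟩)))))
    (.leaf (.box ⟨204, -1, -549, 6, -12, 165, 628782, 0, 0, 0, 0, 0, 0⟩ ⟨0, 0, 0, 0, 0, 0, 314960, 0, 0, 0, 0, 0, 0⟩ ⟨0, 0, 0, 0, 0, 0, 314960, 0, 0, 0, 0, 0, 0⟩ ⟨0, 0, 0, 0, 0, 0, 210100, 0, 0, 0, 0, 0, 0⟩ ⟨0, 0, 0, 0, 0, 0, 210100, 0, 0, 0, 0, 0, 0⟩ ⟨188, -3, -512, 20, -37, 127, 157622, 0, 0, 0, 0, 0, 0⟩)))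
    (.s3
    (.s0
    (.s2
    (.s1
    (.leaf (.box ⟨279, -2, -1653, 6, -26, 388, 537607, 0, 0, 0, 0, 0, 0⟩ ⟨0, 0, 0, 0, 0, 0, 278154, 0, 0, 0, 0, 0, 0⟩ ⟨0, 0, 0, 0, 0, 0, 278154, 0, 0, 0, 0, 0, 0⟩ ⟨0, 0, 0, 0, 0, 0, 187611, 0, 0, 0, 0, 0, 0⟩ ⟨0, 0, 0, 0, 0, 0, 187611, 0, 0, 0, 0, 0, 0⟩ ⟨88, -3, -512, 8, -23, 101, 141538, 0, 0, 0, 0, 0, 0⟩))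
    (.leaf (.box ⟨255, -3, -1764, 6, -24, 377, 529868, 0, 0, 0, 0, 0, 0⟩ ⟨0, 0, 0, 0, 0, 0, 279129, 0, 0, 0, 0, 0, 0⟩ ⟨0, 0, 0, 0, 0, 0, 279129, 0, 0, 0, 0, 0, 0⟩ ⟨0, 0, 0, 0, 0, 0, 189470, 0, 0, 0, 0, 0, 0⟩ ⟨0, 0, 0, 0, 0, 0, 189470, 0, 0, 0, 0, 0, 0⟩ ⟨72, -5, -512, 8, -18, 93, 143406, 0, 0, 0, 0, 0, 0⟩)))
    (.leaf (.box ⟨299, -3, -1541, 6, -18, 323, 653501, 0, 0, 0, 0, 0, 0⟩ ⟨121, -3, -610, 6, -15, 121, 286952, 0, 0, 0, 0, 0, 0⟩ ⟨121, -3, -610, 6, -15, 121, 286952, 0, 0, 0, 0, 0, 0⟩ ⟨96, -3, -512, 7, -17, 97, 191325, 0, 0, 0, 0, 0, 0⟩ ⟨96, -3, -512, 7, -17, 97, 191325, 0, 0, 0, 0, 0, 0⟩ ⟨96, -4, -512, 9, -19, 92, 151568, 0, 0, 0, 0, 0, 0⟩)))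
    (.leaf (.box ⟨341, -2, -1335, 6, -19, 317, 715766, 0, 0, 0, 0, 0, 0⟩ ⟨127, -2, -512, 6, -15, 115, 314212, 0, 0, 0, 0, 0, 0⟩ ⟨127, -2, -512, 6, -15, 115, 314212, 0, 0, 0, 0, 0, 0⟩ ⟨125, -3, -512, 9, -21, 109, 209503, 0, 0, 0, 0, 0, 0⟩ ⟨125, -3, -512, 9, -21, 109, 209503, 0, 0, 0, 0, 0, 0⟩ ⟨126, -5, -512, 13, -24, 103, 165388, 0, 0, 0, 0, 0, 0⟩)))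
    (.s3
    (.s0
    (.s1
    (.leaf (.box ⟨416, -2, -2433, 6, -20, 533, 888484, 0, 0, 0, 0, 0, 0⟩ ⟨0, 0, 0, 0, 0, 0, 330528, 0, 0, 0, 0, 0, 0⟩ ⟨0, 0, 0, 0, 0, 0, 330528, 0, 0, 0, 0, 0, 0⟩ ⟨0, 0, 0, 0, 0, 0, 203029, 0, 0, 0, 0, 0, 0⟩ ⟨0, 0, 0, 0, 0, 0, 203029, 0, 0, 0, 0, 0, 0⟩ ⟨83, -2, -538, 6, -20, 99, 146512, 0, 0, 0, 0, 0, 0⟩))
    (.leaf (.box ⟨415, -3, -2791, 6, -21, 563, 860167, 0, 0, 0, 0, 0, 0⟩ ⟨0, 0, 0, 0, 0, 0, 332866, 0, 0, 0, 0, 0, 0⟩ ⟨0, 0, 0, 0, 0, 0, 332866, 0, 0, 0, 0, 0, 0⟩ ⟨0, 0, 0, 0, 0, 0, 206362, 0, 0, 0, 0, 0, 0⟩ ⟨0, 0, 0, 0, 0, 0, 206362, 0, 0, 0, 0, 0, 0⟩ ⟨73, -3, -565, 6, -17, 96, 149532, 0, 0, 0, 0, 0, 0⟩)))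
    (.leaf (.box ⟨600, -2, -2719, 6, -22, 624, 1164833, 0, 0, 0, 0, 0, 0⟩ ⟨169, -2, -774, 6, -18, 167, 367549, 0, 0, 0, 0, 0, 0⟩ ⟨169, -2, -774, 6, -18, 167, 367549, 0, 0, 0, 0, 0, 0⟩ ⟨108, -3, -512, 8, -17, 104, 226941, 0, 0, 0, 0, 0, 0⟩ ⟨108, -3, -512, 8, -17, 104, 226941, 0, 0, 0, 0, 0, 0⟩ ⟨104, -3, -512, 9, -21, 98, 167642, 0, 0, 0, 0, 0, 0⟩)))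
    (.s0
    (.s1
    (.leaf (.box ⟨605, -2, -3726, 6, -21, 801, 1273817, 0, 0, 0, 0, 0, 0⟩ ⟨0, 0, 0, 0, 0, 0, 360714, 0, 0, 0, 0, 0, 0⟩ ⟨0, 0, 0, 0, 0, 0, 360714, 0, 0, 0, 0, 0, 0⟩ ⟨0, 0, 0, 0, 0, 0, 210105, 0, 0, 0, 0, 0, 0⟩ ⟨0, 0, 0, 0, 0, 0, 210105, 0, 0, 0, 0, 0, 0⟩ ⟨85, -2, -578, 6, -20, 103, 148219, 0, 0, 0, 0, 0, 0⟩))
    (.leaf (.box ⟨594, -3, -4292, 6, -22, 854, 1210655, 0, 0, 0, 0, 0, 0⟩ ⟨0, 0, 0, 0, 0, 0, 364151, 0, 0, 0, 0, 0, 0⟩ ⟨0, 0, 0, 0, 0, 0, 364151, 0, 0, 0, 0, 0, 0⟩ ⟨0, 0, 0, 0, 0, 0, 214306, 0, 0, 0, 0, 0, 0⟩ ⟨0, 0, 0, 0, 0, 0, 214306, 0, 0, 0, 0, 0, 0⟩ ⟨74, -3, -608, 6, -17, 101, 151829, 0, 0, 0, 0, 0, 0⟩)))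
    (.s1
    (.leaf (.box ⟨543, -2, -3070, 6, -20, 721, 1446039, 0, 0, 0, 0, 0, 0⟩ ⟨0, 0, 0, 0, 0, 0, 403748, 0, 0, 0, 0, 0, 0⟩ ⟨0, 0, 0, 0, 0, 0, 403748, 0, 0, 0, 0, 0, 0⟩ ⟨0, 0, 0, 0, 0, 0, 234629, 0, 0, 0, 0, 0, 0⟩ ⟨0, 0, 0, 0, 0, 0, 234629, 0, 0, 0, 0, 0, 0⟩ ⟨82, -2, -512, 6, -22, 99, 165363, 0, 0, 0, 0, 0, 0⟩))
    (.leaf (.box ⟨582, -3, -3743, 6, -23, 807, 1366905, 0, 0, 0, 0, 0, 0⟩ ⟨0, 0, 0, 0, 0, 0, 406095, 0, 0, 0, 0, 0, 0⟩ ⟨0, 0, 0, 0, 0, 0, 406095, 0, 0, 0, 0, 0, 0⟩ ⟨0, 0, 0, 0, 0, 0, 238472, 0, 0, 0, 0, 0, 0⟩ ⟨0, 0, 0, 0, 0, 0, 238472, 0, 0, 0, 0, 0, 0⟩ ⟨79, -3, -596, 6, -21, 107, 168797, 0, 0, 0, 0, 0, 0⟩)))))))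
    (.s3
    (.leaf (.box ⟨271, -2, -512, 11, -15, 162, 681681, 0, 0, 0, 0, 0, 0⟩ ⟨0, 0, 0, 0, 0, 0, 349803, 0, 0, 0, 0, 0, 0⟩ ⟨0, 0, 0, 0, 0, 0, 349803, 0, 0, 0, 0, 0, 0⟩ ⟨0, 0, 0, 0, 0, 0, 235264, 0, 0, 0, 0, 0, 0⟩ ⟨0, 0, 0, 0, 0, 0, 235264, 0, 0, 0, 0, 0, 0⟩ ⟨257, -7, -512, 41, -45, 135, 177231, 0, 0, 0, 0, 0, 0⟩))
    (.s1
    (.leaf (.box ⟨387, 0, -908, 6, -15, 309, 1184624, 0, 0, 0, 0, 0, 0⟩ ⟨0, 0, 0, 0, 0, 0, 419222, 0, 0, 0, 0, 0, 0⟩ ⟨0, 0, 0, 0, 0, 0, 419222, 0, 0, 0, 0, 0, 0⟩ ⟨0, 0, 0, 0, 0, 0, 254674, 0, 0, 0, 0, 0, 0⟩ ⟨0, 0, 0, 0, 0, 0, 254674, 0, 0, 0, 0, 0, 0⟩ ⟨200, -2, -512, 25, -44, 140, 182888, 0, 0, 0, 0, 0, 0⟩))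
    (.leaf (.box ⟨257, -2, -900, 6, -11, 234, 1149662, 0, 0, 0, 0, 0, 0⟩ ⟨0, 0, 0, 0, 0, 0, 417208, 0, 0, 0, 0, 0, 0⟩ ⟨0, 0, 0, 0, 0, 0, 417208, 0, 0, 0, 0, 0, 0⟩ ⟨0, 0, 0, 0, 0, 0, 254846, 0, 0, 0, 0, 0, 0⟩ ⟨0, 0, 0, 0, 0, 0, 254846, 0, 0, 0, 0, 0, 0⟩ ⟨141, -5, -512, 17, -30, 109, 183452, 0, 0, 0, 0, 0, 0⟩))))

/-- A piece of the tree. -/
noncomputable def tree88 : Tree LeafX :=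
  .s1
    (.s0
    (.s1
    (.leaf (.box ⟨196, -1, -657, 6, -13, 173, 590809, 0, 0, 0, 0, 0, 0⟩ ⟨0, 0, 0, 0, 0, 0, 295358, 0, 0, 0, 0, 0, 0⟩ ⟨0, 0, 0, 0, 0, 0, 295358, 0, 0, 0, 0, 0, 0⟩ ⟨0, 0, 0, 0, 0, 0, 196895, 0, 0, 0, 0, 0, 0⟩ ⟨0, 0, 0, 0, 0, 0, 196895, 0, 0, 0, 0, 0, 0⟩ ⟨153, -2, -512, 16, -34, 115, 147667, 0, 0, 0, 0, 0, 0⟩))
    (.s3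
    (.leaf (.box ⟨185, -2, -768, 6, -14, 179, 568381, 0, 0, 0, 0, 0, 0⟩ ⟨0, 0, 0, 0, 0, 0, 292190, 0, 0, 0, 0, 0, 0⟩ ⟨0, 0, 0, 0, 0, 0, 292190, 0, 0, 0, 0, 0, 0⟩ ⟨0, 0, 0, 0, 0, 0, 196638, 0, 0, 0, 0, 0, 0⟩ ⟨0, 0, 0, 0, 0, 0, 196638, 0, 0, 0, 0, 0, 0⟩ ⟨118, -3, -512, 12, -29, 104, 148180, 0, 0, 0, 0, 0, 0⟩))
    (.leaf (.box ⟨312, -2, -1404, 6, -14, 314, 957045, 0, 0, 0, 0, 0, 0⟩ ⟨0, 0, 0, 0, 0, 0, 346617, 0, 0, 0, 0, 0, 0⟩ ⟨0, 0, 0, 0, 0, 0, 346617, 0, 0, 0, 0, 0, 0⟩ ⟨0, 0, 0, 0, 0, 0, 211632, 0, 0, 0, 0, 0, 0⟩ ⟨0, 0, 0, 0, 0, 0, 211632, 0, 0, 0, 0, 0, 0⟩ ⟨104, -2, -512, 9, -25, 98, 152315, 0, 0, 0, 0, 0, 0⟩))))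
    (.leaf (.box ⟨201, -1, -512, 7, -12, 149, 762370, 0, 0, 0, 0, 0, 0⟩ ⟨0, 0, 0, 0, 0, 0, 381082, 0, 0, 0, 0, 0, 0⟩ ⟨0, 0, 0, 0, 0, 0, 381082, 0, 0, 0, 0, 0, 0⟩ ⟨0, 0, 0, 0, 0, 0, 254032, 0, 0, 0, 0, 0, 0⟩ ⟨0, 0, 0, 0, 0, 0, 254032, 0, 0, 0, 0, 0, 0⟩ ⟨191, -2, -512, 20, -39, 126, 190515, 0, 0, 0, 0, 0, 0⟩)))
    (.s0
    (.s0
    (.s1
    (.leaf (.box ⟨275, -3, -1569, 6, -20, 310, 574713, 0, 0, 0, 0, 0, 0⟩ ⟨0, 0, 0, 0, 0, 0, 294006, 0, 0, 0, 0, 0, 0⟩ ⟨0, 0, 0, 0, 0, 0, 294006, 0, 0, 0, 0, 0, 0⟩ ⟨0, 0, 0, 0, 0, 0, 197527, 0, 0, 0, 0, 0, 0⟩ ⟨0, 0, 0, 0, 0, 0, 197527, 0, 0, 0, 0, 0, 0⟩ ⟨83, -2, -512, 6, -20, 89, 148723, 0, 0, 0, 0, 0, 0⟩))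
    (.leaf (.box ⟨276, -3, -1934, 6, -23, 357, 569589, 0, 0, 0, 0, 0, 0⟩ ⟨0, 0, 0, 0, 0, 0, 297443, 0, 0, 0, 0, 0, 0⟩ ⟨0, 0, 0, 0, 0, 0, 297443, 0, 0, 0, 0, 0, 0⟩ ⟨0, 0, 0, 0, 0, 0, 201275, 0, 0, 0, 0, 0, 0⟩ ⟨0, 0, 0, 0, 0, 0, 201275, 0, 0, 0, 0, 0, 0⟩ ⟨69, -3, -512, 6, -17, 83, 152099, 0, 0, 0, 0, 0, 0⟩)))
    (.s0
    (.s1
    (.leaf (.box ⟨398, -2, -2386, 6, -32, 498, 653644, 0, 0, 0, 0, 0, 0⟩ ⟨0, 0, 0, 0, 0, 0, 333132, 0, 0, 0, 0, 0, 0⟩ ⟨0, 0, 0, 0, 0, 0, 333132, 0, 0, 0, 0, 0, 0⟩ ⟨0, 0, 0, 0, 0, 0, 223526, 0, 0, 0, 0, 0, 0⟩ ⟨0, 0, 0, 0, 0, 0, 223526, 0, 0, 0, 0, 0, 0⟩ ⟨93, -2, -576, 6, -24, 105, 168189, 0, 0, 0, 0, 0, 0⟩))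
    (.leaf (.box ⟨264, -3, -1955, 6, -25, 378, 646226, 0, 0, 0, 0, 0, 0⟩ ⟨0, 0, 0, 0, 0, 0, 336225, 0, 0, 0, 0, 0, 0⟩ ⟨0, 0, 0, 0, 0, 0, 336225, 0, 0, 0, 0, 0, 0⟩ ⟨0, 0, 0, 0, 0, 0, 227224, 0, 0, 0, 0, 0, 0⟩ ⟨0, 0, 0, 0, 0, 0, 227224, 0, 0, 0, 0, 0, 0⟩ ⟨83, -3, -634, 6, -23, 108, 171594, 0, 0, 0, 0, 0, 0⟩)))
    (.s1
    (.leaf (.box ⟨411, -2, -2335, 6, -34, 506, 699443, 0, 0, 0, 0, 0, 0⟩ ⟨0, 0, 0, 0, 0, 0, 355621, 0, 0, 0, 0, 0, 0⟩ ⟨0, 0, 0, 0, 0, 0, 355621, 0, 0, 0, 0, 0, 0⟩ ⟨0, 0, 0, 0, 0, 0, 238422, 0, 0, 0, 0, 0, 0⟩ ⟨0, 0, 0, 0, 0, 0, 238422, 0, 0, 0, 0, 0, 0⟩ ⟨104, -2, -597, 6, -27, 112, 179323, 0, 0, 0, 0, 0, 0⟩))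
    (.s2
    (.leaf (.box ⟨324, -3, -2709, 6, -37, 557, 690730, 0, 0, 0, 0, 0, 0⟩ ⟨0, 0, 0, 0, 0, 0, 358505, 0, 0, 0, 0, 0, 0⟩ ⟨0, 0, 0, 0, 0, 0, 358505, 0, 0, 0, 0, 0, 0⟩ ⟨0, 0, 0, 0, 0, 0, 242073, 0, 0, 0, 0, 0, 0⟩ ⟨0, 0, 0, 0, 0, 0, 242073, 0, 0, 0, 0, 0, 0⟩ ⟨85, -3, -670, 6, -26, 119, 182728, 0, 0, 0, 0, 0, 0⟩))
    (.leaf (.box ⟨312, -3, -3075, 6, -39, 599, 723745, 0, 0, 0, 0, 0, 0⟩ ⟨0, 0, 0, 0, 0, 0, 376261, 0, 0, 0, 0, 0, 0⟩ ⟨0, 0, 0, 0, 0, 0, 376261, 0, 0, 0, 0, 0, 0⟩ ⟨0, 0, 0, 0, 0, 0, 254210, 0, 0, 0, 0, 0, 0⟩ ⟨0, 0, 0, 0, 0, 0, 254210, 0, 0, 0, 0, 0, 0⟩ ⟨80, -3, -735, 6, -28, 127, 191946, 0, 0, 0, 0, 0, 0⟩))))))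
    (.s0
    (.s3
    (.leaf (.box ⟨324, -2, -1426, 6, -24, 317, 730166, 0, 0, 0, 0, 0, 0⟩ ⟨0, 0, 0, 0, 0, 0, 377638, 0, 0, 0, 0, 0, 0⟩ ⟨0, 0, 0, 0, 0, 0, 377638, 0, 0, 0, 0, 0, 0⟩ ⟨0, 0, 0, 0, 0, 0, 254678, 0, 0, 0, 0, 0, 0⟩ ⟨0, 0, 0, 0, 0, 0, 254678, 0, 0, 0, 0, 0, 0⟩ ⟨109, -3, -512, 10, -26, 100, 192122, 0, 0, 0, 0, 0, 0⟩))
    (.s1
    (.leaf (.box ⟨506, -2, -2784, 6, -27, 627, 1219477, 0, 0, 0, 0, 0, 0⟩ ⟨0, 0, 0, 0, 0, 0, 448751, 0, 0, 0, 0, 0, 0⟩ ⟨0, 0, 0, 0, 0, 0, 448751, 0, 0, 0, 0, 0, 0⟩ ⟨0, 0, 0, 0, 0, 0, 274968, 0, 0, 0, 0, 0, 0⟩ ⟨0, 0, 0, 0, 0, 0, 274968, 0, 0, 0, 0, 0, 0⟩ ⟨79, -2, -512, 7, -23, 99, 198209, 0, 0, 0, 0, 0, 0⟩))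
    (.leaf (.box ⟨409, -2, -2731, 6, -25, 566, 1181991, 0, 0, 0, 0, 0, 0⟩ ⟨0, 0, 0, 0, 0, 0, 453677, 0, 0, 0, 0, 0, 0⟩ ⟨0, 0, 0, 0, 0, 0, 453677, 0, 0, 0, 0, 0, 0⟩ ⟨0, 0, 0, 0, 0, 0, 280710, 0, 0, 0, 0, 0, 0⟩ ⟨0, 0, 0, 0, 0, 0, 280710, 0, 0, 0, 0, 0, 0⟩ ⟨83, -2, -643, 6, -26, 116, 203228, 0, 0, 0, 0, 0, 0⟩))))
    (.leaf (.box ⟨263, -2, -1033, 6, -18, 243, 864999, 0, 0, 0, 0, 0, 0⟩ ⟨0, 0, 0, 0, 0, 0, 436137, 0, 0, 0, 0, 0, 0⟩ ⟨0, 0, 0, 0, 0, 0, 436137, 0, 0, 0, 0, 0, 0⟩ ⟨0, 0, 0, 0, 0, 0, 291575, 0, 0, 0, 0, 0, 0⟩ ⟨0, 0, 0, 0, 0, 0, 291575, 0, 0, 0, 0, 0, 0⟩ ⟨128, -3, -512, 10, -28, 104, 218989, 0, 0, 0, 0, 0, 0⟩))))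

/-- A piece of the tree. -/
noncomputable def tree89 : Tree LeafX :=
  .leaf (.box ⟨392, -1, -512, 21, -19, 185, 920951, 0, 0, 0, 0, 0, 0⟩ ⟨0, 0, 0, 0, 0, 0, 459064, 0, 0, 0, 0, 0, 0⟩ ⟨0, 0, 0, 0, 0, 0, 459064, 0, 0, 0, 0, 0, 0⟩ ⟨0, 0, 0, 0, 0, 0, 305730, 0, 0, 0, 0, 0, 0⟩ ⟨0, 0, 0, 0, 0, 0, 305730, 0, 0, 0, 0, 0, 0⟩ ⟨354, -5, -512, 76, -62, 154, 229180, 0, 0, 0, 0, 0, 0⟩)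

/-- A piece of the tree. -/
noncomputable def tree90 : Tree LeafX :=
  .s2
    (.s1
    (.s0
    (.s2
    (.leaf (.box ⟨129, -2, -649, 6, -6, 171, 549601, 0, 0, 0, 0, 0, 0⟩ ⟨0, 0, 0, 0, 0, 0, 278281, 0, 0, 0, 0, 0, 0⟩ ⟨0, 0, 0, 0, 0, 0, 278281, 0, 0, 0, 0, 0, 0⟩ ⟨0, 0, 0, 0, 0, 0, 186307, 0, 0, 0, 0, 0, 0⟩ ⟨0, 0, 0, 0, 0, 0, 186307, 0, 0, 0, 0, 0, 0⟩ ⟨119, -5, -512, 16, -13, 112, 140027, 0, 0, 0, 0, 0, 0⟩))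
    (.leaf (.box ⟨127, -3, -636, 6, -7, 160, 543809, 0, 0, 0, 0, 0, 0⟩ ⟨0, 0, 0, 0, 0, 0, 277516, 0, 0, 0, 0, 0, 0⟩ ⟨0, 0, 0, 0, 0, 0, 277516, 0, 0, 0, 0, 0, 0⟩ ⟨0, 0, 0, 0, 0, 0, 186292, 0, 0, 0, 0, 0, 0⟩ ⟨0, 0, 0, 0, 0, 0, 186292, 0, 0, 0, 0, 0, 0⟩ ⟨116, -7, -512, 15, -15, 105, 140204, 0, 0, 0, 0, 0, 0⟩)))
    (.leaf (.box ⟨149, -1, -533, 6, -10, 168, 679750, 0, 0, 0, 0, 0, 0⟩ ⟨0, 0, 0, 0, 0, 0, 336937, 0, 0, 0, 0, 0, 0⟩ ⟨0, 0, 0, 0, 0, 0, 336937, 0, 0, 0, 0, 0, 0⟩ ⟨0, 0, 0, 0, 0, 0, 223979, 0, 0, 0, 0, 0, 0⟩ ⟨0, 0, 0, 0, 0, 0, 223979, 0, 0, 0, 0, 0, 0⟩ ⟨157, -4, -512, 19, -28, 132, 167743, 0, 0, 0, 0, 0, 0⟩)))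
    (.leaf (.box ⟨171, -4, -512, 10, -7, 141, 547859, 0, 0, 0, 0, 0, 0⟩ ⟨0, 0, 0, 0, 0, 0, 283111, 0, 0, 0, 0, 0, 0⟩ ⟨0, 0, 0, 0, 0, 0, 283111, 0, 0, 0, 0, 0, 0⟩ ⟨0, 0, 0, 0, 0, 0, 190873, 0, 0, 0, 0, 0, 0⟩ ⟨0, 0, 0, 0, 0, 0, 190873, 0, 0, 0, 0, 0, 0⟩ ⟨181, -13, -512, 32, -18, 116, 143968, 0, 0, 0, 0, 0, 0⟩)))
    (.s3
    (.s0
    (.s2
    (.leaf (.box ⟨123, -4, -617, 6, -8, 146, 523825, 0, 0, 0, 0, 0, 0⟩ ⟨0, 0, 0, 0, 0, 0, 275713, 0, 0, 0, 0, 0, 0⟩ ⟨0, 0, 0, 0, 0, 0, 275713, 0, 0, 0, 0, 0, 0⟩ ⟨0, 0, 0, 0, 0, 0, 187094, 0, 0, 0, 0, 0, 0⟩ ⟨0, 0, 0, 0, 0, 0, 187094, 0, 0, 0, 0, 0, 0⟩ ⟨109, -10, -512, 16, -16, 100, 141586, 0, 0, 0, 0, 0, 0⟩))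
    (.leaf (.box ⟨143, -4, -728, 6, -10, 160, 522408, 0, 0, 0, 0, 0, 0⟩ ⟨0, 0, 0, 0, 0, 0, 278238, 0, 0, 0, 0, 0, 0⟩ ⟨0, 0, 0, 0, 0, 0, 278238, 0, 0, 0, 0, 0, 0⟩ ⟨0, 0, 0, 0, 0, 0, 189614, 0, 0, 0, 0, 0, 0⟩ ⟨0, 0, 0, 0, 0, 0, 189614, 0, 0, 0, 0, 0, 0⟩ ⟨103, -11, -512, 16, -16, 94, 143808, 0, 0, 0, 0, 0, 0⟩)))
    (.leaf (.box ⟨136, -3, -512, 6, -11, 140, 647630, 0, 0, 0, 0, 0, 0⟩ ⟨0, 0, 0, 0, 0, 0, 337213, 0, 0, 0, 0, 0, 0⟩ ⟨0, 0, 0, 0, 0, 0, 337213, 0, 0, 0, 0, 0, 0⟩ ⟨0, 0, 0, 0, 0, 0, 227953, 0, 0, 0, 0, 0, 0⟩ ⟨0, 0, 0, 0, 0, 0, 227953, 0, 0, 0, 0, 0, 0⟩ ⟨135, -9, -512, 20, -30, 116, 172168, 0, 0, 0, 0, 0, 0⟩)))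
    (.s0
    (.s2
    (.leaf (.box ⟨186, -4, -1028, 6, -7, 233, 859569, 0, 0, 0, 0, 0, 0⟩ ⟨0, 0, 0, 0, 0, 0, 328742, 0, 0, 0, 0, 0, 0⟩ ⟨0, 0, 0, 0, 0, 0, 328742, 0, 0, 0, 0, 0, 0⟩ ⟨0, 0, 0, 0, 0, 0, 203234, 0, 0, 0, 0, 0, 0⟩ ⟨0, 0, 0, 0, 0, 0, 203234, 0, 0, 0, 0, 0, 0⟩ ⟨95, -8, -512, 14, -12, 94, 147081, 0, 0, 0, 0, 0, 0⟩))
    (.leaf (.box ⟨233, -4, -1350, 6, -10, 288, 849609, 0, 0, 0, 0, 0, 0⟩ ⟨0, 0, 0, 0, 0, 0, 332579, 0, 0, 0, 0, 0, 0⟩ ⟨0, 0, 0, 0, 0, 0, 332579, 0, 0, 0, 0, 0, 0⟩ ⟨0, 0, 0, 0, 0, 0, 206757, 0, 0, 0, 0, 0, 0⟩ ⟨0, 0, 0, 0, 0, 0, 206757, 0, 0, 0, 0, 0, 0⟩ ⟨85, -8, -512, 12, -13, 90, 150006, 0, 0, 0, 0, 0, 0⟩)))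
    (.leaf (.box ⟨271, -3, -1135, 6, -11, 295, 1264808, 0, 0, 0, 0, 0, 0⟩ ⟨120, -3, -512, 7, -14, 124, 398010, 0, 0, 0, 0, 0, 0⟩ ⟨120, -3, -512, 7, -14, 124, 398010, 0, 0, 0, 0, 0, 0⟩ ⟨123, -5, -512, 12, -20, 115, 247169, 0, 0, 0, 0, 0, 0⟩ ⟨123, -5, -512, 12, -20, 115, 247169, 0, 0, 0, 0, 0, 0⟩ ⟨123, -7, -512, 17, -23, 107, 182899, 0, 0, 0, 0, 0, 0⟩))))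

/-- A piece of the tree. -/
noncomputable def tree91 : Tree LeafX :=
  .s0
    (.s2
    (.s1
    (.s1
    (.s0
    (.leaf (.box ⟨249, -4, -1703, 6, -20, 332, 540599, 0, 0, 0, 0, 0, 0⟩ ⟨0, 0, 0, 0, 0, 0, 285388, 0, 0, 0, 0, 0, 0⟩ ⟨0, 0, 0, 0, 0, 0, 285388, 0, 0, 0, 0, 0, 0⟩ ⟨0, 0, 0, 0, 0, 0, 193866, 0, 0, 0, 0, 0, 0⟩ ⟨0, 0, 0, 0, 0, 0, 193866, 0, 0, 0, 0, 0, 0⟩ ⟨71, -5, -512, 7, -14, 85, 146791, 0, 0, 0, 0, 0, 0⟩))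
    (.s2
    (.leaf (.box ⟨227, -3, -1721, 6, -24, 375, 603857, 0, 0, 0, 0, 0, 0⟩ ⟨0, 0, 0, 0, 0, 0, 317635, 0, 0, 0, 0, 0, 0⟩ ⟨0, 0, 0, 0, 0, 0, 317635, 0, 0, 0, 0, 0, 0⟩ ⟨0, 0, 0, 0, 0, 0, 215493, 0, 0, 0, 0, 0, 0⟩ ⟨0, 0, 0, 0, 0, 0, 215493, 0, 0, 0, 0, 0, 0⟩ ⟨75, -5, -512, 8, -18, 93, 163058, 0, 0, 0, 0, 0, 0⟩))
    (.leaf (.box ⟨205, -4, -1759, 6, -24, 359, 621476, 0, 0, 0, 0, 0, 0⟩ ⟨0, 0, 0, 0, 0, 0, 328943, 0, 0, 0, 0, 0, 0⟩ ⟨0, 0, 0, 0, 0, 0, 328943, 0, 0, 0, 0, 0, 0⟩ ⟨0, 0, 0, 0, 0, 0, 223663, 0, 0, 0, 0, 0, 0⟩ ⟨0, 0, 0, 0, 0, 0, 223663, 0, 0, 0, 0, 0, 0⟩ ⟨67, -4, -512, 7, -18, 89, 169434, 0, 0, 0, 0, 0, 0⟩))))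
    (.s2
    (.leaf (.box ⟨169, -4, -1116, 6, -15, 229, 541629, 0, 0, 0, 0, 0, 0⟩ ⟨0, 0, 0, 0, 0, 0, 288710, 0, 0, 0, 0, 0, 0⟩ ⟨0, 0, 0, 0, 0, 0, 288710, 0, 0, 0, 0, 0, 0⟩ ⟨0, 0, 0, 0, 0, 0, 196808, 0, 0, 0, 0, 0, 0⟩ ⟨0, 0, 0, 0, 0, 0, 196808, 0, 0, 0, 0, 0, 0⟩ ⟨82, -7, -512, 10, -16, 88, 149287, 0, 0, 0, 0, 0, 0⟩))
    (.leaf (.box ⟨194, -4, -1408, 6, -15, 271, 661339, 0, 0, 0, 0, 0, 0⟩ ⟨84, -4, -632, 6, -14, 116, 296881, 0, 0, 0, 0, 0, 0⟩ ⟨84, -4, -632, 6, -14, 116, 296881, 0, 0, 0, 0, 0, 0⟩ ⟨73, -6, -512, 8, -14, 89, 202175, 0, 0, 0, 0, 0, 0⟩ ⟨73, -6, -512, 8, -14, 89, 202175, 0, 0, 0, 0, 0, 0⟩ ⟨69, -6, -512, 9, -15, 85, 161661, 0, 0, 0, 0, 0, 0⟩))))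
    (.leaf (.box ⟨180, -5, -1040, 6, -11, 201, 648982, 0, 0, 0, 0, 0, 0⟩ ⟨91, -5, -512, 6, -11, 94, 291895, 0, 0, 0, 0, 0, 0⟩ ⟨91, -5, -512, 6, -11, 94, 291895, 0, 0, 0, 0, 0, 0⟩ ⟨88, -7, -512, 9, -13, 89, 199070, 0, 0, 0, 0, 0, 0⟩ ⟨88, -7, -512, 9, -13, 89, 199070, 0, 0, 0, 0, 0, 0⟩ ⟨90, -9, -512, 11, -14, 84, 159385, 0, 0, 0, 0, 0, 0⟩)))
    (.s0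
    (.leaf (.box ⟨223, -5, -1713, 6, -17, 297, 680135, 0, 0, 0, 0, 0, 0⟩ ⟨100, -5, -801, 6, -16, 134, 304176, 0, 0, 0, 0, 0, 0⟩ ⟨100, -5, -801, 6, -16, 134, 304176, 0, 0, 0, 0, 0, 0⟩ ⟨63, -5, -512, 6, -14, 82, 206552, 0, 0, 0, 0, 0, 0⟩ ⟨63, -5, -512, 6, -14, 82, 206552, 0, 0, 0, 0, 0, 0⟩ ⟨59, -5, -512, 7, -15, 79, 164739, 0, 0, 0, 0, 0, 0⟩))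
    (.s1
    (.s2
    (.leaf (.box ⟨228, -4, -2102, 6, -27, 401, 647251, 0, 0, 0, 0, 0, 0⟩ ⟨0, 0, 0, 0, 0, 0, 343659, 0, 0, 0, 0, 0, 0⟩ ⟨0, 0, 0, 0, 0, 0, 343659, 0, 0, 0, 0, 0, 0⟩ ⟨0, 0, 0, 0, 0, 0, 233933, 0, 0, 0, 0, 0, 0⟩ ⟨0, 0, 0, 0, 0, 0, 233933, 0, 0, 0, 0, 0, 0⟩ ⟨58, -4, -512, 6, -18, 86, 177317, 0, 0, 0, 0, 0, 0⟩))
    (.leaf (.box ⟨184, -4, -1959, 6, -24, 357, 681121, 0, 0, 0, 0, 0, 0⟩ ⟨0, 0, 0, 0, 0, 0, 361782, 0, 0, 0, 0, 0, 0⟩ ⟨0, 0, 0, 0, 0, 0, 361782, 0, 0, 0, 0, 0, 0⟩ ⟨0, 0, 0, 0, 0, 0, 246304, 0, 0, 0, 0, 0, 0⟩ ⟨0, 0, 0, 0, 0, 0, 246304, 0, 0, 0, 0, 0, 0⟩ ⟨54, -3, -586, 6, -21, 96, 186708, 0, 0, 0, 0, 0, 0⟩)))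
    (.leaf (.box ⟨184, -4, -1689, 6, -22, 303, 655697, 0, 0, 0, 0, 0, 0⟩ ⟨0, 0, 0, 0, 0, 0, 354529, 0, 0, 0, 0, 0, 0⟩ ⟨0, 0, 0, 0, 0, 0, 354529, 0, 0, 0, 0, 0, 0⟩ ⟨0, 0, 0, 0, 0, 0, 242943, 0, 0, 0, 0, 0, 0⟩ ⟨0, 0, 0, 0, 0, 0, 242943, 0, 0, 0, 0, 0, 0⟩ ⟨52, -4, -512, 6, -18, 82, 184783, 0, 0, 0, 0, 0, 0⟩)))))
    (.s1
    (.s3
    (.s2
    (.leaf (.box ⟨161, -3, -745, 6, -15, 178, 665773, 0, 0, 0, 0, 0, 0⟩ ⟨0, 0, 0, 0, 0, 0, 354614, 0, 0, 0, 0, 0, 0⟩ ⟨0, 0, 0, 0, 0, 0, 354614, 0, 0, 0, 0, 0, 0⟩ ⟨0, 0, 0, 0, 0, 0, 241667, 0, 0, 0, 0, 0, 0⟩ ⟨0, 0, 0, 0, 0, 0, 241667, 0, 0, 0, 0, 0, 0⟩ ⟨107, -7, -512, 14, -28, 104, 183288, 0, 0, 0, 0, 0, 0⟩))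
    (.leaf (.box ⟨207, -3, -1186, 6, -21, 245, 721471, 0, 0, 0, 0, 0, 0⟩ ⟨0, 0, 0, 0, 0, 0, 388030, 0, 0, 0, 0, 0, 0⟩ ⟨0, 0, 0, 0, 0, 0, 388030, 0, 0, 0, 0, 0, 0⟩ ⟨0, 0, 0, 0, 0, 0, 265380, 0, 0, 0, 0, 0, 0⟩ ⟨0, 0, 0, 0, 0, 0, 265380, 0, 0, 0, 0, 0, 0⟩ ⟨82, -4, -512, 9, -25, 94, 201643, 0, 0, 0, 0, 0, 0⟩)))
    (.s2
    (.leaf (.box ⟨277, -3, -1355, 6, -15, 311, 1082726, 0, 0, 0, 0, 0, 0⟩ ⟨0, 0, 0, 0, 0, 0, 423877, 0, 0, 0, 0, 0, 0⟩ ⟨0, 0, 0, 0, 0, 0, 423877, 0, 0, 0, 0, 0, 0⟩ ⟨0, 0, 0, 0, 0, 0, 263522, 0, 0, 0, 0, 0, 0⟩ ⟨0, 0, 0, 0, 0, 0, 263522, 0, 0, 0, 0, 0, 0⟩ ⟨94, -5, -512, 11, -23, 98, 191192, 0, 0, 0, 0, 0, 0⟩))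
    (.leaf (.box ⟨380, -3, -2318, 6, -19, 467, 1417842, 0, 0, 0, 0, 0, 0⟩ ⟨137, -3, -851, 6, -20, 164, 459382, 0, 0, 0, 0, 0, 0⟩ ⟨137, -3, -851, 6, -20, 164, 459382, 0, 0, 0, 0, 0, 0⟩ ⟨86, -3, -589, 6, -20, 109, 290453, 0, 0, 0, 0, 0, 0⟩ ⟨86, -3, -589, 6, -20, 109, 290453, 0, 0, 0, 0, 0, 0⟩ ⟨68, -3, -512, 7, -21, 91, 218331, 0, 0, 0, 0, 0, 0⟩))))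
    (.s0
    (.s2
    (.leaf (.box ⟨248, -4, -1483, 6, -23, 316, 682332, 0, 0, 0, 0, 0, 0⟩ ⟨0, 0, 0, 0, 0, 0, 364204, 0, 0, 0, 0, 0, 0⟩ ⟨0, 0, 0, 0, 0, 0, 364204, 0, 0, 0, 0, 0, 0⟩ ⟨0, 0, 0, 0, 0, 0, 248394, 0, 0, 0, 0, 0, 0⟩ ⟨0, 0, 0, 0, 0, 0, 248394, 0, 0, 0, 0, 0, 0⟩ ⟨84, -5, -512, 8, -20, 93, 188465, 0, 0, 0, 0, 0, 0⟩))
    (.leaf (.box ⟨229, -4, -1788, 6, -26, 338, 747584, 0, 0, 0, 0, 0, 0⟩ ⟨0, 0, 0, 0, 0, 0, 402390, 0, 0, 0, 0, 0, 0⟩ ⟨0, 0, 0, 0, 0, 0, 402390, 0, 0, 0, 0, 0, 0⟩ ⟨0, 0, 0, 0, 0, 0, 275280, 0, 0, 0, 0, 0, 0⟩ ⟨0, 0, 0, 0, 0, 0, 275280, 0, 0, 0, 0, 0, 0⟩ ⟨56, -4, -512, 7, -20, 87, 209197, 0, 0, 0, 0, 0, 0⟩)))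
    (.leaf (.box ⟨259, -3, -1075, 6, -19, 229, 775374, 0, 0, 0, 0, 0, 0⟩ ⟨0, 0, 0, 0, 0, 0, 411198, 0, 0, 0, 0, 0, 0⟩ ⟨0, 0, 0, 0, 0, 0, 411198, 0, 0, 0, 0, 0, 0⟩ ⟨0, 0, 0, 0, 0, 0, 279788, 0, 0, 0, 0, 0, 0⟩ ⟨0, 0, 0, 0, 0, 0, 279788, 0, 0, 0, 0, 0, 0⟩ ⟨111, -5, -512, 9, -25, 95, 212028, 0, 0, 0, 0, 0, 0⟩))))

theorem parts3 :
    (runPathS conQ supQ (fun n Qs i d x => leafR conQ seg n Qs i d x) [.d0 false, .d1 true, .d2 false, .d0 true, .d1 false, .d2 false, .d0 true, .d0 true, .d1 true, .d1 false, .d2 true] tree68 0 0 0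
      (joinS (lay.B * lay.size) rootQ) = true) ∧
    (runPathS conQ supQ (fun n Qs i d x => leafR conQ seg n Qs i d x) [.d0 false, .d1 true, .d2 false, .d0 true, .d1 false, .d2 false, .d0 true, .d0 true, .d1 true, .d1 true, .d3 false] tree69 0 0 0
      (joinS (lay.B * lay.size) rootQ) = true) ∧
    (runPathS conQ supQ (fun n Qs i d x => leafR conQ seg n Qs i d x) [.d0 false, .d1 true, .d2 false, .d0 true, .d1 false, .d2 false, .d0 true, .d0 true, .d1 true, .d1 true, .d3 true] tree70 0 0 0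
      (joinS (lay.B * lay.size) rootQ) = true) ∧
    (runPathS conQ supQ (fun n Qs i d x => leafR conQ seg n Qs i d x) [.d0 false, .d1 true, .d2 false, .d0 true, .d1 false, .d2 true, .d0 false] tree71 0 0 0
      (joinS (lay.B * lay.size) rootQ) = true) ∧
    (runPathS conQ supQ (fun n Qs i d x => leafR conQ seg n Qs i d x) [.d0 false, .d1 true, .d2 false, .d0 true, .d1 false, .d2 true, .d0 true, .d1 false, .d1 false, .d0 false] tree72 0 0 0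
      (joinS (lay.B * lay.size) rootQ) = true) ∧
    (runPathS conQ supQ (fun n Qs i d x => leafR conQ seg n Qs i d x) [.d0 false, .d1 true, .d2 false, .d0 true, .d1 false, .d2 true, .d0 true, .d1 false, .d1 false, .d0 true] tree73 0 0 0
      (joinS (lay.B * lay.size) rootQ) = true) ∧
    (runPathS conQ supQ (fun n Qs i d x => leafR conQ seg n Qs i d x) [.d0 false, .d1 true, .d2 false, .d0 true, .d1 false, .d2 true, .d0 true, .d1 false, .d1 true] tree74 0 0 0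
      (joinS (lay.B * lay.size) rootQ) = true) ∧
    (runPathS conQ supQ (fun n Qs i d x => leafR conQ seg n Qs i d x) [.d0 false, .d1 true, .d2 false, .d0 true, .d1 false, .d2 true, .d0 true, .d1 true] tree75 0 0 0
      (joinS (lay.B * lay.size) rootQ) = true) ∧
    (runPathS conQ supQ (fun n Qs i d x => leafR conQ seg n Qs i d x) [.d0 false, .d1 true, .d2 false, .d0 true, .d1 true] tree76 0 0 0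
      (joinS (lay.B * lay.size) rootQ) = true) ∧
    (runPathS conQ supQ (fun n Qs i d x => leafR conQ seg n Qs i d x) [.d0 false, .d1 true, .d2 true, .d0 false] tree77 0 0 0
      (joinS (lay.B * lay.size) rootQ) = true) ∧
    (runPathS conQ supQ (fun n Qs i d x => leafR conQ seg n Qs i d x) [.d0 false, .d1 true, .d2 true, .d0 true] tree78 0 0 0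
      (joinS (lay.B * lay.size) rootQ) = true) ∧
    (runPathS conQ supQ (fun n Qs i d x => leafR conQ seg n Qs i d x) [.d0 true, .d1 false, .d2 false] tree79 0 0 0
      (joinS (lay.B * lay.size) rootQ) = true) ∧
    (runPathS conQ supQ (fun n Qs i d x => leafR conQ seg n Qs i d x) [.d0 true, .d1 false, .d2 true, .d0 false] tree80 0 0 0
      (joinS (lay.B * lay.size) rootQ) = true) ∧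
    (runPathS conQ supQ (fun n Qs i d x => leafR conQ seg n Qs i d x) [.d0 true, .d1 false, .d2 true, .d0 true] tree81 0 0 0
      (joinS (lay.B * lay.size) rootQ) = true) ∧
    (runPathS conQ supQ (fun n Qs i d x => leafR conQ seg n Qs i d x) [.d0 true, .d1 true, .d2 false, .d0 false, .d1 false, .d2 false, .d0 false, .d0 false, .d1 false] tree82 0 0 0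
      (joinS (lay.B * lay.size) rootQ) = true) ∧
    (runPathS conQ supQ (fun n Qs i d x => leafR conQ seg n Qs i d x) [.d0 true, .d1 true, .d2 false, .d0 false, .d1 false, .d2 false, .d0 false, .d0 false, .d1 true, .d0 false] tree83 0 0 0
      (joinS (lay.B * lay.size) rootQ) = true) ∧
    (runPathS conQ supQ (fun n Qs i d x => leafR conQ seg n Qs i d x) [.d0 true, .d1 true, .d2 false, .d0 false, .d1 false, .d2 false, .d0 false, .d0 false, .d1 true, .d0 true] tree84 0 0 0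
      (joinS (lay.B * lay.size) rootQ) = true) ∧
    (runPathS conQ supQ (fun n Qs i d x => leafR conQ seg n Qs i d x) [.d0 true, .d1 true, .d2 false, .d0 false, .d1 false, .d2 false, .d0 false, .d0 true] tree85 0 0 0
      (joinS (lay.B * lay.size) rootQ) = true) ∧
    (runPathS conQ supQ (fun n Qs i d x => leafR conQ seg n Qs i d x) [.d0 true, .d1 true, .d2 false, .d0 false, .d1 false, .d2 false, .d0 true] tree86 0 0 0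
      (joinS (lay.B * lay.size) rootQ) = true) ∧
    (runPathS conQ supQ (fun n Qs i d x => leafR conQ seg n Qs i d x) [.d0 true, .d1 true, .d2 false, .d0 false, .d1 false, .d2 true, .d0 false, .d2 false] tree87 0 0 0
      (joinS (lay.B * lay.size) rootQ) = true) ∧
    (runPathS conQ supQ (fun n Qs i d x => leafR conQ seg n Qs i d x) [.d0 true, .d1 true, .d2 false, .d0 false, .d1 false, .d2 true, .d0 false, .d2 true] tree88 0 0 0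
      (joinS (lay.B * lay.size) rootQ) = true) ∧
    (runPathS conQ supQ (fun n Qs i d x => leafR conQ seg n Qs i d x) [.d0 true, .d1 true, .d2 false, .d0 false, .d1 false, .d2 true, .d0 true] tree89 0 0 0
      (joinS (lay.B * lay.size) rootQ) = true) ∧
    (runPathS conQ supQ (fun n Qs i d x => leafR conQ seg n Qs i d x) [.d0 true, .d1 true, .d2 false, .d0 false, .d1 true, .d1 false, .d0 false, .d2 false] tree90 0 0 0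
      (joinS (lay.B * lay.size) rootQ) = true) ∧
    (runPathS conQ supQ (fun n Qs i d x => leafR conQ seg n Qs i d x) [.d0 true, .d1 true, .d2 false, .d0 false, .d1 true, .d1 false, .d0 false, .d2 true] tree91 0 0 0
      (joinS (lay.B * lay.size) rootQ) = true) :=
  ⟨by decide +kernel,
  by decide +kernel,
  by decide +kernel,
  by decide +kernel,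
  by decide +kernel,
  by decide +kernel,
  by decide +kernel,
  by decide +kernel,
  by decide +kernel,
  by decide +kernel,
  by decide +kernel,
  by decide +kernel,
  by decide +kernel,
  by decide +kernel,
  by decide +kernel,
  by decide +kernel,
  by decide +kernel,
  by decide +kernel,
  by decide +kernel,
  by decide +kernel,
  by decide +kernel,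
  by decide +kernel,
  by decide +kernel,
  by decide +kernel⟩

end Vale.Agent.P098.Six.S5
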