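import Vale.Agent.P098.Six.S5.Root

/-!
# P098, six dimensions: checked pieces of the tree
-/

namespace Vale.Agent.P098.Six.S5

/-- A piece of the tree. -/
noncomputable def tree92 : Tree LeafX :=
  .s2
    (.leaf (.box ⟨291, -2, -512, 13, -16, 194, 982762, 0, 0, 0, 0, 0, 0⟩ ⟨294, -4, -512, 29, -34, 180, 425510, 0, 0, 0, 0, 0, 0⟩ ⟨294, -4, -512, 29, -34, 180, 425510, 0, 0, 0, 0, 0, 0⟩ ⟨293, -6, -512, 43, -48, 167, 279278, 0, 0, 0, 0, 0, 0⟩ ⟨293, -6, -512, 43, -48, 167, 279278, 0, 0, 0, 0, 0, 0⟩ ⟨286, -9, -512, 57, -57, 155, 214437, 0, 0, 0, 0, 0, 0⟩))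
    (.leaf (.box ⟨205, -3, -512, 10, -12, 133, 1051208, 0, 0, 0, 0, 0, 0⟩ ⟨201, -7, -512, 21, -26, 127, 461763, 0, 0, 0, 0, 0, 0⟩ ⟨201, -7, -512, 21, -26, 127, 461763, 0, 0, 0, 0, 0, 0⟩ ⟨204, -11, -512, 32, -36, 120, 309117, 0, 0, 0, 0, 0, 0⟩ ⟨204, -11, -512, 32, -36, 120, 309117, 0, 0, 0, 0, 0, 0⟩ ⟨202, -13, -512, 39, -42, 114, 243357, 0, 0, 0, 0, 0, 0⟩))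

/-- A piece of the tree. -/
noncomputable def tree93 : Tree LeafX :=
  .s0
    (.s2
    (.leaf (.box ⟨172, -7, -512, 11, -7, 127, 548608, 0, 0, 0, 0, 0, 0⟩ ⟨0, 0, 0, 0, 0, 0, 289231, 0, 0, 0, 0, 0, 0⟩ ⟨0, 0, 0, 0, 0, 0, 289231, 0, 0, 0, 0, 0, 0⟩ ⟨0, 0, 0, 0, 0, 0, 196383, 0, 0, 0, 0, 0, 0⟩ ⟨0, 0, 0, 0, 0, 0, 196383, 0, 0, 0, 0, 0, 0⟩ ⟨180, -23, -512, 35, -14, 104, 148660, 0, 0, 0, 0, 0, 0⟩))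
    (.s2
    (.leaf (.box ⟨121, -6, -512, 7, -7, 103, 660792, 0, 0, 0, 0, 0, 0⟩ ⟨122, -12, -512, 14, -14, 98, 300177, 0, 0, 0, 0, 0, 0⟩ ⟨122, -12, -512, 14, -14, 98, 300177, 0, 0, 0, 0, 0, 0⟩ ⟨121, -15, -512, 19, -18, 93, 206258, 0, 0, 0, 0, 0, 0⟩ ⟨121, -15, -512, 19, -18, 93, 206258, 0, 0, 0, 0, 0, 0⟩ ⟨117, -18, -512, 23, -19, 89, 166235, 0, 0, 0, 0, 0, 0⟩))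
    (.leaf (.box ⟨90, -5, -512, 7, -9, 93, 591660, 0, 0, 0, 0, 0, 0⟩ ⟨0, 0, 0, 0, 0, 0, 325915, 0, 0, 0, 0, 0, 0⟩ ⟨0, 0, 0, 0, 0, 0, 325915, 0, 0, 0, 0, 0, 0⟩ ⟨0, 0, 0, 0, 0, 0, 224900, 0, 0, 0, 0, 0, 0⟩ ⟨0, 0, 0, 0, 0, 0, 224900, 0, 0, 0, 0, 0, 0⟩ ⟨86, -16, -512, 22, -24, 84, 171687, 0, 0, 0, 0, 0, 0⟩))))
    (.s2
    (.leaf (.box ⟨237, -5, -512, 16, -16, 172, 855653, 0, 0, 0, 0, 0, 0⟩ ⟨0, 0, 0, 0, 0, 0, 430512, 0, 0, 0, 0, 0, 0⟩ ⟨0, 0, 0, 0, 0, 0, 430512, 0, 0, 0, 0, 0, 0⟩ ⟨0, 0, 0, 0, 0, 0, 287609, 0, 0, 0, 0, 0, 0⟩ ⟨0, 0, 0, 0, 0, 0, 287609, 0, 0, 0, 0, 0, 0⟩ ⟨222, -15, -512, 45, -48, 139, 215933, 0, 0, 0, 0, 0, 0⟩))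
    (.leaf (.box ⟨175, -5, -512, 10, -14, 120, 891851, 0, 0, 0, 0, 0, 0⟩ ⟨0, 0, 0, 0, 0, 0, 478188, 0, 0, 0, 0, 0, 0⟩ ⟨0, 0, 0, 0, 0, 0, 478188, 0, 0, 0, 0, 0, 0⟩ ⟨0, 0, 0, 0, 0, 0, 326670, 0, 0, 0, 0, 0, 0⟩ ⟨0, 0, 0, 0, 0, 0, 326670, 0, 0, 0, 0, 0, 0⟩ ⟨169, -15, -512, 31, -40, 105, 248067, 0, 0, 0, 0, 0, 0⟩)))

/-- A piece of the tree. -/
noncomputable def tree94 : Tree LeafX :=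
  .s1
    (.s0
    (.s2
    (.leaf (.box ⟨512, 4, -421, 25, -31, 350, 1728257, 0, 0, 0, 0, 0, 0⟩ ⟨512, 10, -421, 58, -69, 318, 715376, 0, 0, 0, 0, 0, 0⟩ ⟨512, 10, -421, 58, -69, 318, 715376, 0, 0, 0, 0, 0, 0⟩ ⟨512, 16, -422, 88, -100, 290, 454441, 0, 0, 0, 0, 0, 0⟩ ⟨512, 16, -422, 88, -100, 290, 454441, 0, 0, 0, 0, 0, 0⟩ ⟨512, 22, -422, 111, -124, 263, 338376, 0, 0, 0, 0, 0, 0⟩))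
    (.leaf (.box ⟨473, 1, -512, 17, -21, 251, 1691146, 0, 0, 0, 0, 0, 0⟩ ⟨0, 0, 0, 0, 0, 0, 807432, 0, 0, 0, 0, 0, 0⟩ ⟨0, 0, 0, 0, 0, 0, 807432, 0, 0, 0, 0, 0, 0⟩ ⟨0, 0, 0, 0, 0, 0, 530314, 0, 0, 0, 0, 0, 0⟩ ⟨0, 0, 0, 0, 0, 0, 530314, 0, 0, 0, 0, 0, 0⟩ ⟨450, 3, -512, 71, -76, 207, 394811, 0, 0, 0, 0, 0, 0⟩)))
    (.leaf (.box ⟨512, 4, -295, 22, -18, 255, 3016734, 0, 0, 0, 0, 0, 0⟩ ⟨0, 0, 0, 0, 0, 0, 1218598, 0, 0, 0, 0, 0, 0⟩ ⟨0, 0, 0, 0, 0, 0, 1218598, 0, 0, 0, 0, 0, 0⟩ ⟨0, 0, 0, 0, 0, 0, 763507, 0, 0, 0, 0, 0, 0⟩ ⟨0, 0, 0, 0, 0, 0, 763507, 0, 0, 0, 0, 0, 0⟩ ⟨512, 22, -310, 111, -84, 211, 555902, 0, 0, 0, 0, 0, 0⟩)))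
    (.s2
    (.s0
    (.leaf (.box ⟨345, -1, -512, 21, -25, 247, 1528906, 0, 0, 0, 0, 0, 0⟩ ⟨0, 0, 0, 0, 0, 0, 697227, 0, 0, 0, 0, 0, 0⟩ ⟨0, 0, 0, 0, 0, 0, 697227, 0, 0, 0, 0, 0, 0⟩ ⟨0, 0, 0, 0, 0, 0, 451580, 0, 0, 0, 0, 0, 0⟩ ⟨0, 0, 0, 0, 0, 0, 451580, 0, 0, 0, 0, 0, 0⟩ ⟨335, -4, -512, 73, -88, 194, 333930, 0, 0, 0, 0, 482780095, 0⟩))
    (.leaf (.box ⟨388, 1, -512, 21, -30, 327, 2678735, 0, 0, 0, 0, 0, 0⟩ ⟨0, 0, 0, 0, 0, 0, 1163809, 0, 0, 0, 0, 0, 0⟩ ⟨0, 0, 0, 0, 0, 0, 1163809, 0, 0, 0, 0, 0, 0⟩ ⟨0, 0, 0, 0, 0, 0, 743392, 0, 0, 0, 0, 0, 0⟩ ⟨0, 0, 0, 0, 0, 0, 743392, 0, 0, 0, 0, 0, 0⟩ ⟨381, 4, -512, 78, -116, 250, 546113, 0, 0, 0, 0, 34067461136, 0⟩)))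
    (.s0
    (.s1
    (.leaf (.box ⟨245, -2, -512, 11, -15, 171, 1847330, 0, 0, 0, 0, 0, 0⟩ ⟨234, -3, -512, 21, -33, 161, 803483, 0, 0, 0, 0, 0, 0⟩ ⟨234, -3, -512, 21, -33, 161, 803483, 0, 0, 0, 0, 0, 0⟩ ⟨222, -5, -512, 32, -46, 152, 530770, 516284534, 0, 0, 0, 0, 0⟩ ⟨222, -5, -512, 32, -46, 152, 530770, 516284534, 0, 0, 0, 0, 0⟩ ⟨220, -7, -512, 40, -55, 143, 411577, 0, 0, 0, 0, 0, 0⟩))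
    (.leaf (.box ⟨195, -3, -512, 11, -17, 148, 1568008, 0, 0, 0, 0, 0, 0⟩ ⟨0, 0, 0, 0, 0, 0, 810288, 0, 0, 0, 0, 0, 0⟩ ⟨0, 0, 0, 0, 0, 0, 810288, 0, 0, 0, 0, 0, 0⟩ ⟨0, 0, 0, 0, 0, 0, 546297, 0, 0, 0, 0, 0, 0⟩ ⟨0, 0, 0, 0, 0, 0, 546297, 0, 0, 0, 0, 0, 0⟩ ⟨189, -10, -512, 33, -53, 127, 412051, 0, 0, 0, 0, 6248224211, 0⟩)))
    (.leaf (.box ⟨295, -1, -512, 11, -18, 197, 2881605, 0, 0, 0, 0, 55165674882, 0⟩ ⟨0, 0, 0, 0, 0, 0, 1374360, 0, 0, 0, 0, 0, 0⟩ ⟨0, 0, 0, 0, 0, 0, 1374360, 0, 0, 0, 0, 0, 0⟩ ⟨0, 0, 0, 0, 0, 0, 902369, 0, 0, 0, 0, 0, 0⟩ ⟨0, 0, 0, 0, 0, 0, 902369, 0, 0, 0, 0, 0, 0⟩ ⟨267, -5, -512, 44, -64, 165, 671692, 0, 0, 0, 0, 30504858233, 0⟩))))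

/-- A piece of the tree. -/
noncomputable def tree95 : Tree LeafX :=
  .s1
    (.s2
    (.s0
    (.s1
    (.s0
    (.s0
    (.leaf (.box ⟨488, -1, -1779, 6, -21, 358, 726053, 0, 0, 0, 0, 0, 0⟩ ⟨204, -1, -759, 6, -20, 148, 315511, 0, 0, 0, 0, 0, 0⟩ ⟨204, -1, -759, 6, -20, 148, 315511, 0, 0, 0, 0, 0, 0⟩ ⟨134, -1, -512, 6, -19, 97, 208972, 0, 0, 0, 0, 0, 0⟩ ⟨134, -1, -512, 6, -19, 97, 208972, 0, 0, 0, 0, 0, 0⟩ ⟨131, -2, -512, 8, -24, 94, 162425, 0, 0, 0, 0, 0, 0⟩))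
    (.leaf (.box ⟨360, -1, -1202, 6, -17, 254, 723142, 0, 0, 0, 0, 0, 0⟩ ⟨0, 0, 0, 0, 0, 0, 359752, 0, 0, 0, 0, 0, 0⟩ ⟨0, 0, 0, 0, 0, 0, 359752, 0, 0, 0, 0, 0, 0⟩ ⟨0, 0, 0, 0, 0, 0, 239433, 0, 0, 0, 0, 0, 0⟩ ⟨0, 0, 0, 0, 0, 0, 239433, 0, 0, 0, 0, 0, 0⟩ ⟨144, -1, -512, 8, -26, 98, 179424, 0, 0, 0, 0, 0, 0⟩)))
    (.leaf (.box ⟨249, -1, -675, 6, -11, 154, 835588, 0, 0, 0, 0, 0, 0⟩ ⟨0, 0, 0, 0, 0, 0, 413774, 0, 0, 0, 0, 0, 0⟩ ⟨0, 0, 0, 0, 0, 0, 413774, 0, 0, 0, 0, 0, 0⟩ ⟨0, 0, 0, 0, 0, 0, 274967, 0, 0, 0, 0, 0, 0⟩ ⟨0, 0, 0, 0, 0, 0, 274967, 0, 0, 0, 0, 0, 0⟩ ⟨174, -2, -512, 15, -29, 106, 205896, 0, 0, 0, 0, 0, 0⟩)))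
    (.s0
    (.s1
    (.leaf (.box ⟨182, -2, -1001, 6, -14, 184, 618832, 0, 0, 0, 0, 0, 0⟩ ⟨0, 0, 0, 0, 0, 0, 316952, 0, 0, 0, 0, 0, 0⟩ ⟨0, 0, 0, 0, 0, 0, 316952, 0, 0, 0, 0, 0, 0⟩ ⟨0, 0, 0, 0, 0, 0, 213031, 0, 0, 0, 0, 0, 0⟩ ⟨0, 0, 0, 0, 0, 0, 213031, 0, 0, 0, 0, 0, 0⟩ ⟨81, -3, -512, 11, -24, 87, 160429, 0, 0, 0, 0, 0, 0⟩))
    (.leaf (.box ⟨120, -2, -857, 6, -12, 151, 620689, 0, 0, 0, 0, 0, 0⟩ ⟨0, 0, 0, 0, 0, 0, 324112, 0, 0, 0, 0, 0, 0⟩ ⟨0, 0, 0, 0, 0, 0, 324112, 0, 0, 0, 0, 0, 0⟩ ⟨0, 0, 0, 0, 0, 0, 219318, 0, 0, 0, 0, 0, 0⟩ ⟨0, 0, 0, 0, 0, 0, 219318, 0, 0, 0, 0, 0, 0⟩ ⟨62, -5, -512, 14, -23, 84, 165732, 0, 0, 0, 0, 0, 0⟩)))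
    (.s1
    (.leaf (.box ⟨287, -2, -1291, 6, -16, 258, 959715, 0, 0, 0, 0, 0, 0⟩ ⟨146, -1, -677, 6, -19, 132, 418587, 0, 0, 0, 0, 0, 0⟩ ⟨146, -1, -677, 6, -19, 132, 418587, 0, 0, 0, 0, 0, 0⟩ ⟨109, -2, -512, 8, -20, 97, 278775, 0, 0, 0, 0, 0, 0⟩ ⟨109, -2, -512, 8, -20, 97, 278775, 0, 0, 0, 0, 0, 0⟩ ⟨103, -2, -512, 8, -25, 94, 218423, 0, 0, 0, 0, 0, 0⟩))
    (.leaf (.box ⟨229, -2, -1272, 6, -16, 241, 968594, 0, 0, 0, 0, 0, 0⟩ ⟨96, -2, -557, 6, -15, 103, 426765, 0, 0, 0, 0, 0, 0⟩ ⟨96, -2, -557, 6, -15, 103, 426765, 0, 0, 0, 0, 0, 0⟩ ⟨89, -3, -512, 8, -20, 92, 286484, 0, 0, 6011127, 0, 0, 0⟩ ⟨89, -3, -512, 8, -20, 92, 286484, 0, 0, 6011127, 0, 0, 0⟩ ⟨80, -3, -512, 10, -24, 90, 226119, 0, 0, 0, 0, 0, 0⟩)))))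
    (.s1
    (.leaf (.box ⟨226, 0, -512, 7, -9, 135, 1124992, 0, 0, 0, 0, 0, 0⟩ ⟨0, 0, 0, 0, 0, 0, 550140, 0, 0, 0, 0, 0, 0⟩ ⟨0, 0, 0, 0, 0, 0, 550140, 0, 0, 0, 0, 0, 0⟩ ⟨0, 0, 0, 0, 0, 0, 364094, 0, 0, 0, 0, 0, 0⟩ ⟨0, 0, 0, 0, 0, 0, 364094, 0, 0, 0, 0, 0, 0⟩ ⟨224, -2, -512, 27, -34, 123, 272081, 0, 0, 0, 0, 0, 0⟩))
    (.leaf (.box ⟨213, -1, -635, 6, -9, 140, 1283414, 0, 0, 0, 0, 2113902333, 0⟩ ⟨170, -2, -512, 11, -17, 109, 556673, 0, 0, 0, 0, 269729881, 0⟩ ⟨170, -2, -512, 11, -17, 109, 556673, 0, 0, 0, 0, 269729881, 0⟩ ⟨168, -3, -512, 17, -24, 106, 369119, 0, 0, 0, 0, 0, 0⟩ ⟨168, -3, -512, 17, -24, 106, 369119, 0, 0, 0, 0, 0, 0⟩ ⟨162, -4, -512, 20, -30, 104, 288019, 0, 0, 0, 0, 0, 0⟩))))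
    (.s0
    (.leaf (.box ⟨101, -1, -512, 7, -8, 95, 751595, 0, 0, 0, 0, 0, 0⟩ ⟨0, 0, 0, 0, 0, 0, 369384, 0, 0, 0, 0, 0, 0⟩ ⟨0, 0, 0, 0, 0, 0, 369384, 0, 0, 0, 0, 0, 0⟩ ⟨0, 0, 0, 0, 0, 0, 244863, 0, 0, 0, 0, 0, 0⟩ ⟨0, 0, 0, 0, 0, 0, 244863, 0, 0, 0, 0, 0, 0⟩ ⟨97, -4, -512, 26, -31, 92, 183129, 0, 0, 0, 0, 0, 0⟩))
    (.leaf (.box ⟨137, -1, -512, 8, -5, 96, 1326269, 0, 0, 0, 0, 0, 0⟩ ⟨0, 0, 0, 0, 0, 0, 648688, 0, 0, 0, 0, 0, 0⟩ ⟨0, 0, 0, 0, 0, 0, 648688, 0, 0, 0, 0, 0, 0⟩ ⟨0, 0, 0, 0, 0, 0, 429341, 0, 0, 0, 0, 0, 0⟩ ⟨0, 0, 0, 0, 0, 0, 429341, 0, 0, 0, 0, 0, 0⟩ ⟨129, -4, -512, 29, -21, 95, 320849, 0, 0, 0, 0, 0, 0⟩))))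
    (.s2
    (.s0
    (.s1
    (.s0
    (.s0
    (.leaf (.box ⟨59, -3, -694, 6, -10, 115, 630067, 0, 0, 0, 0, 0, 0⟩ ⟨0, 0, 0, 0, 0, 0, 335046, 0, 0, 0, 0, 0, 0⟩ ⟨0, 0, 0, 0, 0, 0, 335046, 0, 0, 0, 0, 0, 0⟩ ⟨0, 0, 0, 0, 0, 0, 228196, 0, 0, 0, 0, 0, 0⟩ ⟨0, 0, 0, 0, 0, 0, 228196, 0, 0, 0, 0, 0, 0⟩ ⟨34, -8, -512, 17, -23, 80, 173018, 7081609, 0, 0, 0, 0, 0⟩))
    (.leaf (.box ⟨76, -3, -690, 6, -10, 118, 723078, 0, 0, 0, 0, 0, 0⟩ ⟨0, 0, 0, 0, 0, 0, 383310, 0, 0, 0, 0, 0, 0⟩ ⟨0, 0, 0, 0, 0, 0, 383310, 0, 0, 0, 0, 0, 0⟩ ⟨0, 0, 0, 0, 0, 0, 260774, 0, 0, 0, 0, 0, 0⟩ ⟨0, 0, 0, 0, 0, 0, 260774, 0, 0, 0, 0, 0, 0⟩ ⟨41, -7, -512, 16, -24, 83, 197604, 0, 0, 0, 0, 0, 0⟩)))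
    (.leaf (.box ⟨118, -3, -745, 6, -10, 134, 989241, 0, 0, 0, 0, 0, 0⟩ ⟨78, -4, -512, 9, -14, 90, 440171, 0, 0, 0, 0, 0, 0⟩ ⟨78, -4, -512, 9, -14, 90, 440171, 0, 0, 0, 0, 0, 0⟩ ⟨74, -4, -512, 11, -21, 88, 297737, 0, 0, 0, 0, 0, 0⟩ ⟨74, -4, -512, 11, -21, 88, 297737, 0, 0, 0, 0, 0, 0⟩ ⟨68, -6, -512, 16, -25, 87, 236634, 0, 0, 0, 0, 0, 0⟩)))
    (.leaf (.box ⟨69, -5, -512, 9, -11, 86, 664070, 0, 0, 0, 0, 0, 0⟩ ⟨0, 0, 0, 0, 0, 0, 364002, 0, 0, 0, 0, 0, 0⟩ ⟨0, 0, 0, 0, 0, 0, 364002, 0, 0, 0, 0, 0, 0⟩ ⟨0, 0, 0, 0, 0, 0, 250714, 0, 0, 0, 0, 0, 0⟩ ⟨0, 0, 0, 0, 0, 0, 250714, 0, 0, 0, 0, 0, 0⟩ ⟨57, -16, -512, 32, -33, 83, 191205, 0, 0, 0, 0, 0, 0⟩)))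
    (.leaf (.box ⟨146, -3, -512, 8, -10, 99, 1117565, 0, 0, 0, 0, 0, 0⟩ ⟨0, 0, 0, 0, 0, 0, 583725, 0, 0, 0, 0, 0, 0⟩ ⟨0, 0, 0, 0, 0, 0, 583725, 0, 0, 0, 0, 0, 0⟩ ⟨0, 0, 0, 0, 0, 0, 395028, 0, 0, 0, 0, 0, 0⟩ ⟨0, 0, 0, 0, 0, 0, 395028, 0, 0, 0, 0, 0, 0⟩ ⟨124, -9, -512, 26, -33, 94, 298525, 0, 0, 0, 0, 0, 0⟩)))
    (.leaf (.skip 8 0)))

/-- A piece of the tree. -/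
noncomputable def tree96 : Tree LeafX :=
  .s1
    (.s2
    (.s0
    (.leaf (.box ⟨279, -1, -512, 11, -8, 145, 2057165, 0, 0, 0, 0, 27631754705, 0⟩ ⟨0, 0, 0, 0, 0, 0, 954235, 0, 0, 0, 0, 0, 0⟩ ⟨0, 0, 0, 0, 0, 0, 954235, 0, 0, 0, 0, 0, 0⟩ ⟨0, 0, 0, 0, 0, 0, 621190, 0, 0, 0, 0, 0, 0⟩ ⟨0, 0, 0, 0, 0, 0, 621190, 0, 0, 0, 0, 0, 0⟩ ⟨290, -2, -512, 38, -30, 132, 460475, 0, 0, 0, 0, 13904184866, 0⟩))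
    (.leaf (.box ⟨328, 0, -512, 15, -5, 171, 3588128, 0, 0, 0, 0, 18775802721, 0⟩ ⟨0, 0, 0, 0, 0, 0, 1565889, 0, 0, 0, 0, 0, 0⟩ ⟨0, 0, 0, 0, 0, 0, 1565889, 0, 0, 0, 0, 0, 0⟩ ⟨0, 0, 0, 0, 0, 0, 1001469, 0, 0, 0, 0, 0, 0⟩ ⟨0, 0, 0, 0, 0, 0, 1001469, 0, 0, 0, 0, 0, 0⟩ ⟨346, 1, -512, 64, -23, 157, 736132, 0, 0, 0, 0, 64380540870, 0⟩)))
    (.leaf (.skip 8 0)))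
    (.s2
    (.leaf (.box ⟨215, -2, -512, 11, -12, 119, 1990800, 0, 0, 0, 0, 26889002218, 0⟩ ⟨0, 0, 0, 0, 0, 0, 1012738, 0, 0, 0, 0, 0, 0⟩ ⟨0, 0, 0, 0, 0, 0, 1012738, 0, 0, 0, 0, 0, 0⟩ ⟨0, 0, 0, 0, 0, 0, 679101, 0, 0, 0, 0, 0, 0⟩ ⟨0, 0, 0, 0, 0, 0, 679101, 0, 0, 0, 0, 0, 0⟩ ⟨208, -10, -512, 46, -39, 111, 510817, 0, 0, 0, 0, 22227140036, 0⟩))
    (.leaf (.skip 8 0)))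

theorem parts4 :
    (runPathS conQ supQ (fun n Qs i d x => leafR conQ seg n Qs i d x) [.d0 true, .d1 true, .d2 false, .d0 false, .d1 true, .d1 false, .d0 true] tree92 0 0 0
      (joinS (lay.B * lay.size) rootQ) = true) ∧
    (runPathS conQ supQ (fun n Qs i d x => leafR conQ seg n Qs i d x) [.d0 true, .d1 true, .d2 false, .d0 false, .d1 true, .d1 true] tree93 0 0 0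
      (joinS (lay.B * lay.size) rootQ) = true) ∧
    (runPathS conQ supQ (fun n Qs i d x => leafR conQ seg n Qs i d x) [.d0 true, .d1 true, .d2 false, .d0 true] tree94 0 0 0
      (joinS (lay.B * lay.size) rootQ) = true) ∧
    (runPathS conQ supQ (fun n Qs i d x => leafR conQ seg n Qs i d x) [.d0 true, .d1 true, .d2 true, .d0 false] tree95 0 0 0
      (joinS (lay.B * lay.size) rootQ) = true) ∧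
    (runPathS conQ supQ (fun n Qs i d x => leafR conQ seg n Qs i d x) [.d0 true, .d1 true, .d2 true, .d0 true] tree96 0 0 0
      (joinS (lay.B * lay.size) rootQ) = true) :=
  ⟨by decide +kernel,
  by decide +kernel,
  by decide +kernel,
  by decide +kernel,
  by decide +kernel⟩

end Vale.Agent.P098.Six.S5
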